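import Mathlib

/-!
P256L: hyperbolic cubics with one node. Definitions.
-/

namespace Vale.Agent.P256L

/-- The Euclidean space of dimension `d`. -/
abbrev EE (d : ℕ) : Type := EuclideanSpace ℝ (Fin d)

/-- Cones with a second order cone lift. -/
def Rep {E : Type} [AddCommGroup E] [Module ℝ E] (S : Set E) : Prop :=
  ∃ (m k : ℕ) (L : Fin k → Fin 3 → (E × (Fin m → ℝ)) →ₗ[ℝ] ℝ),
    ∀ x, x ∈ S ↔ ∃ u : Fin m → ℝ, ∀ j, 0 ≤ L j 0 (x, u) ∧ 0 ≤ L j 2 (x, u) ∧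
      (L j 1 (x, u)) ^ 2 ≤ L j 0 (x, u) * L j 2 (x, u)

/-- Spectrahedral shadows. -/
def IsShadow {n : ℕ} (S : Set (Fin n → ℝ)) : Prop :=
  ∃ (N a : ℕ) (A₀ : Matrix (Fin N) (Fin N) ℝ) (A : Fin n → Matrix (Fin N) (Fin N) ℝ)
    (B : Fin a → Matrix (Fin N) (Fin N) ℝ),
    A₀.IsSymm ∧ (∀ i, (A i).IsSymm) ∧ (∀ j, (B j).IsSymm) ∧
    ∀ x, x ∈ S ↔ ∃ u : Fin a → ℝ, (A₀ + ∑ i, x i • A i + ∑ j, u j • B j).PosSemidef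

/-- Cubic forms: linear combinations of cubes of linear forms. -/
def IsCubic {V : Type} [AddCommGroup V] [Module ℝ V] (a : V → ℝ) : Prop :=
  ∃ (N : ℕ) (τ : Fin N → ℝ) (l : Fin N → V →ₗ[ℝ] ℝ), ∀ x, a x = ∑ j, τ j * l j x ^ 3

/-- The cone of the cubic `x₁ (x₀² - |y|²) - a (x₀, y)`. -/
def K {d : ℕ} (a : ℝ × EE d → ℝ) : Set (ℝ × (ℝ × EE d)) :=
  {x | (‖x.2.2‖ < x.2.1 ∧ a x.2 ≤ x.1 * (x.2.1 ^ 2 - ‖x.2.2‖ ^ 2)) ∨ (x.2 = 0 ∧ 0 ≤ x.1)}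

/-- The point of the boundary over `y`. -/
noncomputable def pt {d : ℕ} (a : ℝ × EE d → ℝ) (y : EE d) : ℝ × (ℝ × EE d) :=
  (a (1, y) / (1 - ‖y‖ ^ 2), (1, y))

/-- Decomposition of a cubic form near the node. -/
def Dec {W : Type} [NormedAddCommGroup W] [InnerProductSpace ℝ W] (a : ℝ × (ℝ × W) → ℝ) : Prop :=
  ∃ (N M : ℕ) (X : Fin N → (ℝ × (ℝ × W)) →ₗ[ℝ] ℝ) (Z : Fin M → (ℝ × (ℝ × W)) →ₗ[ℝ] ℝ)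
    (g : (ℝ × (ℝ × W)) →ₗ[ℝ] ℝ), (∀ j, 0 < X j (1, (0, 0))) ∧
    ∀ x, a x = ∑ j, X j x ^ 3 + x.1 * ∑ k, Z k x ^ 2 + (x.1 * x.2.1 - ‖x.2.2‖ ^ 2) * g x

end Vale.Agent.P256L
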