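import Mathlib
import Vale.Agent.Lib.P256L.Defs

/-!
PROOF SKETCH.
IsCubic calculus. Rep of a form by (N, tau, l). comp: compose the l. add: Fin.append or use Fin
(N+M) with Fin.sum_univ_add (Fin.addCases). smul: scale tau. mul3: l1 l2 l3 =
(1/24)((l1+l2+l3)^3 - (l1+l2-l3)^3 - (l1-l2+l3)^3 - (-l1+l2+l3)^3), N = 4. mul_bilin: choose a
basis b of V (Module.finBasis), B x x = sum_ij (b.coord i x)(b.coord j x) B(b i)(b j); a finite
sum lemma (induction on Finset) for IsCubic. mul_norm: B = innerₗ (real_inner_self_eq_norm_sq).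
continuous: LinearMap.continuous_of_finiteDimensional.
-/

namespace Vale.Agent.P256L

theorem IsCubic.comp {V W : Type} [AddCommGroup V] [Module ℝ V] [AddCommGroup W] [Module ℝ W]
    {a : W → ℝ} (ha : IsCubic a) (f : V →ₗ[ℝ] W) : IsCubic (fun x => a (f x)) := by
  obtain ⟨N, τ, l, h⟩ := ha
  exact ⟨N, τ, fun j => (l j).comp f, fun x => by simpa using h (f x)⟩

theorem IsCubic.add {V : Type} [AddCommGroup V] [Module ℝ V] {a b : V → ℝ} (ha : IsCubic a)
    (hb : IsCubic b) : IsCubic (fun x => a x + b x) := by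
  obtain ⟨N, τ, l, h⟩ := ha
  obtain ⟨M, σ, m, h'⟩ := hb
  refine ⟨N + M, Fin.append τ σ, Fin.append l m, fun x => ?_⟩
  simp only [Fin.sum_univ_add, h, h', Fin.append_left, Fin.append_right]

theorem IsCubic.smul {V : Type} [AddCommGroup V] [Module ℝ V] {a : V → ℝ} (ha : IsCubic a)
    (c : ℝ) : IsCubic (fun x => c * a x) := by
  obtain ⟨N, τ, l, h⟩ := ha
  refine ⟨N, fun j => c * τ j, l, fun x => ?_⟩
  simp only [h, Finset.mul_sum]
  exact Finset.sum_congr rfl fun j _ => by ring

theorem IsCubic.sub {V : Type} [AddCommGroup V] [Module ℝ V] {a b : V → ℝ} (ha : IsCubic a)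
    (hb : IsCubic b) : IsCubic (fun x => a x - b x) := by
  have h := ha.add (hb.smul (-1))
  have e : (fun x => a x - b x) = fun x => a x + -1 * b x := by
    funext x
    ring
  rw [e]
  exact h

theorem isCubic_mul3 {V : Type} [AddCommGroup V] [Module ℝ V] (l₁ l₂ l₃ : V →ₗ[ℝ] ℝ) :
    IsCubic (fun x => l₁ x * l₂ x * l₃ x) := by
  refine ⟨4, ![1 / 24, -1 / 24, -1 / 24, -1 / 24],
    ![l₁ + l₂ + l₃, l₁ + l₂ - l₃, l₁ - l₂ + l₃, -l₁ + l₂ + l₃], fun x => ?_⟩
  simp [Fin.sum_univ_four]
  ring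

private theorem isCubic_zero {V : Type} [AddCommGroup V] [Module ℝ V] :
    IsCubic (fun _ : V => (0 : ℝ)) :=
  ⟨0, Fin.elim0, Fin.elim0, fun x => by simp⟩

private theorem isCubic_sum {V ι : Type} [AddCommGroup V] [Module ℝ V] (s : Finset ι)
    (a : ι → V → ℝ) (h : ∀ i ∈ s, IsCubic (a i)) : IsCubic (fun x => ∑ i ∈ s, a i x) := by
  classical
  induction s using Finset.induction_on with
  | empty => simpa using isCubic_zero
  | insert i s hi ih =>
    have h1 := (h i (Finset.mem_insert_self i s)).add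
      (ih fun j hj => h j (Finset.mem_insert_of_mem hj))
    have e : (fun x => ∑ j ∈ insert i s, a j x) = fun x => a i x + ∑ j ∈ s, a j x := by
      funext x
      rw [Finset.sum_insert hi]
    rw [e]
    exact h1

theorem isCubic_mul_bilin {V : Type} [AddCommGroup V] [Module ℝ V] [FiniteDimensional ℝ V]
    (l : V →ₗ[ℝ] ℝ) (B : V →ₗ[ℝ] V →ₗ[ℝ] ℝ) : IsCubic (fun x => l x * B x x) := by
  classical
  let b := Module.finBasis ℝ V
  have h : ∀ x, l x * B x x = ∑ i, ∑ j, B (b i) (b j) * (l x * b.coord i x * b.coord j x) := by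
    intro x
    have hx : x = ∑ i, b.repr x i • b i := (b.sum_repr x).symm
    have h1 : B x x = ∑ i, ∑ j, b.repr x i * (b.repr x j * B (b i) (b j)) := by
      conv_lhs => rw [hx]
      simp only [map_sum, LinearMap.sum_apply, map_smul, LinearMap.smul_apply, smul_eq_mul,
        Finset.mul_sum]
      rw [Finset.sum_comm]
      refine Finset.sum_congr rfl fun i _ => Finset.sum_congr rfl fun j _ => ?_
      ring
    rw [h1, Finset.mul_sum]
    refine Finset.sum_congr rfl fun i _ => ?_
    rw [Finset.mul_sum]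
    refine Finset.sum_congr rfl fun j _ => ?_
    simp only [Module.Basis.coord_apply]
    ring
  have e : (fun x => l x * B x x) =
      fun x => ∑ i, ∑ j, B (b i) (b j) * (l x * b.coord i x * b.coord j x) := funext h
  rw [e]
  exact isCubic_sum _ _ fun i _ => isCubic_sum _ _ fun j _ => (isCubic_mul3 _ _ _).smul _

theorem isCubic_mul_norm {V : Type} [NormedAddCommGroup V] [InnerProductSpace ℝ V]
    [FiniteDimensional ℝ V] (l : V →ₗ[ℝ] ℝ) : IsCubic (fun x => l x * ‖x‖ ^ 2) := by
  have h := isCubic_mul_bilin l (innerₗ V)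
  have e : (fun x => l x * ‖x‖ ^ 2) = fun x => l x * (innerₗ V) x x := by
    funext x
    rw [innerₗ_apply_apply, real_inner_self_eq_norm_sq]
  rw [e]
  exact h

theorem IsCubic.map_smul {V : Type} [AddCommGroup V] [Module ℝ V] {a : V → ℝ} (ha : IsCubic a)
    (t : ℝ) (x : V) : a (t • x) = t ^ 3 * a x := by
  obtain ⟨N, τ, l, h⟩ := ha
  rw [h, h, Finset.mul_sum]
  refine Finset.sum_congr rfl fun j _ => ?_
  rw [(l j).map_smul, smul_eq_mul]
  ring

theorem IsCubic.map_zero {V : Type} [AddCommGroup V] [Module ℝ V] {a : V → ℝ} (ha : IsCubic a) :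
    a 0 = 0 := by
  have h := ha.map_smul 0 0
  rw [zero_smul] at h
  rw [h]
  ring

theorem IsCubic.map_neg {V : Type} [AddCommGroup V] [Module ℝ V] {a : V → ℝ} (ha : IsCubic a)
    (x : V) : a (-x) = -a x := by
  have h := ha.map_smul (-1) x
  rw [neg_one_smul] at h
  rw [h]
  ring

theorem IsCubic.continuous {V : Type} [NormedAddCommGroup V] [NormedSpace ℝ V]
    [FiniteDimensional ℝ V] {a : V → ℝ} (ha : IsCubic a) : Continuous a := by
  obtain ⟨N, τ, l, h⟩ := ha
  have e : a = fun x => ∑ j, τ j * l j x ^ 3 := funext h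
  rw [e]
  refine continuous_finsetSum _ fun j _ => ?_
  exact continuous_const.mul (((l j).continuous_of_finiteDimensional).pow 3)

end Vale.Agent.P256L
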