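import Mathlib
import Vale.Agent.Lib.P256L.Defs
import Vale.Agent.Lib.P256L.C1

/-!
PROOF SKETCH.
MvPolynomial.eval x a = sum over support of coeff * prod x_i^(d i) (eval_eq'), degree 3 for each
monomial in the support; a monomial of degree 3 is x_i x_j x_k (write the finsupp of degree 3 as
single i 1 + single j 1 + single k 1, e.g. via Multiset of card 3: Finsupp.toMultiset,
Multiset.card_eq_three), isCubic_mul3 with LinearMap.proj; finite sums of IsCubic (induction
with IsCubic.add, smul).
-/

namespace Vale.Agent.P256L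

private lemma F1_zero {V : Type} [AddCommGroup V] [Module ℝ V] :
    IsCubic (fun _ : V => (0 : ℝ)) :=
  ⟨0, Fin.elim0, fun j => Fin.elim0 j, fun x => by simp⟩

private lemma F1_sum {V ι : Type} [AddCommGroup V] [Module ℝ V] (S : Finset ι)
    (F : ι → V → ℝ) (h : ∀ s ∈ S, IsCubic (F s)) : IsCubic (fun x => ∑ s ∈ S, F s x) := by
  classical
  induction S using Finset.induction_on with
  | empty => simpa using F1_zero
  | insert s S hs ih =>
    have h1 : (fun x => ∑ t ∈ insert s S, F t x) = fun x => F s x + ∑ t ∈ S, F t x := by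
      funext x
      rw [Finset.sum_insert hs]
    rw [h1]
    exact (h s (Finset.mem_insert_self s S)).add
      (ih fun t ht => h t (Finset.mem_insert_of_mem ht))

private lemma F1_deg {n : ℕ} (d : Fin n →₀ ℕ) (hd : d.degree = 3) :
    ∃ i j k : Fin n, d = Finsupp.single i 1 + Finsupp.single j 1 + Finsupp.single k 1 := by
  classical
  have hc : Multiset.card (Finsupp.toMultiset d) = 3 := by
    rw [Finsupp.card_toMultiset]
    exact hd
  obtain ⟨i, j, k, h⟩ := Multiset.card_eq_three.1 hc
  refine ⟨i, j, k, ?_⟩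
  ext t
  rw [← Finsupp.count_toMultiset, ← Finsupp.count_toMultiset, h, map_add, map_add,
    Finsupp.toMultiset_single, Finsupp.toMultiset_single,
    Finsupp.toMultiset_single, one_smul, one_smul, one_smul]
  rfl

theorem isCubic_of_isHomogeneous {n : ℕ} (a : MvPolynomial (Fin n) ℝ) (ha : a.IsHomogeneous 3) :
    IsCubic (fun x : Fin n → ℝ => MvPolynomial.eval x a) := by
  have h1 : (fun x : Fin n → ℝ => MvPolynomial.eval x a) =
      fun x => ∑ d ∈ a.support, a.coeff d * ∏ i ∈ d.support, x i ^ d i := by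
    funext x
    exact MvPolynomial.eval_eq x a
  rw [h1]
  refine F1_sum a.support (fun d (x : Fin n → ℝ) => a.coeff d * ∏ i ∈ d.support, x i ^ d i) fun d hd => ?_
  refine IsCubic.smul ?_ (a.coeff d)
  have hdeg : d.degree = 3 := by
    have := ha (MvPolynomial.mem_support_iff.1 hd)
    rw [Finsupp.degree_eq_weight_one]
    exact this
  obtain ⟨i, j, k, rfl⟩ := F1_deg d hdeg
  have h2 : (fun x : Fin n → ℝ => ∏ t ∈ (Finsupp.single i 1 + Finsupp.single j 1 +
      Finsupp.single k 1 : Fin n →₀ ℕ).support, x t ^ (Finsupp.single i 1 + Finsupp.single j 1 +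
      Finsupp.single k 1 : Fin n →₀ ℕ) t) = fun x => (LinearMap.proj i : (Fin n → ℝ) →ₗ[ℝ] ℝ) x *
        (LinearMap.proj j : (Fin n → ℝ) →ₗ[ℝ] ℝ) x * (LinearMap.proj k : (Fin n → ℝ) →ₗ[ℝ] ℝ) x := by
    funext x
    change (Finsupp.single i 1 + Finsupp.single j 1 + Finsupp.single k 1 : Fin n →₀ ℕ).prod
      (fun t m => x t ^ m) = x i * x j * x k
    have hs : ∀ t : Fin n, (Finsupp.single t 1 : Fin n →₀ ℕ).prod (fun t m => x t ^ m) = x t := by
      intro t
      rw [Finsupp.prod_single_index (by simp), pow_one]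
    rw [Finsupp.prod_add_index' (h := fun t m => x t ^ m) (fun _ => pow_zero _)
      (fun _ _ _ => pow_add _ _ _),
      Finsupp.prod_add_index' (h := fun t m => x t ^ m) (fun _ => pow_zero _)
      (fun _ _ _ => pow_add _ _ _), hs, hs, hs]
  rw [h2]
  exact isCubic_mul3 _ _ _

end Vale.Agent.P256L
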