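import Mathlib
import Vale.Agent.Lib.P256L.Defs

/-!
PROOF SKETCH.
Dec.add: Fin (N+N2) with Fin.addCases / Fin.append and Fin.sum_univ_add. Dec.smul: c = 0: N = M
= 0, g = 0; c > 0: X scaled by the cube root (Real.rpow (1/3) or exists via odd root), Z by
sqrt, g by c. dilate: compose X, Z, g with D (x.1, (delta^2 x.2.1, delta x.2.2)), g gets
delta^2.
-/

namespace Vale.Agent.P256L

theorem Dec.add {W : Type} [NormedAddCommGroup W] [InnerProductSpace ℝ W]
    {a b : ℝ × (ℝ × W) → ℝ} (ha : Dec a) (hb : Dec b) : Dec (fun x => a x + b x) := by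
  obtain ⟨N, M, X, Z, g, hX, h⟩ := ha
  obtain ⟨N', M', X', Z', g', hX', h'⟩ := hb
  refine ⟨N + N', M + M', Fin.append X X', Fin.append Z Z', g + g', ?_, ?_⟩
  · intro j
    refine Fin.addCases (fun i => ?_) (fun i => ?_) j
    · rw [Fin.append_left]
      exact hX i
    · rw [Fin.append_right]
      exact hX' i
  · intro x
    beta_reduce
    rw [Fin.sum_univ_add, Fin.sum_univ_add, h x, h' x, LinearMap.add_apply]
    simp only [Fin.append_left, Fin.append_right]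
    ring

theorem Dec.smul {W : Type} [NormedAddCommGroup W] [InnerProductSpace ℝ W]
    {a : ℝ × (ℝ × W) → ℝ} (ha : Dec a) {c : ℝ} (hc : 0 ≤ c) : Dec (fun x => c * a x) := by
  rcases hc.eq_or_lt with hc0 | hc0
  · subst hc0
    refine ⟨0, 0, fun j => 0, fun k => 0, 0, fun j => j.elim0, fun x => ?_⟩
    simp
  · obtain ⟨N, M, X, Z, g, hX, h⟩ := ha
    obtain ⟨t, ht, ht3⟩ : ∃ t : ℝ, 0 < t ∧ t ^ 3 = c := by
      refine ⟨c ^ (1 / 3 : ℝ), Real.rpow_pos_of_pos hc0 _, ?_⟩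
      rw [← Real.rpow_natCast, ← Real.rpow_mul hc]
      norm_num
    have hs : √c ^ 2 = c := Real.sq_sqrt hc
    refine ⟨N, M, fun j => t • X j, fun k => √c • Z k, c • g, fun j => ?_, fun x => ?_⟩
    · rw [LinearMap.smul_apply, smul_eq_mul]
      exact mul_pos ht (hX j)
    · beta_reduce
      rw [h x]
      simp only [LinearMap.smul_apply, smul_eq_mul, mul_pow, ht3, hs]
      rw [← Finset.mul_sum, ← Finset.mul_sum]
      ring

theorem dec_cube {W : Type} [NormedAddCommGroup W] [InnerProductSpace ℝ W]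
    (X : (ℝ × (ℝ × W)) →ₗ[ℝ] ℝ) (hX : 0 < X (1, (0, 0))) : Dec (fun x => X x ^ 3) := by
  refine ⟨1, 0, fun _ => X, fun _ => 0, 0, fun _ => hX, fun x => ?_⟩
  simp

theorem dec_sq {W : Type} [NormedAddCommGroup W] [InnerProductSpace ℝ W]
    (Z : (ℝ × (ℝ × W)) →ₗ[ℝ] ℝ) : Dec (fun x => x.1 * Z x ^ 2) := by
  refine ⟨0, 1, fun _ => 0, fun _ => Z, 0, fun j => j.elim0, fun x => ?_⟩
  simp

theorem dec_mod {W : Type} [NormedAddCommGroup W] [InnerProductSpace ℝ W]
    (g : (ℝ × (ℝ × W)) →ₗ[ℝ] ℝ) : Dec (fun x => (x.1 * x.2.1 - ‖x.2.2‖ ^ 2) * g x) := by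
  refine ⟨0, 0, fun _ => 0, fun _ => 0, g, fun j => j.elim0, fun x => ?_⟩
  simp

theorem Dec.dilate {W : Type} [NormedAddCommGroup W] [InnerProductSpace ℝ W]
    {a : ℝ × (ℝ × W) → ℝ} (ha : Dec a) {δ : ℝ} (hδ : 0 < δ) :
    Dec (fun x => a (x.1, (δ ^ 2 * x.2.1, δ • x.2.2))) := by
  obtain ⟨N, M, X, Z, g, hX, h⟩ := ha
  let D : (ℝ × (ℝ × W)) →ₗ[ℝ] (ℝ × (ℝ × W)) :=
    { toFun := fun x => (x.1, (δ ^ 2 * x.2.1, δ • x.2.2))
      map_add' := fun x y => by
        simp only [Prod.fst_add, Prod.snd_add, mul_add, smul_add, Prod.mk_add_mk]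
      map_smul' := fun c x => by
        simp only [Prod.smul_fst, Prod.smul_snd, smul_eq_mul, RingHom.id_apply, Prod.smul_mk]
        rw [mul_left_comm, smul_comm] }
  have hD : ∀ x, D x = (x.1, (δ ^ 2 * x.2.1, δ • x.2.2)) := fun x => rfl
  refine ⟨N, M, fun j => (X j).comp D, fun k => (Z k).comp D, δ ^ 2 • (g.comp D), fun j => ?_,
    fun x => ?_⟩
  · rw [LinearMap.comp_apply, hD]
    simp only [mul_zero, smul_zero]
    exact hX j
  · beta_reduce
    rw [h]
    simp only [LinearMap.comp_apply, LinearMap.smul_apply, hD, smul_eq_mul]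
    rw [norm_smul, Real.norm_eq_abs, abs_of_pos hδ]
    ring

end Vale.Agent.P256L
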