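import Mathlib
import Vale.Agent.Lib.P256L.Defs
import Vale.Agent.Lib.P256L.N1

/-!
PROOF SKETCH.
Write e = x.1, l = x.2.1, w = x.2.2, k = dim W, b orthonormal basis (stdOrthonormalBasis R W),
w_i = <b i, w>. Work with T := {a | exists M >= 0, Dec (a + M e^3)} (closed under +, * c >= 0;
make private lemmas). In T: (A) Y^3 + 3 e Y^2 + 3 e^2 Y for every linear Y vanishing at (1,0,0)
(cube of e + Y); (B) e Z^2; (C) 2 e^2 Y + e Y^2 (Z = e + Y); (D) (e l - |w|^2) g, both signs.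
Sum of (A) over Y = lam w_i - l and Y = -lam w_i - l, i = 1..k: -6k e^2 l + 6 lam^2 e |w|^2 + 6
k e l^2 - 2k l^3 - 6 lam^2 |w|^2 l; by (D): = 6(lam^2-k) e^2 l - 6 (lam^2-k) e l^2 - 2k l^3 in
T. mu = lam^2 - k := 2k+1. Add 2k (A for Y = l): (6 mu + 6k) e^2 l - (6 mu - 6k) e l^2. Add
(6mu+6k) * (-e^2 l + (eps/2) e l^2) ((C) with Y = -eps l divided by 2 eps), eps = 1/3:
coefficient of e l^2: -(6k+6) + (18k+6)/6 = -(3k+5) < 0. Divide.

So, with lam^2 = 3k+1: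
(31k+9) e^3 - (3k+5) e l^2 = sum_i ((e + lam w_i - l)^3 + (e - lam w_i - l)^3)
  + 2k (e + l)^3 + (27k+9) e (e - l/3)^2 + (e l - |w|^2) (6 (3k+1) (e - l)).
-/

namespace Vale.Agent.P256L

section N2a

variable {W : Type} [NormedAddCommGroup W] [InnerProductSpace ℝ W]

private theorem N2a_zero : Dec (fun _ : ℝ × (ℝ × W) => (0 : ℝ)) := by
  have h := (dec_sq (0 : (ℝ × (ℝ × W)) →ₗ[ℝ] ℝ)).smul (c := 0) le_rfl
  have e : (fun x : ℝ × (ℝ × W) => (0 : ℝ) * (x.1 * (0 : (ℝ × (ℝ × W)) →ₗ[ℝ] ℝ) x ^ 2)) =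
      fun _ => 0 := by
    funext x
    rw [zero_mul]
  rw [e] at h
  exact h

private theorem N2a_sum {ι : Type} (s : Finset ι) (f : ι → ℝ × (ℝ × W) → ℝ)
    (h : ∀ i, Dec (f i)) : Dec (fun x => ∑ i ∈ s, f i x) := by
  classical
  induction s using Finset.induction_on with
  | empty =>
    simp only [Finset.sum_empty]
    exact N2a_zero
  | insert i s hi ih =>
    simp only [Finset.sum_insert hi]
    exact (h i).add ih

end N2a

theorem tcone_ell2 {W : Type} [NormedAddCommGroup W] [InnerProductSpace ℝ W]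
    [FiniteDimensional ℝ W] :
    ∃ M : ℝ, 0 ≤ M ∧ Dec (fun x : ℝ × (ℝ × W) => -(x.1 * x.2.1 ^ 2) + M * x.1 ^ 3) := by
  obtain ⟨k, hk⟩ : ∃ k : ℝ, k = (Module.finrank ℝ W : ℝ) := ⟨_, rfl⟩
  have hk0 : 0 ≤ k := by rw [hk]; positivity
  obtain ⟨lam, hlam⟩ : ∃ lam : ℝ, lam ^ 2 = 3 * k + 1 :=
    ⟨Real.sqrt (3 * k + 1), Real.sq_sqrt (by linarith)⟩
  have b := stdOrthonormalBasis ℝ W
  obtain ⟨e, he⟩ : ∃ e : (ℝ × (ℝ × W)) →ₗ[ℝ] ℝ, ∀ x, e x = x.1 :=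
    ⟨LinearMap.fst ℝ ℝ (ℝ × W), fun x => rfl⟩
  obtain ⟨l, hl⟩ : ∃ l : (ℝ × (ℝ × W)) →ₗ[ℝ] ℝ, ∀ x, l x = x.2.1 :=
    ⟨(LinearMap.fst ℝ ℝ W) ∘ₗ (LinearMap.snd ℝ ℝ (ℝ × W)), fun x => rfl⟩
  have hw : ∀ i, ∃ w : (ℝ × (ℝ × W)) →ₗ[ℝ] ℝ, ∀ x, w x = inner ℝ (b i) x.2.2 := fun i =>
    ⟨(innerₛₗ ℝ (b i) : W →ₗ[ℝ] ℝ) ∘ₗ (LinearMap.snd ℝ ℝ W) ∘ₗ (LinearMap.snd ℝ ℝ (ℝ × W)),
      fun x => rfl⟩
  choose w hw using hw
  have h1 : ∀ i, Dec (fun x : ℝ × (ℝ × W) => (e + lam • w i - l) x ^ 3) := fun i =>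
    dec_cube _ (by
      simp only [LinearMap.sub_apply, LinearMap.add_apply, LinearMap.smul_apply, he, hl, hw,
        inner_zero_right, smul_zero]
      norm_num)
  have h2 : ∀ i, Dec (fun x : ℝ × (ℝ × W) => (e - lam • w i - l) x ^ 3) := fun i =>
    dec_cube _ (by
      simp only [LinearMap.sub_apply, LinearMap.smul_apply, he, hl, hw,
        inner_zero_right, smul_zero]
      norm_num)
  have h3 : Dec (fun x : ℝ × (ℝ × W) => (e + l) x ^ 3) :=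
    dec_cube _ (by
      simp only [LinearMap.add_apply, he, hl]
      norm_num)
  have h4 : Dec (fun x : ℝ × (ℝ × W) => x.1 * (e - (1 / 3 : ℝ) • l) x ^ 2) := dec_sq _
  have h5 : Dec (fun x : ℝ × (ℝ × W) => (x.1 * x.2.1 - ‖x.2.2‖ ^ 2) *
      ((6 * (3 * k + 1)) • (e - l)) x) := dec_mod _
  have h6 := ((((N2a_sum Finset.univ _ fun i => (h1 i).add (h2 i)).add
    (h3.smul (c := 2 * k) (by positivity))).add
    (h4.smul (c := 27 * k + 9) (by positivity))).add h5).smul (c := 1 / (3 * k + 5))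
    (by positivity)
  refine ⟨(31 * k + 9) / (3 * k + 5), by positivity, ?_⟩
  have hfun : (fun x : ℝ × (ℝ × W) => -(x.1 * x.2.1 ^ 2) +
      (31 * k + 9) / (3 * k + 5) * x.1 ^ 3) = fun x : ℝ × (ℝ × W) => 1 / (3 * k + 5) *
      (∑ i, ((e + lam • w i - l) x ^ 3 + (e - lam • w i - l) x ^ 3) + 2 * k * (e + l) x ^ 3 +
        (27 * k + 9) * (x.1 * (e - (1 / 3 : ℝ) • l) x ^ 2) +
        (x.1 * x.2.1 - ‖x.2.2‖ ^ 2) * ((6 * (3 * k + 1)) • (e - l)) x) := by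
    funext x
    have hs : ∑ i, (w i x) ^ 2 = ‖x.2.2‖ ^ 2 := by
      rw [← b.sum_sq_norm_inner_right x.2.2]
      refine Finset.sum_congr rfl fun i _ => ?_
      rw [hw, Real.norm_eq_abs, sq_abs]
    have hsum : ∑ i, ((e + lam • w i - l) x ^ 3 + (e - lam • w i - l) x ^ 3) =
        2 * k * (x.1 - x.2.1) ^ 3 + 6 * (x.1 - x.2.1) * (3 * k + 1) * ‖x.2.2‖ ^ 2 := by
      have h7 : ∀ i, (e + lam • w i - l) x ^ 3 + (e - lam • w i - l) x ^ 3 =
          2 * (x.1 - x.2.1) ^ 3 + 6 * (x.1 - x.2.1) * (3 * k + 1) * (w i x) ^ 2 := by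
        intro i
        simp only [LinearMap.sub_apply, LinearMap.add_apply, LinearMap.smul_apply, he, hl,
          smul_eq_mul]
        rw [← hlam]
        ring
      simp only [h7]
      have h8 : ∑ i, 6 * (x.1 - x.2.1) * (3 * k + 1) * (w i x) ^ 2 =
          6 * (x.1 - x.2.1) * (3 * k + 1) * ‖x.2.2‖ ^ 2 := by
        rw [← Finset.mul_sum, hs]
      rw [Finset.sum_add_distrib, h8, Finset.sum_const, Finset.card_univ,
        Fintype.card_fin, nsmul_eq_mul, ← hk]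
      ring
    rw [hsum]
    simp only [LinearMap.sub_apply, LinearMap.add_apply, LinearMap.smul_apply, he, hl,
      smul_eq_mul]
    have hk5 : 3 * k + 5 ≠ 0 := by positivity
    field_simp
    ring
  rw [hfun]
  exact h6

end Vale.Agent.P256L
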