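import Mathlib
import Vale.Agent.Lib.P256L.Defs
import Vale.Agent.Lib.P256L.C1
import Vale.Agent.Lib.P256L.N2a

/-!
PROOF SKETCH.
With T as in N2a (a in T iff exists M >= 0, Dec (a + M e^3)). -e l^2 in T (tcone_ell2), -e^2 l +
(eps/2) e l^2 in T so -e^2 l in T; e^2 l = e (e l - |w|^2) + e |w|^2 in T, |w|^2 = sum w_i^2; -e
|w|^2 = e(e l - |w|^2) - e^2 l in T; -e w_i^2 = -e|w|^2 + sum_{j != i} e w_j^2 in T. The set of
linear forms Y (vanishing at (1,0,0)) with -e Y^2 in T is closed under scaling and sums: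
-e(a+b)^2 = -2e a^2 - 2 e b^2 + e(a-b)^2; contains l and w_i, so all Y. Then 2e^2 Y + e Y^2
gives +-e^2 Y in T; (e+Y)^3 gives +-Y^3 in T. A general linear form L = beta e + Y: L^3 = beta^3
e^3 + 3 beta^2 e^2 Y + 3 beta e Y^2 + Y^3 in +-T (e^3 and -e^3 are in T). Sum over the cubes of
a.
-/

namespace Vale.Agent.P256L

section

variable {W : Type} [NormedAddCommGroup W] [InnerProductSpace ℝ W]

/-- the cone `T` -/
private def TC (a : ℝ × (ℝ × W) → ℝ) : Prop :=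
  ∃ M : ℝ, 0 ≤ M ∧ Dec (fun x => a x + M * x.1 ^ 3)

private theorem TC.congr {a b : ℝ × (ℝ × W) → ℝ} (h : TC a) (hab : ∀ x, a x = b x) : TC b := by
  have : a = b := funext hab
  rwa [← this]

private theorem TC.add {a b : ℝ × (ℝ × W) → ℝ} (ha : TC a) (hb : TC b) :
    TC (fun x => a x + b x) := by
  obtain ⟨M, hM, h⟩ := ha
  obtain ⟨N, hN, h'⟩ := hb
  refine ⟨M + N, add_nonneg hM hN, ?_⟩
  have h1 := h.add h'
  have e : (fun x : ℝ × (ℝ × W) => a x + M * x.1 ^ 3 + (b x + N * x.1 ^ 3)) =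
      fun x => a x + b x + (M + N) * x.1 ^ 3 := by
    funext x
    ring
  rwa [e] at h1

private theorem TC.smul {a : ℝ × (ℝ × W) → ℝ} (ha : TC a) {c : ℝ} (hc : 0 ≤ c) :
    TC (fun x => c * a x) := by
  obtain ⟨M, hM, h⟩ := ha
  refine ⟨c * M, mul_nonneg hc hM, ?_⟩
  have h1 := h.smul hc
  have e : (fun x : ℝ × (ℝ × W) => c * (a x + M * x.1 ^ 3)) =
      fun x => c * a x + c * M * x.1 ^ 3 := by
    funext x
    ring
  rwa [e] at h1

private theorem TC.of_dec {a : ℝ × (ℝ × W) → ℝ} (ha : Dec a) : TC a := by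
  refine ⟨0, le_rfl, ?_⟩
  have e : (fun x : ℝ × (ℝ × W) => a x + 0 * x.1 ^ 3) = a := by
    funext x
    ring
  rwa [e]

private theorem tc_zero : TC (fun _ : ℝ × (ℝ × W) => 0) := by
  have h := (dec_sq (W := W) 0).smul (c := 0) le_rfl
  exact (TC.of_dec h).congr fun x => by ring

private theorem tc_sum {ι : Type} (s : Finset ι) {f : ι → ℝ × (ℝ × W) → ℝ}
    (h : ∀ i ∈ s, TC (f i)) : TC (fun x => ∑ i ∈ s, f i x) := by
  classical
  induction s using Finset.induction_on with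
  | empty => exact tc_zero.congr fun x => by rw [Finset.sum_empty]
  | insert i s hi ih =>
    have h1 := (h i (Finset.mem_insert_self i s)).add
      (ih fun j hj => h j (Finset.mem_insert_of_mem hj))
    exact h1.congr fun x => by rw [Finset.sum_insert hi]

/-- the form `e` -/
private def fe : (ℝ × (ℝ × W)) →ₗ[ℝ] ℝ := LinearMap.fst ℝ ℝ (ℝ × W)

/-- the form `l` -/
private def fl : (ℝ × (ℝ × W)) →ₗ[ℝ] ℝ := (LinearMap.fst ℝ ℝ W).comp (LinearMap.snd ℝ ℝ (ℝ × W))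

/-- the form `⟨v, w⟩` -/
private noncomputable def fw (v : W) : (ℝ × (ℝ × W)) →ₗ[ℝ] ℝ :=
  (innerₗ W v).comp ((LinearMap.snd ℝ ℝ W).comp (LinearMap.snd ℝ ℝ (ℝ × W)))

private theorem fe_apply (x : ℝ × (ℝ × W)) : fe x = x.1 := rfl

private theorem fl_apply (x : ℝ × (ℝ × W)) : fl x = x.2.1 := rfl

private theorem fw_apply (v : W) (x : ℝ × (ℝ × W)) : fw v x = inner ℝ v x.2.2 := rfl

private theorem tc_e3 : TC (fun x : ℝ × (ℝ × W) => x.1 ^ 3) := by
  refine TC.of_dec (dec_cube (fe (W := W)) ?_)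
  rw [fe_apply]
  exact one_pos

private theorem tc_neg_e3 : TC (fun x : ℝ × (ℝ × W) => -(x.1 ^ 3)) := by
  refine ⟨1, zero_le_one, ?_⟩
  have h := (dec_sq (W := W) 0).smul (c := 0) le_rfl
  have e : (fun x : ℝ × (ℝ × W) => (0 : ℝ) * (x.1 * (0 : (ℝ × (ℝ × W)) →ₗ[ℝ] ℝ) x ^ 2)) =
      fun x => -(x.1 ^ 3) + 1 * x.1 ^ 3 := by
    funext x
    ring
  rwa [e] at h

private theorem tc_sq (Z : (ℝ × (ℝ × W)) →ₗ[ℝ] ℝ) : TC (fun x => x.1 * Z x ^ 2) :=
  TC.of_dec (dec_sq Z)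

private theorem tc_mod (g : (ℝ × (ℝ × W)) →ₗ[ℝ] ℝ) :
    TC (fun x => (x.1 * x.2.1 - ‖x.2.2‖ ^ 2) * g x) :=
  TC.of_dec (dec_mod g)

/-- (C) -/
private theorem tc_C (Y : (ℝ × (ℝ × W)) →ₗ[ℝ] ℝ) :
    TC (fun x => 2 * (x.1 ^ 2 * Y x) + x.1 * Y x ^ 2) := by
  refine ((tc_sq (fe + Y)).add tc_neg_e3).congr fun x => ?_
  rw [LinearMap.add_apply, fe_apply]
  ring

/-- `-e Y² ∈ T` -/
private def NS (Y : (ℝ × (ℝ × W)) →ₗ[ℝ] ℝ) : Prop := TC (fun x => -(x.1 * Y x ^ 2))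

private theorem NS.add {Y Z : (ℝ × (ℝ × W)) →ₗ[ℝ] ℝ} (hY : NS Y) (hZ : NS Z) : NS (Y + Z) := by
  refine (((hY.smul (c := 2) (by norm_num)).add (hZ.smul (c := 2) (by norm_num))).add
    (tc_sq (Y - Z))).congr fun x => ?_
  rw [LinearMap.sub_apply, LinearMap.add_apply]
  ring

private theorem NS.smul {Y : (ℝ × (ℝ × W)) →ₗ[ℝ] ℝ} (hY : NS Y) (c : ℝ) : NS (c • Y) := by
  refine (TC.smul hY (c := c ^ 2) (by positivity)).congr fun x => ?_
  rw [LinearMap.smul_apply, smul_eq_mul]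
  ring

private theorem ns_sum {ι : Type} (s : Finset ι) {f : ι → (ℝ × (ℝ × W)) →ₗ[ℝ] ℝ}
    (h : ∀ i ∈ s, NS (f i)) : NS (∑ i ∈ s, f i) := by
  classical
  induction s using Finset.induction_on with
  | empty => exact tc_zero.congr fun x => by rw [Finset.sum_empty, LinearMap.zero_apply]; ring
  | insert i s hi ih =>
    rw [Finset.sum_insert hi]
    exact (h i (Finset.mem_insert_self i s)).add (ih fun j hj => h j (Finset.mem_insert_of_mem hj))

variable [FiniteDimensional ℝ W]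

private theorem ns_l : NS (fl (W := W)) := by
  obtain ⟨M, hM, h⟩ := tcone_ell2 (W := W)
  exact ⟨M, hM, h⟩

/-- `-e² l ∈ T` -/
private theorem tc_neg_l : TC (fun x : ℝ × (ℝ × W) => -(x.1 ^ 2 * x.2.1)) := by
  refine (((tc_C (-(fl (W := W)))).add ns_l).smul (c := 1 / 2) (by norm_num)).congr fun x => ?_
  rw [LinearMap.neg_apply, fl_apply]
  ring

private theorem norm_sq_eq (w : W) :
    ‖w‖ ^ 2 = ∑ i, inner ℝ (stdOrthonormalBasis ℝ W i) w ^ 2 := by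
  have h := (stdOrthonormalBasis ℝ W).sum_sq_norm_inner_right w
  rw [← h]
  refine Finset.sum_congr rfl fun i _ => ?_
  rw [Real.norm_eq_abs, sq_abs]

/-- `-e |w|² ∈ T` -/
private theorem tc_neg_w : TC (fun x : ℝ × (ℝ × W) => -(x.1 * ‖x.2.2‖ ^ 2)) := by
  refine ((tc_mod (fe (W := W))).add tc_neg_l).congr fun x => ?_
  rw [fe_apply]
  ring

private theorem ns_w (i : Fin (Module.finrank ℝ W)) : NS (fw (stdOrthonormalBasis ℝ W i)) := by
  classical
  have h1 := tc_neg_w.add (tc_sum (Finset.univ.erase i) (f := fun j (x : ℝ × (ℝ × W)) =>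
    x.1 * fw (stdOrthonormalBasis ℝ W j) x ^ 2) fun j _ => tc_sq _)
  refine h1.congr fun x => ?_
  simp only [fw_apply]
  rw [norm_sq_eq, ← Finset.add_sum_erase Finset.univ _ (Finset.mem_univ i), ← Finset.mul_sum]
  ring

private theorem ns_all {Y : (ℝ × (ℝ × W)) →ₗ[ℝ] ℝ} (hY : Y (1, (0, 0)) = 0) : NS Y := by
  have e : Y = Y (0, (1, 0)) • fl +
      ∑ i, Y (0, (0, stdOrthonormalBasis ℝ W i)) • fw (stdOrthonormalBasis ℝ W i) := by
    refine LinearMap.ext fun x => ?_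
    rw [LinearMap.add_apply, LinearMap.sum_apply]
    simp only [LinearMap.smul_apply, smul_eq_mul, fl_apply, fw_apply]
    have h1 : x = x.1 • ((1 : ℝ), ((0 : ℝ), (0 : W))) + (x.2.1 • ((0 : ℝ), ((1 : ℝ), (0 : W))) +
        ∑ i, inner ℝ (stdOrthonormalBasis ℝ W i) x.2.2 •
          ((0 : ℝ), ((0 : ℝ), stdOrthonormalBasis ℝ W i))) := by
      have h2 : x.2.2 = ∑ i, inner ℝ (stdOrthonormalBasis ℝ W i) x.2.2 •
          stdOrthonormalBasis ℝ W i := ((stdOrthonormalBasis ℝ W).sum_repr' x.2.2).symm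
      refine Prod.ext ?_ (Prod.ext ?_ ?_)
      · simp [Prod.fst_sum]
      · simp [Prod.snd_sum, Prod.fst_sum]
      · simp only [Prod.snd_add, Prod.smul_snd, smul_zero, zero_add, Prod.snd_sum]
        exact h2
    conv_lhs => rw [h1]
    rw [map_add, map_add, map_smul, map_smul, hY, map_sum]
    simp only [map_smul, smul_eq_mul, mul_zero, zero_add]
    rw [mul_comm]
    congr 1
    exact Finset.sum_congr rfl fun i _ => mul_comm _ _
  rw [e]
  exact (ns_l.smul _).add (ns_sum _ fun i _ => (ns_w i).smul _)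

/-- `e² Y ∈ T` -/
private theorem tc_e2Y {Y : (ℝ × (ℝ × W)) →ₗ[ℝ] ℝ} (hY : Y (1, (0, 0)) = 0) :
    TC (fun x => x.1 ^ 2 * Y x) := by
  refine (((tc_C Y).add (ns_all hY)).smul (c := 1 / 2) (by norm_num)).congr fun x => ?_
  ring

/-- `Y³ ∈ T` -/
private theorem tc_Y3 {Y : (ℝ × (ℝ × W)) →ₗ[ℝ] ℝ} (hY : Y (1, (0, 0)) = 0) :
    TC (fun x => Y x ^ 3) := by
  have h1 : TC (fun x => ((fe : (ℝ × (ℝ × W)) →ₗ[ℝ] ℝ) + Y) x ^ 3) := by
    refine TC.of_dec (dec_cube _ ?_)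
    rw [LinearMap.add_apply, hY, add_zero, fe_apply]
    exact one_pos
  have h2 : TC (fun x => x.1 ^ 2 * (-Y) x) := tc_e2Y (by rw [LinearMap.neg_apply, hY, neg_zero])
  refine (((h1.add tc_neg_e3).add (h2.smul (c := 3) (by norm_num))).add
    (TC.smul (ns_all hY) (c := 3) (by norm_num))).congr fun x => ?_
  rw [LinearMap.neg_apply, LinearMap.add_apply, fe_apply]
  ring

/-- both signs -/
private def T2 (f : ℝ × (ℝ × W) → ℝ) : Prop := TC f ∧ TC (fun x => -f x)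

omit [FiniteDimensional ℝ W] in
private theorem T2.add {f g : ℝ × (ℝ × W) → ℝ} (hf : T2 f) (hg : T2 g) : T2 (fun x => f x + g x) :=
  ⟨hf.1.add hg.1, (hf.2.add hg.2).congr fun x => by ring⟩

omit [FiniteDimensional ℝ W] in
private theorem T2.smul {f : ℝ × (ℝ × W) → ℝ} (hf : T2 f) (c : ℝ) : T2 (fun x => c * f x) := by
  rcases le_total 0 c with hc | hc
  · exact ⟨hf.1.smul hc, (hf.2.smul hc).congr fun x => by ring⟩
  · have hc' : 0 ≤ -c := by linarith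
    exact ⟨(hf.2.smul hc').congr fun x => by ring, (hf.1.smul hc').congr fun x => by ring⟩

omit [FiniteDimensional ℝ W] in
private theorem T2.congr {f g : ℝ × (ℝ × W) → ℝ} (hf : T2 f) (h : ∀ x, f x = g x) : T2 g := by
  have : f = g := funext h
  rwa [← this]

omit [FiniteDimensional ℝ W] in
private theorem t2_sum {ι : Type} (s : Finset ι) {f : ι → ℝ × (ℝ × W) → ℝ}
    (h : ∀ i ∈ s, T2 (f i)) : T2 (fun x => ∑ i ∈ s, f i x) := by
  refine ⟨tc_sum s fun i hi => (h i hi).1, (tc_sum s fun i hi => (h i hi).2).congr fun x => ?_⟩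
  rw [Finset.sum_neg_distrib]

private theorem t2_cube (L : (ℝ × (ℝ × W)) →ₗ[ℝ] ℝ) : T2 (fun x => L x ^ 3) := by
  set β : ℝ := L (1, (0, 0)) with hβ
  set Y : (ℝ × (ℝ × W)) →ₗ[ℝ] ℝ := L - β • fe with hYd
  have hY : Y (1, (0, 0)) = 0 := by
    rw [hYd, LinearMap.sub_apply, LinearMap.smul_apply, fe_apply, smul_eq_mul, mul_one, ← hβ,
      sub_self]
  have hY' : (-Y) (1, (0, 0)) = 0 := by rw [LinearMap.neg_apply, hY, neg_zero]
  have h1 : T2 (fun x : ℝ × (ℝ × W) => x.1 ^ 3) := ⟨tc_e3, tc_neg_e3⟩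
  have h2 : T2 (fun x => x.1 ^ 2 * Y x) :=
    ⟨tc_e2Y hY, (tc_e2Y hY').congr fun x => by rw [LinearMap.neg_apply]; ring⟩
  have h3 : T2 (fun x => x.1 * Y x ^ 2) := ⟨tc_sq Y, ns_all hY⟩
  have h4 : T2 (fun x => Y x ^ 3) :=
    ⟨tc_Y3 hY, (tc_Y3 hY').congr fun x => by rw [LinearMap.neg_apply]; ring⟩
  refine ((((h1.smul (β ^ 3)).add (h2.smul (3 * β ^ 2))).add (h3.smul (3 * β))).add h4).congr
    fun x => ?_
  have h5 : L x = β * x.1 + Y x := by
    rw [hYd, LinearMap.sub_apply, LinearMap.smul_apply, fe_apply, smul_eq_mul]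
    ring
  rw [h5]
  ring

end

theorem tcone {W : Type} [NormedAddCommGroup W] [InnerProductSpace ℝ W]
    [FiniteDimensional ℝ W] {a : ℝ × (ℝ × W) → ℝ} (ha : IsCubic a) :
    ∃ M : ℝ, 0 ≤ M ∧ Dec (fun x => a x + M * x.1 ^ 3) := by
  obtain ⟨N, τ, l, hl⟩ := ha
  have h1 : T2 a := (t2_sum Finset.univ (f := fun j x => τ j * l j x ^ 3) fun j _ =>
    (t2_cube (l j)).smul (τ j)).congr fun x => (hl x).symm
  exact h1.1

end Vale.Agent.P256L
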