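import Mathlib
import Vale.Agent.Lib.P256L.Defs
import Vale.Agent.Lib.P256L.N2b

/-!
PROOF SKETCH.
a = sum tau_j L_j^3, L_j(e,l,w) = beta_j e + eta_j l + v_j(w). For delta > 0: a(e, delta^2 l,
delta w) = alpha0 e^3 + sum_{k=1}^{6} delta^k r_k with r_k cubic forms not depending on delta
(k=1: 3 beta^2 e^2 v; k=2: 3 beta^2 eta e^2 l + 3 beta e v^2; k=3: 6 beta eta e l v + v^3; k=4:
3 beta eta^2 e l^2 + 3 eta l v^2; k=5: 3 eta^2 l^2 v; k=6: eta^3 l^3), IsCubic by isCubic_mul3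
(import C1), alpha0 = a(1,0,0) > 0. tcone: M_k with Dec (r_k + M_k e^3). For delta small alpha0
>= sum delta^k M_k, so a o D_delta = sum delta^k (r_k + M_k e^3) + (rest >= 0) e^3 is Dec; then
Dec.dilate with 1/delta.
-/

namespace Vale.Agent.P256L

variable {W : Type} [NormedAddCommGroup W] [InnerProductSpace ℝ W]

/-- `f + ε e³` has a decomposition for every `ε > 0` -/
private def N3Good (f : ℝ × (ℝ × W) → ℝ) : Prop := ∀ ε : ℝ, 0 < ε → Dec (fun x => f x + ε * x.1 ^ 3)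

private theorem N3_cube : Dec (fun x : ℝ × (ℝ × W) => x.1 ^ 3) :=
  dec_cube (LinearMap.fst ℝ ℝ (ℝ × W)) (by simp)

private theorem N3_congr {f g : ℝ × (ℝ × W) → ℝ} (h : Dec f) (hfg : ∀ x, f x = g x) : Dec g := by
  have : f = g := funext hfg
  rwa [← this]

private theorem N3Good.add {f g : ℝ × (ℝ × W) → ℝ} (hf : N3Good f) (hg : N3Good g) :
    N3Good (fun x => f x + g x) := by
  intro ε hε
  refine N3_congr ((hf (ε / 2) (by positivity)).add (hg (ε / 2) (by positivity))) fun x => ?_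
  ring

private theorem N3Good_zero : N3Good (fun _ : ℝ × (ℝ × W) => 0) := by
  intro ε hε
  refine N3_congr (N3_cube.smul hε.le) fun x => ?_
  ring

private theorem N3Good_sum {N : ℕ} (f : Fin N → ℝ × (ℝ × W) → ℝ) (h : ∀ j, N3Good (f j)) :
    N3Good (fun x => ∑ j, f j x) := by
  have key : ∀ s : Finset (Fin N), N3Good (fun x => ∑ j ∈ s, f j x) := by
    intro s
    induction s using Finset.induction_on with
    | empty =>
      simp only [Finset.sum_empty]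
      exact N3Good_zero
    | insert i s hi ih =>
      simp only [Finset.sum_insert hi]
      exact (h i).add ih
  exact key Finset.univ

private theorem N3Good_of_weight [FiniteDimensional ℝ W] {f : ℝ × (ℝ × W) → ℝ} (hf : IsCubic f)
    {k : ℕ} (hk : 1 ≤ k)
    (hw : ∀ δ : ℝ, ∀ x : ℝ × (ℝ × W), f (x.1, (δ ^ 2 * x.2.1, δ • x.2.2)) = δ ^ k * f x) :
    N3Good f := by
  intro ε hε
  obtain ⟨M, hM, hd⟩ := tcone hf
  set δ : ℝ := min 1 (ε / (M + 1)) with hδ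
  have hδ0 : 0 < δ := lt_min one_pos (by positivity)
  have hδ1 : δ ≤ 1 := min_le_left _ _
  have hδk : δ ^ k * M ≤ ε := by
    have h1 : δ ^ k ≤ δ := by
      calc δ ^ k ≤ δ ^ 1 := pow_le_pow_of_le_one hδ0.le hδ1 hk
        _ = δ := pow_one δ
    have h2 : δ ≤ ε / (M + 1) := min_le_right _ _
    rw [le_div_iff₀ (by positivity)] at h2
    nlinarith [mul_le_mul_of_nonneg_right h1 hM]
  have h1 := ((hd.dilate (inv_pos.2 hδ0)).smul (pow_nonneg hδ0.le k)).add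
    (N3_cube.smul (sub_nonneg.2 hδk))
  refine N3_congr h1 fun x => ?_
  have h2 := hw δ⁻¹ x
  rw [h2, inv_pow]
  have h3 : δ ^ k ≠ 0 := (pow_pos hδ0 k).ne'
  field_simp
  ring

private theorem N3_term [FiniteDimensional ℝ W] (c : ℝ) (l₁ l₂ l₃ : (ℝ × (ℝ × W)) →ₗ[ℝ] ℝ)
    (k₁ k₂ k₃ : ℕ)
    (h₁ : ∀ δ : ℝ, ∀ x : ℝ × (ℝ × W), l₁ (x.1, (δ ^ 2 * x.2.1, δ • x.2.2)) = δ ^ k₁ * l₁ x)
    (h₂ : ∀ δ : ℝ, ∀ x : ℝ × (ℝ × W), l₂ (x.1, (δ ^ 2 * x.2.1, δ • x.2.2)) = δ ^ k₂ * l₂ x)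
    (h₃ : ∀ δ : ℝ, ∀ x : ℝ × (ℝ × W), l₃ (x.1, (δ ^ 2 * x.2.1, δ • x.2.2)) = δ ^ k₃ * l₃ x)
    (hk : 1 ≤ k₁ + k₂ + k₃) : N3Good (fun x => c * (l₁ x * l₂ x * l₃ x)) := by
  have hcub : IsCubic (fun x => c * (l₁ x * l₂ x * l₃ x)) := by
    refine ⟨4, ![c / 24, -(c / 24), -(c / 24), -(c / 24)],
      ![l₁ + l₂ + l₃, l₁ + l₂ - l₃, l₁ - l₂ + l₃, -l₁ + l₂ + l₃], fun x => ?_⟩
    simp only [Fin.sum_univ_four, Matrix.cons_val_zero, Matrix.cons_val_one, Matrix.cons_val,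
      LinearMap.add_apply, LinearMap.sub_apply, LinearMap.neg_apply]
    ring
  refine N3Good_of_weight hcub hk fun δ x => ?_
  simp only [h₁, h₂, h₃]
  ring

theorem dec_of_pos {W : Type} [NormedAddCommGroup W] [InnerProductSpace ℝ W]
    [FiniteDimensional ℝ W] {a : ℝ × (ℝ × W) → ℝ} (ha : IsCubic a) (h : 0 < a (1, (0, 0))) :
    Dec a := by
  obtain ⟨N, τ, L, hL⟩ := ha
  let A : Fin N → (ℝ × (ℝ × W)) →ₗ[ℝ] ℝ := fun j => (L j (1, (0, 0))) • LinearMap.fst ℝ ℝ (ℝ × W)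
  let C : Fin N → (ℝ × (ℝ × W)) →ₗ[ℝ] ℝ := fun j =>
    (L j (0, (1, 0))) • ((LinearMap.fst ℝ ℝ W).comp (LinearMap.snd ℝ ℝ (ℝ × W)))
  let B : Fin N → (ℝ × (ℝ × W)) →ₗ[ℝ] ℝ := fun j =>
    (L j).comp ((LinearMap.inr ℝ ℝ (ℝ × W)).comp ((LinearMap.inr ℝ ℝ W).comp
      ((LinearMap.snd ℝ ℝ W).comp (LinearMap.snd ℝ ℝ (ℝ × W)))))
  have hA : ∀ j x, A j x = L j (1, (0, 0)) * x.1 := fun j x => rfl
  have hC : ∀ j x, C j x = L j (0, (1, 0)) * x.2.1 := fun j x => rfl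
  have hB : ∀ j x, B j x = L j (0, (0, x.2.2)) := fun j x => rfl
  have hsum : ∀ j x, L j x = A j x + B j x + C j x := by
    intro j x
    have hx : x = x.1 • ((1, (0, 0)) : ℝ × (ℝ × W)) + ((0, (0, x.2.2)) : ℝ × (ℝ × W)) +
        x.2.1 • ((0, (1, 0)) : ℝ × (ℝ × W)) := by
      ext <;> simp
    conv_lhs => rw [hx]
    rw [map_add, map_add, map_smul, map_smul, smul_eq_mul, smul_eq_mul, hA, hB, hC]
    ring
  have wA : ∀ j (δ : ℝ) (x : ℝ × (ℝ × W)),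
      A j (x.1, (δ ^ 2 * x.2.1, δ • x.2.2)) = δ ^ 0 * A j x := by
    intro j δ x
    rw [hA, hA, pow_zero, one_mul]
  have wB : ∀ j (δ : ℝ) (x : ℝ × (ℝ × W)),
      B j (x.1, (δ ^ 2 * x.2.1, δ • x.2.2)) = δ ^ 1 * B j x := by
    intro j δ x
    rw [hB, hB, pow_one]
    have h1 : ((0, (0, δ • x.2.2)) : ℝ × (ℝ × W)) = δ • ((0, (0, x.2.2)) : ℝ × (ℝ × W)) := by
      ext <;> simp
    have h2 : L j (0, (0, δ • x.2.2)) = δ * L j (0, (0, x.2.2)) := by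
      rw [h1, map_smul, smul_eq_mul]
    exact h2
  have wC : ∀ j (δ : ℝ) (x : ℝ × (ℝ × W)),
      C j (x.1, (δ ^ 2 * x.2.1, δ • x.2.2)) = δ ^ 2 * C j x := by
    intro j δ x
    rw [hC, hC]
    ring
  have hg : N3Good (fun x => ∑ j, (3 * τ j * (A j x * A j x * B j x) +
      (3 * τ j * (A j x * A j x * C j x) + (3 * τ j * (A j x * B j x * B j x) +
      (3 * τ j * (A j x * C j x * C j x) + (6 * τ j * (A j x * B j x * C j x) +
      (τ j * (B j x * B j x * B j x) + (3 * τ j * (B j x * B j x * C j x) +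
      (3 * τ j * (B j x * C j x * C j x) + τ j * (C j x * C j x * C j x)))))))))) := by
    refine N3Good_sum _ fun j => ?_
    exact (N3_term _ _ _ _ 0 0 1 (wA j) (wA j) (wB j) (by norm_num)).add
      ((N3_term _ _ _ _ 0 0 2 (wA j) (wA j) (wC j) (by norm_num)).add
      ((N3_term _ _ _ _ 0 1 1 (wA j) (wB j) (wB j) (by norm_num)).add
      ((N3_term _ _ _ _ 0 2 2 (wA j) (wC j) (wC j) (by norm_num)).add
      ((N3_term _ _ _ _ 0 1 2 (wA j) (wB j) (wC j) (by norm_num)).add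
      ((N3_term _ _ _ _ 1 1 1 (wB j) (wB j) (wB j) (by norm_num)).add
      ((N3_term _ _ _ _ 1 1 2 (wB j) (wB j) (wC j) (by norm_num)).add
      ((N3_term _ _ _ _ 1 2 2 (wB j) (wC j) (wC j) (by norm_num)).add
      (N3_term _ _ _ _ 2 2 2 (wC j) (wC j) (wC j) (by norm_num)))))))))
  refine N3_congr (hg _ h) fun x => ?_
  have h1 : a (1, (0, 0)) * x.1 ^ 3 = ∑ j, τ j * A j x ^ 3 := by
    rw [hL, Finset.sum_mul]
    refine Finset.sum_congr rfl fun j _ => ?_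
    rw [hA]
    ring
  rw [h1, hL x, ← Finset.sum_add_distrib]
  refine Finset.sum_congr rfl fun j _ => ?_
  rw [hsum j x]
  ring

end Vale.Agent.P256L
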