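import Mathlib
import Vale.Agent.Lib.P256L.Defs

/-!
PROOF SKETCH.
Rep calculus. soc: m = 0, k = 1. nonneg: soc with l1 = l3 = l, l2 = 0 (0 <= l x * l x). inter:
m1+m2 variables, k1+k2 constraints; Fin.append for variables (Fin m1 -> R) x (Fin m2 -> R) ~ Fin
(m1+m2) -> R: compose L with the linear maps u |-> fun i => u (Fin.castAdd m2 i), u |-> fun i =>
u (Fin.natAdd m1 i); constraints by Fin.addCases, Fin.forall_fin_add. forall_fin: induction on N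
with inter (Fin.forall_fin_succ). comap: L o (f x id). exists_snd: F ~ Fin (finrank) -> R by a
basis (Module.finBasis).equivFun; variables (Fin f -> R) x (Fin m -> R).
-/

namespace Vale.Agent.P256L

private theorem R1_mk {E V ι : Type} [AddCommGroup E] [Module ℝ E] [AddCommGroup V] [Module ℝ V]
    [FiniteDimensional ℝ V] [Fintype ι] (L : ι → Fin 3 → (E × V) →ₗ[ℝ] ℝ) (S : Set E)
    (h : ∀ x, x ∈ S ↔ ∃ u : V, ∀ j, 0 ≤ L j 0 (x, u) ∧ 0 ≤ L j 2 (x, u) ∧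
      (L j 1 (x, u)) ^ 2 ≤ L j 0 (x, u) * L j 2 (x, u)) : Rep S := by
  let e : V ≃ₗ[ℝ] (Fin (Module.finrank ℝ V) → ℝ) := (Module.finBasis ℝ V).equivFun
  let σ := Fintype.equivFin ι
  refine ⟨Module.finrank ℝ V, Fintype.card ι, fun j t =>
    (L (σ.symm j) t).comp (LinearMap.prodMap LinearMap.id e.symm.toLinearMap), fun x => ?_⟩
  rw [h]
  constructor
  · rintro ⟨u, hu⟩
    refine ⟨e u, fun j => ?_⟩
    have h1 : ∀ t, ((L (σ.symm j) t).comp (LinearMap.prodMap LinearMap.id e.symm.toLinearMap))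
        (x, e u) = L (σ.symm j) t (x, u) := fun t => by
      change L (σ.symm j) t (x, e.symm (e u)) = _
      rw [e.symm_apply_apply]
    rw [h1, h1, h1]
    exact hu _
  · rintro ⟨u, hu⟩
    refine ⟨e.symm u, fun j => ?_⟩
    have h2 := hu (σ j)
    have h1 : ∀ t, ((L (σ.symm (σ j)) t).comp
        (LinearMap.prodMap LinearMap.id e.symm.toLinearMap)) (x, u) = L j t (x, e.symm u) :=
      fun t => by
        rw [σ.symm_apply_apply]
        rfl
    rw [h1, h1, h1] at h2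
    exact h2

theorem rep_soc {E : Type} [AddCommGroup E] [Module ℝ E] (l₁ l₂ l₃ : E →ₗ[ℝ] ℝ) :
    Rep {x | 0 ≤ l₁ x ∧ 0 ≤ l₃ x ∧ l₂ x ^ 2 ≤ l₁ x * l₃ x} := by
  refine R1_mk (V := Fin 0 → ℝ) (ι := Unit) (fun _ t =>
    (![l₁, l₂, l₃] t).comp (LinearMap.fst ℝ E (Fin 0 → ℝ))) _ fun x => ?_
  constructor
  · intro hx
    exact ⟨0, fun _ => hx⟩
  · rintro ⟨u, hu⟩
    exact hu ()

theorem rep_nonneg {E : Type} [AddCommGroup E] [Module ℝ E] (l : E →ₗ[ℝ] ℝ) :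
    Rep {x | 0 ≤ l x} := by
  have h1 := rep_soc l 0 l
  have h2 : {x | 0 ≤ l x ∧ 0 ≤ l x ∧ (0 : E →ₗ[ℝ] ℝ) x ^ 2 ≤ l x * l x} = {x | 0 ≤ l x} := by
    ext x
    constructor
    · exact fun h => h.1
    · intro h
      refine ⟨h, h, ?_⟩
      rw [LinearMap.zero_apply]
      have h3 : 0 ≤ l x := h
      nlinarith
  rw [h2] at h1
  exact h1

theorem rep_univ {E : Type} [AddCommGroup E] [Module ℝ E] : Rep (Set.univ : Set E) := by
  have h1 := rep_nonneg (0 : E →ₗ[ℝ] ℝ)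
  have h2 : {x | 0 ≤ (0 : E →ₗ[ℝ] ℝ) x} = (Set.univ : Set E) :=
    Set.eq_univ_of_forall fun x => le_refl (0 : ℝ)
  rw [h2] at h1
  exact h1

theorem Rep.inter {E : Type} [AddCommGroup E] [Module ℝ E] {S T : Set E} (hS : Rep S)
    (hT : Rep T) : Rep (S ∩ T) := by
  obtain ⟨m, k, L, hL⟩ := hS
  obtain ⟨m', k', L', hL'⟩ := hT
  refine R1_mk (V := (Fin m → ℝ) × (Fin m' → ℝ)) (ι := Fin k ⊕ Fin k') (fun j t =>
    Sum.elim (fun i => (L i t).comp (LinearMap.prodMap LinearMap.id (LinearMap.fst ℝ _ _)))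
      (fun i => (L' i t).comp (LinearMap.prodMap LinearMap.id (LinearMap.snd ℝ _ _))) j) _
      fun x => ?_
  constructor
  · rintro ⟨hx, hx'⟩
    obtain ⟨u, hu⟩ := (hL x).1 hx
    obtain ⟨u', hu'⟩ := (hL' x).1 hx'
    refine ⟨(u, u'), ?_⟩
    rintro (i | i)
    · exact hu i
    · exact hu' i
  · rintro ⟨⟨u, u'⟩, h⟩
    exact ⟨(hL x).2 ⟨u, fun i => h (Sum.inl i)⟩, (hL' x).2 ⟨u', fun i => h (Sum.inr i)⟩⟩

theorem Rep.forall_fin {E : Type} [AddCommGroup E] [Module ℝ E] (N : ℕ) (S : Fin N → Set E)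
    (hS : ∀ i, Rep (S i)) : Rep {x | ∀ i, x ∈ S i} := by
  induction N with
  | zero =>
    have h1 : {x : E | ∀ i : Fin 0, x ∈ S i} = Set.univ :=
      Set.eq_univ_of_forall fun x i => i.elim0
    rw [h1]
    exact rep_univ
  | succ N ih =>
    have h1 : {x : E | ∀ i, x ∈ S i} = S 0 ∩ {x | ∀ i : Fin N, x ∈ S i.succ} := by
      ext x
      exact Fin.forall_fin_succ
    rw [h1]
    exact (hS 0).inter (ih (fun i => S i.succ) fun i => hS i.succ)

theorem Rep.comap {E F : Type} [AddCommGroup E] [Module ℝ E] [AddCommGroup F] [Module ℝ F]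
    {S : Set F} (hS : Rep S) (f : E →ₗ[ℝ] F) : Rep {x | f x ∈ S} := by
  obtain ⟨m, k, L, hL⟩ := hS
  exact ⟨m, k, fun j t => (L j t).comp (LinearMap.prodMap f LinearMap.id), fun x => hL (f x)⟩

theorem Rep.exists_snd {E F : Type} [AddCommGroup E] [Module ℝ E] [AddCommGroup F] [Module ℝ F]
    [FiniteDimensional ℝ F] {S : Set (E × F)} (hS : Rep S) : Rep {x | ∃ y, (x, y) ∈ S} := by
  obtain ⟨m, k, L, hL⟩ := hS
  refine R1_mk (V := F × (Fin m → ℝ)) (ι := Fin k) (fun j t =>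
    (L j t).comp (LinearEquiv.prodAssoc ℝ E F (Fin m → ℝ)).symm.toLinearMap) _ fun x => ?_
  constructor
  · rintro ⟨y, hy⟩
    obtain ⟨u, hu⟩ := (hL (x, y)).1 hy
    exact ⟨(y, u), hu⟩
  · rintro ⟨⟨y, u⟩, h⟩
    exact ⟨y, (hL (x, y)).2 ⟨u, h⟩⟩

end Vale.Agent.P256L
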