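import Mathlib
import Vale.Agent.Lib.P256L.Defs
import Vale.Agent.Lib.P256L.N1
import Vale.Agent.Lib.P256L.R1

/-!
PROOF SKETCH.
a = c e^3 + sum X_j^3 + e sum Z_k^2 + (e l - |w|^2) g. X_j(1,0,0) > 0: choose r so small that l
<= r e, |w_i| <= r e (and l >= 0) imply X_j(e,l,w) >= 0 . P := {(t,(e,(l,w))) | 0 <= e, l <= r
e, |w_i| <= r e (orthonormal basis coordinates), exists s, v_i, V_j, Y_j, T_j, T2_k, also for
X_0 = e: w_i^2 <= v_i e, v_i >= 0, s >= 0, sum v_i <= l - s, 0 <= X_j, X_j^2 <= Y_j V_j, V_j^2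
<= X_j e, Y_j^2 <= T_j s, Z_k^2 <= T2_k s, all >= 0, c T_0 + sum T_j + sum T2_k + g(e,l,w) <=
t}. e = 0: w = 0, 0 <= s <= l <= 0: x.2 = 0, g = 0, t >= 0. e > 0: X_0 = e forces s > 0; |w|^2
<= e (l - s) so q := e l - |w|^2 >= e s > 0; Y^2 e >= X^3 (Y V >= X^2, V^2 <= X e), T_j >= Y^2/s
>= X_j^3/(e s) >= X_j^3/q; T2_k >= Z_k^2/s >= e Z_k^2/q; so t q >= a. Conversely take s = q/e,
v_i = w_i^2/e, V = sqrt(X e), Y = X^2/V, T = X^3/(e s) = X^3/q, T2 = Z^2/s (if X_j = 0: V = Y =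
T = 0).
-/

namespace Vale.Agent.P256L

section N4aux

variable {W : Type} [NormedAddCommGroup W] [InnerProductSpace ℝ W] [FiniteDimensional ℝ W]

/-- the ambient space -/
private abbrev N4E (W : Type) : Type := ℝ × (ℝ × (ℝ × W))

/-- the auxiliary variables -/
private abbrev N4F (d n M : ℕ) : Type :=
  ℝ × ((Fin d → ℝ) × ((Fin n → ℝ) × ((Fin n → ℝ) × ((Fin n → ℝ) × (Fin M → ℝ)))))

/-- the constraints -/
private def N4S {n M : ℕ} (r : ℝ) (κ : Fin n → ℝ) (X : Fin n → (ℝ × (ℝ × W)) →ₗ[ℝ] ℝ)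
    (Z : Fin M → (ℝ × (ℝ × W)) →ₗ[ℝ] ℝ) (g : (ℝ × (ℝ × W)) →ₗ[ℝ] ℝ) :
    Set (N4E W × N4F (Module.finrank ℝ W) n M) :=
  {z | 0 ≤ r * z.1.2.1 - z.1.2.2.1} ∩
  ({z | ∀ i, z ∈ {z : N4E W × N4F (Module.finrank ℝ W) n M | 0 ≤ z.2.2.1 i ∧ 0 ≤ z.1.2.1 ∧
      ((stdOrthonormalBasis ℝ W).toBasis.coord i z.1.2.2.2) ^ 2 ≤ z.2.2.1 i * z.1.2.1}} ∩
  ({z | 0 ≤ z.1.2.2.1 - z.2.1 - ∑ i, z.2.2.1 i} ∩
  ({z | ∀ j, z ∈ {z : N4E W × N4F (Module.finrank ℝ W) n M | 0 ≤ z.2.2.2.2.1 j ∧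
      0 ≤ z.2.2.2.1 j ∧ (X j z.1.2) ^ 2 ≤ z.2.2.2.2.1 j * z.2.2.2.1 j}} ∩
  ({z | ∀ j, z ∈ {z : N4E W × N4F (Module.finrank ℝ W) n M | 0 ≤ X j z.1.2 ∧
      0 ≤ z.1.2.1 ∧ (z.2.2.2.1 j) ^ 2 ≤ X j z.1.2 * z.1.2.1}} ∩
  ({z | ∀ j, z ∈ {z : N4E W × N4F (Module.finrank ℝ W) n M | 0 ≤ z.2.2.2.2.2.1 j ∧
      0 ≤ z.2.1 ∧ (z.2.2.2.2.1 j) ^ 2 ≤ z.2.2.2.2.2.1 j * z.2.1}} ∩
  ({z | ∀ k, z ∈ {z : N4E W × N4F (Module.finrank ℝ W) n M | 0 ≤ z.2.2.2.2.2.2 k ∧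
      0 ≤ z.2.1 ∧ (Z k z.1.2) ^ 2 ≤ z.2.2.2.2.2.2 k * z.2.1}} ∩
  {z | 0 ≤ z.1.1 - ∑ j, κ j * z.2.2.2.2.2.1 j - ∑ k, z.2.2.2.2.2.2 k - g z.1.2}))))))

private theorem N4_rep {n M : ℕ} (r : ℝ) (κ : Fin n → ℝ) (X : Fin n → (ℝ × (ℝ × W)) →ₗ[ℝ] ℝ)
    (Z : Fin M → (ℝ × (ℝ × W)) →ₗ[ℝ] ℝ) (g : (ℝ × (ℝ × W)) →ₗ[ℝ] ℝ) :
    Rep (N4S r κ X Z g) := by
  set A := LinearMap.fst ℝ (N4E W) (N4F (Module.finrank ℝ W) n M) with hA
  set B := LinearMap.snd ℝ (N4E W) (N4F (Module.finrank ℝ W) n M) with hB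
  set lt : N4E W × N4F (Module.finrank ℝ W) n M →ₗ[ℝ] ℝ := LinearMap.fst ℝ _ _ ∘ₗ A with hlt
  set lx : N4E W × N4F (Module.finrank ℝ W) n M →ₗ[ℝ] ℝ × (ℝ × W) :=
    LinearMap.snd ℝ _ _ ∘ₗ A with hlx
  set le : N4E W × N4F (Module.finrank ℝ W) n M →ₗ[ℝ] ℝ := LinearMap.fst ℝ _ _ ∘ₗ lx with hle
  set ll : N4E W × N4F (Module.finrank ℝ W) n M →ₗ[ℝ] ℝ :=
    LinearMap.fst ℝ _ _ ∘ₗ LinearMap.snd ℝ _ _ ∘ₗ lx with hll
  set lw : N4E W × N4F (Module.finrank ℝ W) n M →ₗ[ℝ] W :=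
    LinearMap.snd ℝ _ _ ∘ₗ LinearMap.snd ℝ _ _ ∘ₗ lx with hlw
  set ls : N4E W × N4F (Module.finrank ℝ W) n M →ₗ[ℝ] ℝ := LinearMap.fst ℝ _ _ ∘ₗ B with hls
  set lv : Fin (Module.finrank ℝ W) → N4E W × N4F (Module.finrank ℝ W) n M →ₗ[ℝ] ℝ := fun i =>
    LinearMap.proj i ∘ₗ LinearMap.fst ℝ _ _ ∘ₗ LinearMap.snd ℝ _ _ ∘ₗ B with hlv
  set lV : Fin n → N4E W × N4F (Module.finrank ℝ W) n M →ₗ[ℝ] ℝ := fun j =>
    LinearMap.proj j ∘ₗ LinearMap.fst ℝ _ _ ∘ₗ LinearMap.snd ℝ _ _ ∘ₗ LinearMap.snd ℝ _ _ ∘ₗ B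
    with hlV
  set lY : Fin n → N4E W × N4F (Module.finrank ℝ W) n M →ₗ[ℝ] ℝ := fun j =>
    LinearMap.proj j ∘ₗ LinearMap.fst ℝ _ _ ∘ₗ LinearMap.snd ℝ _ _ ∘ₗ LinearMap.snd ℝ _ _ ∘ₗ
      LinearMap.snd ℝ _ _ ∘ₗ B with hlY
  set lT : Fin n → N4E W × N4F (Module.finrank ℝ W) n M →ₗ[ℝ] ℝ := fun j =>
    LinearMap.proj j ∘ₗ LinearMap.fst ℝ _ _ ∘ₗ LinearMap.snd ℝ _ _ ∘ₗ LinearMap.snd ℝ _ _ ∘ₗ
      LinearMap.snd ℝ _ _ ∘ₗ LinearMap.snd ℝ _ _ ∘ₗ B with hlT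
  set lU : Fin M → N4E W × N4F (Module.finrank ℝ W) n M →ₗ[ℝ] ℝ := fun k =>
    LinearMap.proj k ∘ₗ LinearMap.snd ℝ _ _ ∘ₗ LinearMap.snd ℝ _ _ ∘ₗ LinearMap.snd ℝ _ _ ∘ₗ
      LinearMap.snd ℝ _ _ ∘ₗ LinearMap.snd ℝ _ _ ∘ₗ B with hlU
  have h1 : Rep {z : N4E W × N4F (Module.finrank ℝ W) n M | 0 ≤ r * z.1.2.1 - z.1.2.2.1} :=
    rep_nonneg (r • le - ll)
  have h3 : Rep {z : N4E W × N4F (Module.finrank ℝ W) n M |
      0 ≤ z.1.2.2.1 - z.2.1 - ∑ i, z.2.2.1 i} := by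
    have h := rep_nonneg (ll - ls - ∑ i, lv i)
    have e1 : {z : N4E W × N4F (Module.finrank ℝ W) n M |
        0 ≤ z.1.2.2.1 - z.2.1 - ∑ i, z.2.2.1 i} = {x | 0 ≤ (ll - ls - ∑ i, lv i) x} := by
      ext z
      simp only [Set.mem_ofPred_eq, LinearMap.sub_apply, LinearMap.sum_apply]
      rfl
    rw [e1]
    exact h
  have h8 : Rep {z : N4E W × N4F (Module.finrank ℝ W) n M |
      0 ≤ z.1.1 - ∑ j, κ j * z.2.2.2.2.2.1 j - ∑ k, z.2.2.2.2.2.2 k - g z.1.2} := by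
    have h := rep_nonneg (lt - ∑ j, κ j • lT j - ∑ k, lU k - g ∘ₗ lx)
    have e1 : {z : N4E W × N4F (Module.finrank ℝ W) n M |
        0 ≤ z.1.1 - ∑ j, κ j * z.2.2.2.2.2.1 j - ∑ k, z.2.2.2.2.2.2 k - g z.1.2} =
        {x | 0 ≤ (lt - ∑ j, κ j • lT j - ∑ k, lU k - g ∘ₗ lx) x} := by
      ext z
      simp only [Set.mem_ofPred_eq, LinearMap.sub_apply, LinearMap.sum_apply,
        LinearMap.smul_apply, smul_eq_mul]
      rfl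
    rw [e1]
    exact h
  refine h1.inter ((Rep.forall_fin _ _ fun i => ?_).inter (h3.inter
    ((Rep.forall_fin _ _ fun j => ?_).inter ((Rep.forall_fin _ _ fun j => ?_).inter
    ((Rep.forall_fin _ _ fun j => ?_).inter ((Rep.forall_fin _ _ fun k => ?_).inter h8))))))
  · exact rep_soc (lv i) ((stdOrthonormalBasis ℝ W).toBasis.coord i ∘ₗ lw) le
  · exact rep_soc (lY j) (X j ∘ₗ lx) (lV j)
  · exact rep_soc (X j ∘ₗ lx) (lV j) le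
  · exact rep_soc (lT j) (lY j) ls
  · exact rep_soc (lU k) (Z k ∘ₗ lx) ls

private theorem N4_norm (w : W) :
    ‖w‖ ^ 2 = ∑ i, ((stdOrthonormalBasis ℝ W).toBasis.coord i w) ^ 2 := by
  have h1 : ‖w‖ = ‖(stdOrthonormalBasis ℝ W).repr w‖ :=
    ((stdOrthonormalBasis ℝ W).repr.norm_map w).symm
  rw [h1, EuclideanSpace.norm_sq_eq]
  refine Finset.sum_congr rfl fun i _ => ?_
  rw [Real.norm_eq_abs, sq_abs]
  rfl

private theorem N4_cube {X Y V e : ℝ} (hX : 0 ≤ X) (hY : 0 ≤ Y) (he : 0 ≤ e) (h1 : X ^ 2 ≤ Y * V)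
    (h2 : V ^ 2 ≤ X * e) : X ^ 3 ≤ Y ^ 2 * e := by
  rcases hX.eq_or_lt with h | h
  · rw [← h]
    have : 0 ≤ Y ^ 2 * e := by positivity
    simpa using this
  · have h3 : (X ^ 2) ^ 2 ≤ (Y * V) ^ 2 := pow_le_pow_left₀ (by positivity) h1 2
    have h4 : Y ^ 2 * V ^ 2 ≤ Y ^ 2 * (X * e) := mul_le_mul_of_nonneg_left h2 (sq_nonneg _)
    have h5 : X * X ^ 3 ≤ X * (Y ^ 2 * e) := by nlinarith
    exact le_of_mul_le_mul_left h5 h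

private theorem N4_sound {n M : ℕ} {r : ℝ} {κ : Fin n → ℝ} (hκ : ∀ j, 0 ≤ κ j)
    {X : Fin n → (ℝ × (ℝ × W)) →ₗ[ℝ] ℝ} {Z : Fin M → (ℝ × (ℝ × W)) →ₗ[ℝ] ℝ}
    {g : (ℝ × (ℝ × W)) →ₗ[ℝ] ℝ} (j₀ : Fin n) (hj₀ : ∀ x, X j₀ x = x.1)
    {x : N4E W} {y : N4F (Module.finrank ℝ W) n M} (h : (x, y) ∈ N4S r κ X Z g) :
    (0 < x.2.1 ∧ 0 < x.2.1 * x.2.2.1 - ‖x.2.2.2‖ ^ 2 ∧
      ∑ j, κ j * X j x.2 ^ 3 + x.2.1 * ∑ k, Z k x.2 ^ 2 +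
        (x.2.1 * x.2.2.1 - ‖x.2.2.2‖ ^ 2) * g x.2 ≤
        x.1 * (x.2.1 * x.2.2.1 - ‖x.2.2.2‖ ^ 2)) ∨ (x.2 = 0 ∧ 0 ≤ x.1) := by
  obtain ⟨t, e, l, w⟩ := x
  obtain ⟨s, v, V, Y, T, U⟩ := y
  obtain ⟨c1, c2, c3, c4, c5, c6, c7, c8⟩ := h
  simp only [Set.mem_ofPred_eq] at c1 c2 c3 c4 c5 c6 c7 c8
  have he : 0 ≤ e := (c5 j₀).2.1
  have hs : 0 ≤ s := (c6 j₀).2.1
  rcases he.eq_or_lt with he0 | he0
  · right
    have hw : w = 0 := by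
      have h1 : ‖w‖ ^ 2 = 0 := by
        rw [N4_norm]
        refine Finset.sum_eq_zero fun i _ => ?_
        have h2 := (c2 i).2.2
        rw [← he0, mul_zero] at h2
        exact le_antisymm h2 (sq_nonneg _)
      exact norm_eq_zero.1 (pow_eq_zero_iff (two_ne_zero) |>.1 h1)
    have hv : 0 ≤ ∑ i, v i := Finset.sum_nonneg fun i _ => (c2 i).1
    have hl : l = 0 := by
      rw [← he0] at c1
      linarith
    have hx0 : ((e, (l, w)) : ℝ × (ℝ × W)) = 0 := by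
      rw [← he0, hl, hw]
      rfl
    refine ⟨hx0, ?_⟩
    rw [hx0, map_zero] at c8
    have h3 : 0 ≤ ∑ j, κ j * T j := Finset.sum_nonneg fun j _ => mul_nonneg (hκ j) (c6 j).1
    have h4 : 0 ≤ ∑ k, U k := Finset.sum_nonneg fun k _ => (c7 k).1
    change 0 ≤ t
    linarith
  · left
    have hs0 : 0 < s := by
      rcases hs.eq_or_lt with h | h
      · exfalso
        have h1 := (c6 j₀).2.2
        rw [← h, mul_zero] at h1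
        have h2 : Y j₀ = 0 := pow_eq_zero_iff two_ne_zero |>.1 (le_antisymm h1 (sq_nonneg _))
        have h3 := (c4 j₀).2.2
        rw [h2, zero_mul, hj₀] at h3
        change e ^ 2 ≤ 0 at h3
        nlinarith
      · exact h
    have hwn : ‖w‖ ^ 2 ≤ e * (l - s) := by
      rw [N4_norm]
      calc ∑ i, ((stdOrthonormalBasis ℝ W).toBasis.coord i w) ^ 2 ≤ ∑ i, v i * e :=
            Finset.sum_le_sum fun i _ => (c2 i).2.2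
        _ = e * ∑ i, v i := by rw [← Finset.sum_mul, mul_comm]
        _ ≤ e * (l - s) := mul_le_mul_of_nonneg_left (by linarith) he
    set q : ℝ := e * l - ‖w‖ ^ 2 with hq
    have hqes : e * s ≤ q := by rw [hq]; nlinarith
    have hq0 : 0 < q := lt_of_lt_of_le (mul_pos he0 hs0) hqes
    refine ⟨he0, hq0, ?_⟩
    have hT : ∀ j, X j (e, (l, w)) ^ 3 ≤ T j * q := by
      intro j
      have h1 := N4_cube (c5 j).1 (c4 j).1 he (c4 j).2.2 (c5 j).2.2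
      have h2 : Y j ^ 2 * e ≤ T j * s * e := mul_le_mul_of_nonneg_right (c6 j).2.2 he
      have h3 : T j * (e * s) ≤ T j * q := mul_le_mul_of_nonneg_left hqes (c6 j).1
      nlinarith
    have hU : ∀ k, e * Z k (e, (l, w)) ^ 2 ≤ U k * q := by
      intro k
      have h2 : Z k (e, (l, w)) ^ 2 * e ≤ U k * s * e := mul_le_mul_of_nonneg_right (c7 k).2.2 he
      have h3 : U k * (e * s) ≤ U k * q := mul_le_mul_of_nonneg_left hqes (c7 k).1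
      nlinarith
    have h4 : ∑ j, κ j * X j (e, (l, w)) ^ 3 ≤ (∑ j, κ j * T j) * q := by
      rw [Finset.sum_mul]
      refine Finset.sum_le_sum fun j _ => ?_
      rw [mul_assoc]
      exact mul_le_mul_of_nonneg_left (hT j) (hκ j)
    have h5 : e * ∑ k, Z k (e, (l, w)) ^ 2 ≤ (∑ k, U k) * q := by
      rw [Finset.sum_mul, Finset.mul_sum]
      exact Finset.sum_le_sum fun k _ => hU k
    have h6 : (∑ j, κ j * T j + ∑ k, U k + g (e, (l, w))) * q ≤ t * q :=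
      mul_le_mul_of_nonneg_right (by linarith) hq0.le
    change ∑ j, κ j * X j (e, (l, w)) ^ 3 + e * ∑ k, Z k (e, (l, w)) ^ 2 + q * g (e, (l, w)) ≤ t * q
    nlinarith

private theorem N4_complete {n M : ℕ} {r : ℝ} {κ : Fin n → ℝ}
    {X : Fin n → (ℝ × (ℝ × W)) →ₗ[ℝ] ℝ} {Z : Fin M → (ℝ × (ℝ × W)) →ₗ[ℝ] ℝ}
    {g : (ℝ × (ℝ × W)) →ₗ[ℝ] ℝ} {x : N4E W} (he : 0 < x.2.1) (hl : x.2.2.1 ≤ r * x.2.1)
    (hX : ∀ j, 0 ≤ X j x.2) (hq : 0 < x.2.1 * x.2.2.1 - ‖x.2.2.2‖ ^ 2)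
    (h : ∑ j, κ j * X j x.2 ^ 3 + x.2.1 * ∑ k, Z k x.2 ^ 2 +
        (x.2.1 * x.2.2.1 - ‖x.2.2.2‖ ^ 2) * g x.2 ≤
        x.1 * (x.2.1 * x.2.2.1 - ‖x.2.2.2‖ ^ 2)) :
    ∃ y : N4F (Module.finrank ℝ W) n M, (x, y) ∈ N4S r κ X Z g := by
  obtain ⟨t, e, l, w⟩ := x
  simp only at he hl hX hq h
  set q : ℝ := e * l - ‖w‖ ^ 2 with hqdef
  set s : ℝ := q / e with hs
  have hs0 : 0 < s := div_pos hq he
  have hes : e * s = q := by rw [hs]; field_simp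
  have hY : ∀ j, ∃ V Y : ℝ, 0 ≤ V ∧ 0 ≤ Y ∧ X j (e, (l, w)) ^ 2 ≤ Y * V ∧
      V ^ 2 ≤ X j (e, (l, w)) * e ∧ Y ^ 2 * e = X j (e, (l, w)) ^ 3 := by
    intro j
    rcases (hX j).eq_or_lt with h0 | h0
    · refine ⟨0, 0, le_rfl, le_rfl, ?_, ?_, ?_⟩
      · rw [← h0]
        norm_num
      · rw [← h0]
        norm_num
      · rw [← h0]
        norm_num
    · have h1 : 0 < X j (e, (l, w)) * e := mul_pos h0 he
      have h2 : 0 < Real.sqrt (X j (e, (l, w)) * e) := Real.sqrt_pos.2 h1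
      have h3 : Real.sqrt (X j (e, (l, w)) * e) ^ 2 = X j (e, (l, w)) * e := Real.sq_sqrt h1.le
      refine ⟨Real.sqrt (X j (e, (l, w)) * e),
        X j (e, (l, w)) ^ 2 / Real.sqrt (X j (e, (l, w)) * e), h2.le, by positivity, ?_, h3.le, ?_⟩
      · rw [div_mul_cancel₀ _ h2.ne']
      · rw [div_pow, h3]
        field_simp
  choose V Y hV0 hY0 hXY hVX hYX using hY
  refine ⟨(s, (fun i => ((stdOrthonormalBasis ℝ W).toBasis.coord i w) ^ 2 / e,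
    (V, (Y, (fun j => Y j ^ 2 / s, fun k => Z k (e, (l, w)) ^ 2 / s))))), ?_, ?_, ?_, ?_, ?_, ?_,
    ?_, ?_⟩
  · change 0 ≤ r * e - l
    linarith
  · intro i
    refine ⟨by positivity, he.le, ?_⟩
    change _ ≤ ((stdOrthonormalBasis ℝ W).toBasis.coord i w) ^ 2 / e * e
    rw [div_mul_cancel₀ _ he.ne']
  · change 0 ≤ l - s - ∑ i, ((stdOrthonormalBasis ℝ W).toBasis.coord i w) ^ 2 / e
    rw [← Finset.sum_div, ← N4_norm]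
    have h1 : l - s - ‖w‖ ^ 2 / e = 0 := by
      rw [hs, hqdef]
      field_simp
      ring
    rw [h1]
  · intro j
    exact ⟨hY0 j, hV0 j, hXY j⟩
  · intro j
    exact ⟨hX j, he.le, hVX j⟩
  · intro j
    refine ⟨by positivity, hs0.le, ?_⟩
    change Y j ^ 2 ≤ Y j ^ 2 / s * s
    rw [div_mul_cancel₀ _ hs0.ne']
  · intro k
    refine ⟨by positivity, hs0.le, ?_⟩
    change Z k (e, (l, w)) ^ 2 ≤ Z k (e, (l, w)) ^ 2 / s * s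
    rw [div_mul_cancel₀ _ hs0.ne']
  · change 0 ≤ t - ∑ j, κ j * (Y j ^ 2 / s) - ∑ k, Z k (e, (l, w)) ^ 2 / s - g (e, (l, w))
    have h1 : ∀ j, Y j ^ 2 / s = X j (e, (l, w)) ^ 3 / q := by
      intro j
      rw [← hYX j, ← hes]
      field_simp
    have h2 : ∀ k, Z k (e, (l, w)) ^ 2 / s = e * Z k (e, (l, w)) ^ 2 / q := by
      intro k
      rw [← hes]
      field_simp
    simp only [h1, h2]
    have h3 : ∑ j, κ j * (X j (e, (l, w)) ^ 3 / q) = (∑ j, κ j * X j (e, (l, w)) ^ 3) / q := by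
      rw [Finset.sum_div]
      exact Finset.sum_congr rfl fun j _ => (mul_div_assoc _ _ _).symm
    have h4 : ∑ k, e * Z k (e, (l, w)) ^ 2 / q = (e * ∑ k, Z k (e, (l, w)) ^ 2) / q := by
      rw [Finset.mul_sum, Finset.sum_div]
    rw [h3, h4]
    have h5 : (∑ j, κ j * X j (e, (l, w)) ^ 3 + e * ∑ k, Z k (e, (l, w)) ^ 2 +
        q * g (e, (l, w))) / q ≤ t := by
      rw [div_le_iff₀ hq]
      exact h
    rw [add_div, add_div, mul_div_cancel_left₀ _ hq.ne'] at h5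
    linarith

end N4aux

theorem node_lift {W : Type} [NormedAddCommGroup W] [InnerProductSpace ℝ W]
    [FiniteDimensional ℝ W] {a : ℝ × (ℝ × W) → ℝ} {c : ℝ} (hc : 0 < c)
    (ha : Dec (fun x => a x - c * x.1 ^ 3)) :
    ∃ P : Set (ℝ × (ℝ × (ℝ × W))), Rep P ∧
      (∀ x ∈ P, (0 < x.2.1 ∧ 0 < x.2.1 * x.2.2.1 - ‖x.2.2.2‖ ^ 2 ∧
          a x.2 ≤ x.1 * (x.2.1 * x.2.2.1 - ‖x.2.2.2‖ ^ 2)) ∨ (x.2 = 0 ∧ 0 ≤ x.1)) ∧
      (0 : ℝ × (ℝ × (ℝ × W))) ∈ P ∧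
      ∃ r > 0, ∀ x : ℝ × (ℝ × (ℝ × W)), 0 < x.2.1 → x.2.2.1 ≤ r * x.2.1 →
        ‖x.2.2.2‖ ≤ r * x.2.1 → 0 < x.2.1 * x.2.2.1 - ‖x.2.2.2‖ ^ 2 →
        a x.2 ≤ x.1 * (x.2.1 * x.2.2.1 - ‖x.2.2.2‖ ^ 2) → x ∈ P := by
  obtain ⟨N, M, X, Z, g, hX, hdec⟩ := ha
  set X' : Fin (N + 1) → (ℝ × (ℝ × W)) →ₗ[ℝ] ℝ := Fin.cons (LinearMap.fst ℝ ℝ (ℝ × W)) X with hX'
  set κ : Fin (N + 1) → ℝ := Fin.cons c (fun _ => 1) with hκ
  have hX0 : ∀ x, X' 0 x = x.1 := fun x => rfl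
  have hXs : ∀ j : Fin N, X' j.succ = X j := fun j => rfl
  have hκ0 : κ 0 = c := rfl
  have hκs : ∀ j : Fin N, κ j.succ = 1 := fun j => rfl
  have hκn : ∀ j, 0 ≤ κ j := by
    intro j
    refine Fin.cases ?_ (fun i => ?_) j
    · exact hc.le
    · rw [hκs]
      exact zero_le_one
  have hax : ∀ x, a x = ∑ j, κ j * X' j x ^ 3 + x.1 * ∑ k, Z k x ^ 2 +
      (x.1 * x.2.1 - ‖x.2.2‖ ^ 2) * g x := by
    intro x
    have h1 := hdec x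
    rw [Fin.sum_univ_succ]
    simp only [hX0, hXs, hκ0, hκs, one_mul]
    simp only at h1
    linarith
  -- the radius
  have hβ : ∀ j : Fin N, ∃ β : ℝ, 0 ≤ β ∧ ∀ w : W, |X j (0, (0, w))| ≤ β * ‖w‖ := by
    intro j
    set L : W →L[ℝ] ℝ := LinearMap.toContinuousLinearMap
      (X j ∘ₗ LinearMap.inr ℝ ℝ (ℝ × W) ∘ₗ LinearMap.inr ℝ ℝ W) with hL
    exact ⟨‖L‖, norm_nonneg _, fun w => L.le_opNorm w⟩
  choose β hβ0 hβ using hβ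
  have hm : ∀ j, 0 ≤ (|X j (0, (1, 0))| + β j) / X j (1, (0, 0)) := fun j =>
    div_nonneg (add_nonneg (abs_nonneg _) (hβ0 j)) (hX j).le
  set R : ℝ := 1 + ∑ j, (|X j (0, (1, 0))| + β j) / X j (1, (0, 0)) with hR
  have hR0 : 0 < R := by
    have := Finset.sum_nonneg fun j (_ : j ∈ Finset.univ) => hm j
    rw [hR]
    linarith
  have hrj : ∀ j, 1 / R * (|X j (0, (1, 0))| + β j) ≤ X j (1, (0, 0)) := by
    intro j
    have h1 : (|X j (0, (1, 0))| + β j) / X j (1, (0, 0)) ≤ R := by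
      have := Finset.single_le_sum (fun j _ => hm j) (Finset.mem_univ j)
      rw [hR]
      linarith
    rw [div_le_iff₀ (hX j)] at h1
    rw [one_div, inv_mul_le_iff₀ hR0]
    exact h1
  have hpos : ∀ (j : Fin N) (e l : ℝ) (w : W), 0 < e → 0 ≤ l → l ≤ 1 / R * e →
      ‖w‖ ≤ 1 / R * e → 0 ≤ X j (e, (l, w)) := by
    intro j e l w he hl0 hl hw
    have h1 : ((e, (l, w)) : ℝ × (ℝ × W)) = e • (1, (0, 0)) + l • (0, (1, 0)) + (0, (0, w)) := by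
      simp
    rw [h1, map_add, map_add, map_smul, map_smul, smul_eq_mul, smul_eq_mul]
    have h2 : -(β j * (1 / R * e)) ≤ X j (0, (0, w)) := by
      have h3 := (abs_le.1 (hβ j w)).1
      have h4 : β j * ‖w‖ ≤ β j * (1 / R * e) := mul_le_mul_of_nonneg_left hw (hβ0 j)
      linarith
    have h5 : -(|X j (0, (1, 0))| * (1 / R * e)) ≤ l * X j (0, (1, 0)) := by
      have h6 : -|X j (0, (1, 0))| ≤ X j (0, (1, 0)) := neg_abs_le _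
      have h7 : l * -|X j (0, (1, 0))| ≤ l * X j (0, (1, 0)) := mul_le_mul_of_nonneg_left h6 hl0
      have h8 : |X j (0, (1, 0))| * l ≤ |X j (0, (1, 0))| * (1 / R * e) :=
        mul_le_mul_of_nonneg_left hl (abs_nonneg _)
      nlinarith
    have h9 : e * (1 / R * (|X j (0, (1, 0))| + β j)) ≤ e * X j (1, (0, 0)) :=
      mul_le_mul_of_nonneg_left (hrj j) he.le
    nlinarith
  refine ⟨{x | ∃ y, (x, y) ∈ N4S (1 / R) κ X' Z g}, (N4_rep (1 / R) κ X' Z g).exists_snd, ?_, ?_,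
    1 / R, by positivity, ?_⟩
  · rintro x ⟨y, hy⟩
    rcases N4_sound hκn 0 hX0 hy with ⟨h1, h2, h3⟩ | h
    · left
      refine ⟨h1, h2, ?_⟩
      rw [hax]
      exact h3
    · right
      exact h
  · refine ⟨0, ?_, ?_, ?_, ?_, ?_, ?_, ?_, ?_⟩
    · simp
    · intro i
      simp
    · simp
    · intro j
      simp
    · intro j
      simp
    · intro j
      simp
    · intro k
      simp
    · simp
  · intro x he hl hw hq h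
    have hl0 : 0 ≤ x.2.2.1 := by
      by_contra hneg
      have h1 : x.2.1 * x.2.2.1 < 0 := mul_neg_of_pos_of_neg he (not_le.1 hneg)
      nlinarith [sq_nonneg ‖x.2.2.2‖]
    refine N4_complete he hl (fun j => ?_) hq ?_
    · refine Fin.cases ?_ (fun i => ?_) j
      · rw [hX0]
        exact he.le
      · rw [hXs]
        exact hpos i x.2.1 x.2.2.1 x.2.2.2 he hl0 hl hw
    · rw [hax] at h
      exact h

end Vale.Agent.P256L
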