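import Mathlib
import Vale.Agent.Lib.P256L.Defs
import Vale.Agent.Lib.P256L.C1
import Vale.Agent.Lib.P256L.N3
import Vale.Agent.Lib.P256L.N4

/-!
PROOF SKETCH.
W = (span of u)-orthogonal complement in EE d (the submodule (Submodule.span R {u})ᗮ).
b(e,(l,w)) := a((e+l)/2, ((e-l)/2) u + w), IsCubic by comp, b(1,0,0) = a(1/2, u/2) = a(1,u)/8 >
0. c := b(1,0,0)/2: dec_of_pos for b - c e^3 (cubic: subtract). node_lift; P = preimage under
the linear map (t,(x0,y)) -> (t,(x0 + <u,y>, (x0 - <u,y>, y - <u,y> u))) ; x0^2 - |y|^2 = e l -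
|w|^2, e > 0 and q > 0 imply |y| < x0. Near u: for y -> u, |y| < 1: e = 1+<u,y> -> 2, l -> 0, w
-> 0; t pt a y satisfies the criterion with equality in a <= x.1 q (scale invariance). Add 0 in
P.
-/

namespace Vale.Agent.P256L

private noncomputable def N5_proj {d : ℕ} (u : EE d) (hu : ‖u‖ = 1) :
    EE d →ₗ[ℝ] ↥((Submodule.span ℝ {u})ᗮ) :=
  LinearMap.codRestrict ((Submodule.span ℝ {u})ᗮ)
    (LinearMap.id - (innerₛₗ ℝ u).smulRight u) (by
      intro y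
      rw [Submodule.mem_orthogonal_singleton_iff_inner_right]
      simp [inner_sub_right, inner_smul_right, hu])

private theorem N5_proj_coe {d : ℕ} (u : EE d) (hu : ‖u‖ = 1) (y : EE d) :
    ((N5_proj u hu y : ↥((Submodule.span ℝ {u})ᗮ)) : EE d) = y - (inner ℝ u y : ℝ) • u := by
  simp [N5_proj]

private theorem N5_norm_proj {d : ℕ} (u : EE d) (hu : ‖u‖ = 1) (y : EE d) :
    ‖N5_proj u hu y‖ ^ 2 = ‖y‖ ^ 2 - (inner ℝ u y : ℝ) ^ 2 := by
  have h1 : ‖N5_proj u hu y‖ = ‖y - (inner ℝ u y : ℝ) • u‖ := by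
    rw [← N5_proj_coe u hu y]
    rfl
  rw [h1, norm_sub_sq_real, norm_smul, hu, real_inner_smul_right, real_inner_comm y u,
    Real.norm_eq_abs, mul_one, sq_abs]
  ring

private theorem N5_norm_proj_sub {d : ℕ} (u : EE d) (hu : ‖u‖ = 1) (y : EE d) :
    ‖N5_proj u hu y‖ ≤ ‖y - u‖ := by
  have h1 : N5_proj u hu y = N5_proj u hu (y - u) := by
    apply Subtype.ext
    rw [N5_proj_coe, N5_proj_coe, inner_sub_right, real_inner_self_eq_norm_sq, hu]
    module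
  rw [h1]
  have h2 := N5_norm_proj u hu (y - u)
  have h3 : ‖N5_proj u hu (y - u)‖ ^ 2 ≤ ‖y - u‖ ^ 2 := by
    rw [h2]
    nlinarith [sq_nonneg (inner ℝ u (y - u) : ℝ)]
  exact abs_le_of_sq_le_sq' h3 (norm_nonneg _) |>.2

private noncomputable def N5_F {d : ℕ} (u : EE d) :
    (ℝ × (ℝ × ↥((Submodule.span ℝ {u})ᗮ))) →ₗ[ℝ] ℝ × EE d where
  toFun x := ((x.1 + x.2.1) / 2, ((x.1 - x.2.1) / 2) • u + (x.2.2 : EE d))
  map_add' x y := by
    ext1
    · simp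
      ring
    · simp only [Prod.fst_add, Prod.snd_add, Submodule.coe_add]
      module
  map_smul' c x := by
    ext1
    · simp
      ring
    · simp only [Prod.smul_fst, Prod.smul_snd, Submodule.coe_smul, smul_eq_mul, RingHom.id_apply]
      module

private noncomputable def N5_Phi {d : ℕ} (u : EE d) (hu : ‖u‖ = 1) :
    (ℝ × (ℝ × EE d)) →ₗ[ℝ] (ℝ × (ℝ × (ℝ × ↥((Submodule.span ℝ {u})ᗮ)))) where
  toFun x := (x.1, (x.2.1 + (inner ℝ u x.2.2 : ℝ), (x.2.1 - (inner ℝ u x.2.2 : ℝ),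
    N5_proj u hu x.2.2)))
  map_add' x y := by
    simp only [Prod.fst_add, Prod.snd_add, inner_add_right, map_add, Prod.mk_add_mk]
    congr 2
    · ring
    · congr 1
      ring
  map_smul' c x := by
    simp only [Prod.smul_fst, Prod.smul_snd, real_inner_smul_right, map_smul, smul_eq_mul,
      RingHom.id_apply, Prod.smul_mk]
    congr 2
    · ring
    · congr 1
      ring

private theorem N5_F_Phi {d : ℕ} (u : EE d) (hu : ‖u‖ = 1) (x : ℝ × (ℝ × EE d)) :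
    N5_F u (N5_Phi u hu x).2 = x.2 := by
  apply Prod.ext
  · change (x.2.1 + (inner ℝ u x.2.2 : ℝ) + (x.2.1 - (inner ℝ u x.2.2 : ℝ))) / 2 = x.2.1
    ring
  · change ((x.2.1 + (inner ℝ u x.2.2 : ℝ) - (x.2.1 - (inner ℝ u x.2.2 : ℝ))) / 2) • u
      + ((N5_proj u hu x.2.2 : ↥((Submodule.span ℝ {u})ᗮ)) : EE d) = x.2.2
    rw [N5_proj_coe]
    module

theorem piece_node {d : ℕ} {a : ℝ × EE d → ℝ} (ha : IsCubic a) (u : EE d) (hu : ‖u‖ = 1)
    (hpos : 0 < a (1, u)) :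
    ∃ P : Set (ℝ × (ℝ × EE d)), Rep P ∧ P ⊆ K a ∧ (0 : ℝ × (ℝ × EE d)) ∈ P ∧
      ∃ r > 0, ∀ y, ‖y - u‖ < r → ‖y‖ < 1 → ∀ t : ℝ, 0 < t → t • pt a y ∈ P := by
  set b : ℝ × (ℝ × ↥((Submodule.span ℝ {u})ᗮ)) → ℝ := fun x => a (N5_F u x) with hb
  have hbc : IsCubic b := ha.comp (N5_F u)
  have hb1 : b (1, (0, 0)) = a (1, u) / 8 := by
    have h1 : N5_F u (1, (0, 0)) = (1 / 2 : ℝ) • ((1, u) : ℝ × EE d) := by
      apply Prod.ext
      · change (1 + 0) / 2 = (1 / 2 : ℝ) * 1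
        norm_num
      · change ((1 - 0 : ℝ) / 2) • u + ((0 : ↥((Submodule.span ℝ {u})ᗮ)) : EE d)
          = (1 / 2 : ℝ) • u
        simp
    rw [hb]
    simp only
    rw [h1, ha.map_smul]
    ring
  set c : ℝ := a (1, u) / 16 with hc
  have hcpos : 0 < c := by positivity
  have hcube : IsCubic (fun x : ℝ × (ℝ × ↥((Submodule.span ℝ {u})ᗮ)) => b x - c * x.1 ^ 3) := by
    have h1 := hbc.sub ((isCubic_mul3 (LinearMap.fst ℝ ℝ (ℝ × ↥((Submodule.span ℝ {u})ᗮ)))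
      (LinearMap.fst ℝ ℝ (ℝ × ↥((Submodule.span ℝ {u})ᗮ)))
      (LinearMap.fst ℝ ℝ (ℝ × ↥((Submodule.span ℝ {u})ᗮ)))).smul c)
    have h2 : (fun x : ℝ × (ℝ × ↥((Submodule.span ℝ {u})ᗮ)) => b x - c * x.1 ^ 3)
        = fun x => b x - c * (LinearMap.fst ℝ ℝ (ℝ × ↥((Submodule.span ℝ {u})ᗮ)) x *
          LinearMap.fst ℝ ℝ (ℝ × ↥((Submodule.span ℝ {u})ᗮ)) x *
          LinearMap.fst ℝ ℝ (ℝ × ↥((Submodule.span ℝ {u})ᗮ)) x) := by
      funext x
      simp only [LinearMap.fst_apply]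
      ring
    rw [h2]
    exact h1
  have hdec := dec_of_pos hcube (by
    rw [hb1, hc]
    norm_num
    linarith)
  obtain ⟨P₀, hRep, hsub, h0, r₀, hr₀, hnear⟩ := node_lift hcpos hdec
  have hq : ∀ x : ℝ × (ℝ × EE d), (N5_Phi u hu x).2.1 * (N5_Phi u hu x).2.2.1
      - ‖(N5_Phi u hu x).2.2.2‖ ^ 2 = x.2.1 ^ 2 - ‖x.2.2‖ ^ 2 := by
    intro x
    change (x.2.1 + (inner ℝ u x.2.2 : ℝ)) * (x.2.1 - (inner ℝ u x.2.2 : ℝ))
      - ‖N5_proj u hu x.2.2‖ ^ 2 = _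
    rw [N5_norm_proj]
    ring
  have hba : ∀ x : ℝ × (ℝ × EE d), b (N5_Phi u hu x).2 = a x.2 := by
    intro x
    rw [hb]
    simp only
    rw [N5_F_Phi]
  refine ⟨{x | N5_Phi u hu x ∈ P₀}, hRep.comap (N5_Phi u hu), ?_, ?_, ?_⟩
  · intro x hx
    rcases hsub _ hx with ⟨h1, h2, h3⟩ | ⟨h1, h2⟩
    · left
      rw [hq] at h2 h3
      rw [hba] at h3
      have he : 0 < x.2.1 + (inner ℝ u x.2.2 : ℝ) := h1
      have h4 : 0 < (x.2.1 + (inner ℝ u x.2.2 : ℝ)) * (x.2.1 - (inner ℝ u x.2.2 : ℝ)) := by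
        have h5 := N5_norm_proj u hu x.2.2
        nlinarith [sq_nonneg ‖N5_proj u hu x.2.2‖]
      have h5 : 0 < x.2.1 - (inner ℝ u x.2.2 : ℝ) := (mul_pos_iff_of_pos_left he).1 h4
      have h6 : 0 < x.2.1 := by linarith
      refine ⟨?_, h3⟩
      exact lt_of_pow_lt_pow_left₀ 2 h6.le (by linarith)
    · right
      have h3 : x.2 = 0 := by
        rw [← N5_F_Phi u hu x, h1, map_zero]
      exact ⟨h3, h2⟩
  · change N5_Phi u hu 0 ∈ P₀
    rw [map_zero]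
    exact h0
  · refine ⟨min 1 r₀, lt_min one_pos hr₀, fun y hy hy1 t ht => ?_⟩
    have hy2 : ‖y - u‖ < 1 := hy.trans_le (min_le_left _ _)
    have hy3 : ‖y - u‖ < r₀ := hy.trans_le (min_le_right _ _)
    have hs : |(inner ℝ u y : ℝ) - 1| ≤ ‖y - u‖ := by
      have h1 : (inner ℝ u y : ℝ) - 1 = inner ℝ u (y - u) := by
        rw [inner_sub_right, real_inner_self_eq_norm_sq, hu]
        norm_num
      rw [h1]
      have h2 := abs_real_inner_le_norm u (y - u)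
      rwa [hu, one_mul] at h2
    have hs1 := (abs_le.1 hs).1
    have hs2 := (abs_le.1 hs).2
    have hs3 : (inner ℝ u y : ℝ) ≤ 1 := by
      have h1 := real_inner_le_norm u y
      rw [hu, one_mul] at h1
      linarith
    have hden : 0 < 1 - ‖y‖ ^ 2 := by nlinarith [norm_nonneg y]
    have hx2 : (t • pt a y).2 = t • ((1, y) : ℝ × EE d) := rfl
    have hx1 : (t • pt a y).1 = t * (a (1, y) / (1 - ‖y‖ ^ 2)) := rfl
    have hx21 : (t • pt a y).2.1 = t := by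
      change t * 1 = t
      ring
    have hx22 : (t • pt a y).2.2 = t • y := rfl
    refine hnear _ ?_ ?_ ?_ ?_ ?_
    · change 0 < (t • pt a y).2.1 + (inner ℝ u (t • pt a y).2.2 : ℝ)
      rw [hx21, hx22, real_inner_smul_right]
      nlinarith
    · change (t • pt a y).2.1 - (inner ℝ u (t • pt a y).2.2 : ℝ)
        ≤ r₀ * ((t • pt a y).2.1 + (inner ℝ u (t • pt a y).2.2 : ℝ))
      rw [hx21, hx22, real_inner_smul_right]
      have h1 : 1 - (inner ℝ u y : ℝ) ≤ r₀ * (1 + (inner ℝ u y : ℝ)) := by nlinarith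
      nlinarith
    · change ‖N5_proj u hu (t • pt a y).2.2‖
        ≤ r₀ * ((t • pt a y).2.1 + (inner ℝ u (t • pt a y).2.2 : ℝ))
      rw [hx21, hx22, real_inner_smul_right, map_smul, norm_smul, Real.norm_eq_abs,
        abs_of_pos ht]
      have h1 := N5_norm_proj_sub u hu y
      have h2 : ‖N5_proj u hu y‖ ≤ r₀ * (1 + (inner ℝ u y : ℝ)) := by nlinarith
      nlinarith
    · rw [hq, hx21, hx22, norm_smul, Real.norm_eq_abs, abs_of_pos ht]
      have h1 : t ^ 2 - (t * ‖y‖) ^ 2 = t ^ 2 * (1 - ‖y‖ ^ 2) := by ring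
      rw [h1]
      positivity
    · rw [hba, hq, hx21, hx22, hx2, ha.map_smul, norm_smul, Real.norm_eq_abs,
        abs_of_pos ht]
      change t ^ 3 * a (1, y) ≤ t * (a (1, y) / (1 - ‖y‖ ^ 2)) * (t ^ 2 - (t * ‖y‖) ^ 2)
      apply le_of_eq
      field_simp

end Vale.Agent.P256L
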