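import Mathlib
import Vale.Agent.Lib.P256L.Defs
import Vale.Agent.Lib.P256L.R1

/-!
PROOF SKETCH.
add: {x | exists y, (x,y) in {(x,y) | y in S and x - y in T}}: exists_snd, inter, comap with
fst/snd. cover: Finset induction: for every t the set {x | exists y in S0, exists f : iota -> E,
(forall i in t, f i in P i), x = y + sum i in t, f i} has a Rep (insert: Rep.add); it equals C:
subset by hC; superset by hcov with f = Pi.single i z (0 elsewhere, hP0).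
-/

namespace Vale.Agent.P256L

theorem Rep.add {E : Type} [AddCommGroup E] [Module ℝ E] [FiniteDimensional ℝ E] {S T : Set E}
    (hS : Rep S) (hT : Rep T) : Rep {x | ∃ y ∈ S, ∃ z ∈ T, x = y + z} := by
  have h1 : Rep {p : E × E | LinearMap.snd ℝ E E p ∈ S} := hS.comap (LinearMap.snd ℝ E E)
  have h2 : Rep {p : E × E | (LinearMap.fst ℝ E E - LinearMap.snd ℝ E E) p ∈ T} :=
    hT.comap (LinearMap.fst ℝ E E - LinearMap.snd ℝ E E)
  have h3 := (h1.inter h2).exists_snd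
  have h4 : {x | ∃ y ∈ S, ∃ z ∈ T, x = y + z} =
      {x | ∃ y, (x, y) ∈ {p : E × E | LinearMap.snd ℝ E E p ∈ S} ∩
        {p : E × E | (LinearMap.fst ℝ E E - LinearMap.snd ℝ E E) p ∈ T}} := by
    ext x
    constructor
    · rintro ⟨y, hy, z, hz, rfl⟩
      refine ⟨y, hy, ?_⟩
      show (y + z) - y ∈ T
      rwa [add_sub_cancel_left]
    · rintro ⟨y, hy, hz⟩
      exact ⟨y, hy, x - y, hz, (add_sub_cancel y x).symm⟩
  rw [h4]
  exact h3

private theorem R2_ind {E : Type} [AddCommGroup E] [Module ℝ E] [FiniteDimensional ℝ E]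
    {C S₀ : Set E} (hC : ∀ x ∈ C, ∀ y ∈ C, x + y ∈ C) (hS₀ : Rep S₀)
    (hS₀C : S₀ ⊆ C) {ι : Type} (P : ι → Set E) (t : Finset ι) :
    (∀ i ∈ t, Rep (P i)) → (∀ i ∈ t, P i ⊆ C) → (∀ i ∈ t, (0 : E) ∈ P i) →
    ∃ D : Set E, Rep D ∧ D ⊆ C ∧ S₀ ⊆ D ∧ ∀ i ∈ t, ∀ y ∈ S₀, ∀ z ∈ P i, y + z ∈ D := by
  classical
  induction t using Finset.induction_on with
  | empty =>
    intro _ _ _
    exact ⟨S₀, hS₀, hS₀C, subset_rfl, fun i hi => absurd hi (Finset.notMem_empty i)⟩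
  | insert a t ha ih =>
    intro hP hPC hP0
    obtain ⟨D, h1, h2, h3, h4⟩ := ih (fun i hi => hP i (Finset.mem_insert_of_mem hi))
      (fun i hi => hPC i (Finset.mem_insert_of_mem hi))
      (fun i hi => hP0 i (Finset.mem_insert_of_mem hi))
    have ha' := Finset.mem_insert_self a t
    refine ⟨{x | ∃ y ∈ D, ∃ z ∈ P a, x = y + z}, h1.add (hP a ha'), ?_, ?_, ?_⟩
    · rintro _ ⟨y, hy, z, hz, rfl⟩
      exact hC y (h2 hy) z (hPC a ha' hz)
    · intro y hy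
      exact ⟨y, h3 hy, 0, hP0 a ha', (add_zero y).symm⟩
    · intro i hi y hy z hz
      rcases Finset.mem_insert.1 hi with rfl | hi
      · exact ⟨y, h3 hy, z, hz, rfl⟩
      · exact ⟨y + z, h4 i hi y hy z hz, 0, hP0 a ha', (add_zero _).symm⟩

theorem Rep.cover {E : Type} [AddCommGroup E] [Module ℝ E] [FiniteDimensional ℝ E]
    {C S₀ : Set E} (hC : ∀ x ∈ C, ∀ y ∈ C, x + y ∈ C) (h0 : (0 : E) ∈ C) (hS₀ : Rep S₀)
    (hS₀C : S₀ ⊆ C) {ι : Type} (t : Finset ι) (P : ι → Set E)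
    (hP : ∀ i ∈ t, Rep (P i)) (hPC : ∀ i ∈ t, P i ⊆ C) (hP0 : ∀ i ∈ t, (0 : E) ∈ P i)
    (h00 : (0 : E) ∈ S₀)
    (hcov : ∀ x ∈ C, ∃ y ∈ S₀, ∃ z, x = y + z ∧ (z = 0 ∨ ∃ i ∈ t, z ∈ P i)) : Rep C := by
  obtain ⟨D, h1, h2, h3, h4⟩ := R2_ind hC hS₀ hS₀C P t hP hPC hP0
  have h5 : C = D := by
    apply Set.Subset.antisymm
    · intro x hx
      obtain ⟨y, hy, z, rfl, hz⟩ := hcov x hx
      rcases hz with rfl | ⟨i, hi, hz⟩
      · rw [add_zero]
        exact h3 hy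
      · exact h4 i hi y hy z hz
    · exact h2
  rw [h5]
  exact h1

end Vale.Agent.P256L
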