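import Mathlib
import Vale.Agent.Lib.P256L.Defs

/-!
PROOF SKETCH.
Symmetrize B (B' v w = (B v w + B w v)/2), orthogonal basis b of B'
(LinearMap.BilinForm.exists_orthogonal_basis), B' w w = sum_i B'(b i)(b i) (b.coord i w)^2; Z i
= sqrt(B'(b i)(b i)) * coord i. Or: matrix of B' in a basis is PosSemidef, so equals A^T A
(Matrix.posSemidef_iff_eq_conjTranspose_mul_self), Z k = row k of A.
-/

namespace Vale.Agent.P256L

theorem exists_sum_sq {W : Type} [AddCommGroup W] [Module ℝ W] [FiniteDimensional ℝ W]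
    (B : W →ₗ[ℝ] W →ₗ[ℝ] ℝ) (hB : ∀ w, 0 ≤ B w w) :
    ∃ (M : ℕ) (Z : Fin M → W →ₗ[ℝ] ℝ), ∀ w, B w w = ∑ k, Z k w ^ 2 := by
  classical
  let B' : LinearMap.BilinForm ℝ W := (1 / 2 : ℝ) • (B + B.flip)
  have hval : ∀ v w, B' v w = 1 / 2 * (B v w + B w v) := fun v w => rfl
  have hd : ∀ w, B' w w = B w w := fun w => by
    rw [hval]
    ring
  have hs : LinearMap.IsSymm B' := ⟨fun v w => by
    change B' v w = B' w v
    rw [hval, hval]
    ring⟩
  obtain ⟨v, hv⟩ := LinearMap.BilinForm.exists_orthogonal_basis hs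
  have hv' : ∀ i j, i ≠ j → B' (v i) (v j) = 0 := fun i j hij => hv hij
  refine ⟨Module.finrank ℝ W, fun i => Real.sqrt (B' (v i) (v i)) • v.coord i, fun w => ?_⟩
  rw [← hd w]
  have h1 : B' w w = ∑ i, ∑ j, v.repr w i * (v.repr w j * B' (v i) (v j)) := by
    have e : w = ∑ i, v.repr w i • v i := (v.sum_repr w).symm
    have h2 : ∀ i, B' (v i) w = ∑ j, v.repr w j * B' (v i) (v j) := fun i => by
      refine (congrArg (B' (v i)) e).trans ?_
      rw [map_sum]
      exact Finset.sum_congr rfl fun j _ => map_smul _ _ _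
    refine (congrArg (fun z => B' z w) e).trans ?_
    refine (LinearMap.map_sum₂ B' _ _ _).trans (Finset.sum_congr rfl fun i _ => ?_)
    rw [← Finset.mul_sum, ← h2 i]
    exact LinearMap.map_smul₂ B' _ _ _
  rw [h1]
  refine Finset.sum_congr rfl fun i _ => ?_
  rw [Finset.sum_eq_single i (fun j _ hj => by rw [hv' i j hj.symm]; ring)
    (fun h => absurd (Finset.mem_univ i) h)]
  have h2 : 0 ≤ B' (v i) (v i) := by
    rw [hd]
    exact hB _
  have h3 : (Real.sqrt (B' (v i) (v i)) • v.coord i) w =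
      Real.sqrt (B' (v i) (v i)) * v.repr w i := rfl
  change _ = ((Real.sqrt (B' (v i) (v i)) • v.coord i) w) ^ 2
  rw [h3, mul_pow, Real.sq_sqrt h2]
  ring

end Vale.Agent.P256L
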