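import Mathlib
import Vale.Agent.Lib.P256L.Defs
import Vale.Agent.Lib.P256L.S1

/-!
PROOF SKETCH.
T = sum_j tau_j l_j^3. For eps > 0: |tau| Y^3 = (|tau|/eps^3)((h + eps Y)^3 - h^3 - 3 eps h^2 Y
- 3 eps^2 h Y^2) with Y = sign(tau) l. Choose eps so large that (3/eps) sum |tau_j| C_j^2 <= m
where |l_j w| <= C_j |w| (LinearMap.toContinuousLinearMap). Then B' = B - (3/eps) sum |tau_j|
l_j l_j is >= 0, exists_sum_sq for B'. X j = eps sign(tau_j) l_j, c j = |tau_j|/eps^3, g(h,w) =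
-sum (c_j (h + 3 X_j w)).
-/

namespace Vale.Agent.P256L

theorem exists_dec {W : Type} [NormedAddCommGroup W] [NormedSpace ℝ W] [FiniteDimensional ℝ W]
    (B : W →ₗ[ℝ] W →ₗ[ℝ] ℝ) {m : ℝ} (hm : 0 < m) (hB : ∀ w, m * ‖w‖ ^ 2 ≤ B w w)
    {T : W → ℝ} (hT : IsCubic T) :
    ∃ (N M : ℕ) (X : Fin N → W →ₗ[ℝ] ℝ) (c : Fin N → ℝ) (Z : Fin M → W →ₗ[ℝ] ℝ)
      (g : (ℝ × W) →ₗ[ℝ] ℝ), (∀ j, 0 ≤ c j) ∧
      ∀ (h : ℝ) (w : W), h * B w w + T w =
        ∑ j, c j * (h + X j w) ^ 3 + h * ∑ k, Z k w ^ 2 + h ^ 2 * g (h, w) := by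
  obtain ⟨N, τ, l, hTl⟩ := hT
  set C : Fin N → ℝ := fun j => ‖LinearMap.toContinuousLinearMap (l j)‖ with hC
  have hCb : ∀ j w, |l j w| ≤ C j * ‖w‖ := by
    intro j w
    have h1 := (LinearMap.toContinuousLinearMap (l j)).le_opNorm w
    simpa [Real.norm_eq_abs] using h1
  set S : ℝ := ∑ j, |τ j| * C j ^ 2 with hS
  have hS0 : 0 ≤ S := Finset.sum_nonneg fun j _ => mul_nonneg (abs_nonneg _) (sq_nonneg _)
  set ε : ℝ := 3 * S / m + 1 with hε
  have hε0 : 0 < ε := by positivity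
  have hεS : 3 * S / ε ≤ m := by
    rw [div_le_iff₀ hε0, hε]
    have : m * (3 * S / m + 1) = 3 * S + m := by
      field_simp
    linarith
  -- the corrected bilinear form
  set B' : W →ₗ[ℝ] W →ₗ[ℝ] ℝ := B - ∑ j, (3 * |τ j| / ε) • (l j).smulRight (l j) with hB'
  have hB'e : ∀ w, B' w w = B w w - ∑ j, (3 * |τ j| / ε) * (l j w) ^ 2 := by
    intro w
    rw [hB']
    simp only [LinearMap.sub_apply, LinearMap.sum_apply, LinearMap.smul_apply,
      LinearMap.smulRight_apply, smul_eq_mul]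
    congr 1
    exact Finset.sum_congr rfl fun j _ => by ring
  have hB'0 : ∀ w, 0 ≤ B' w w := by
    intro w
    rw [hB'e]
    have h1 : ∑ j, (3 * |τ j| / ε) * (l j w) ^ 2 ≤ m * ‖w‖ ^ 2 := by
      calc ∑ j, (3 * |τ j| / ε) * (l j w) ^ 2
          ≤ ∑ j, (3 * |τ j| / ε) * (C j * ‖w‖) ^ 2 := by
            apply Finset.sum_le_sum
            intro j _
            apply mul_le_mul_of_nonneg_left _ (by positivity)
            rw [← sq_abs (l j w)]
            exact pow_le_pow_left₀ (abs_nonneg _) (hCb j w) 2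
        _ = 3 * S / ε * ‖w‖ ^ 2 := by
            rw [hS, Finset.mul_sum, Finset.sum_div, Finset.sum_mul]
            exact Finset.sum_congr rfl fun j _ => by ring
        _ ≤ m * ‖w‖ ^ 2 := mul_le_mul_of_nonneg_right hεS (sq_nonneg _)
    linarith [hB w]
  obtain ⟨M, Z, hZ⟩ := exists_sum_sq B' hB'0
  set s : Fin N → ℝ := fun j => if τ j < 0 then -1 else 1 with hs
  have hs1 : ∀ j, |τ j| * s j = τ j := by
    intro j
    simp only [hs]
    split_ifs with h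
    · rw [abs_of_neg h]; ring
    · rw [abs_of_nonneg (not_lt.1 h)]; ring
  have hs2 : ∀ j, s j ^ 2 = 1 := by
    intro j
    simp only [hs]
    split_ifs <;> norm_num
  refine ⟨N, M, fun j => (ε * s j) • l j, fun j => |τ j| / ε ^ 3, Z,
    -∑ j, (|τ j| / ε ^ 3) • (LinearMap.fst ℝ ℝ W +
      (3 : ℝ) • (((ε * s j) • l j) ∘ₗ LinearMap.snd ℝ ℝ W)), fun j => by positivity, ?_⟩
  intro h w
  rw [← hZ w, hB'e w, hTl w]
  simp only [LinearMap.neg_apply, LinearMap.sum_apply, LinearMap.smul_apply, LinearMap.add_apply,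
    LinearMap.comp_apply, LinearMap.fst_apply, LinearMap.snd_apply, smul_eq_mul]
  have key : ∀ j, |τ j| / ε ^ 3 * (h + ε * s j * l j w) ^ 3 =
      τ j * l j w ^ 3 + h * (3 * |τ j| / ε * l j w ^ 2) +
        h ^ 2 * (|τ j| / ε ^ 3 * (h + 3 * (ε * s j * l j w))) := by
    intro j
    have e1 : |τ j| / ε ^ 3 * (ε * s j) ^ 3 = τ j := by
      have : |τ j| / ε ^ 3 * (ε * s j) ^ 3 = (|τ j| * s j) * s j ^ 2 := by
        field_simp
      rw [this, hs1, hs2, mul_one]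
    have e2 : |τ j| / ε ^ 3 * (ε * s j) ^ 2 = |τ j| / ε := by
      have : |τ j| / ε ^ 3 * (ε * s j) ^ 2 = |τ j| / ε * s j ^ 2 := by
        field_simp
      rw [this, hs2, mul_one]
    calc |τ j| / ε ^ 3 * (h + ε * s j * l j w) ^ 3
        = (|τ j| / ε ^ 3 * (ε * s j) ^ 3) * l j w ^ 3 +
          h * (3 * (|τ j| / ε ^ 3 * (ε * s j) ^ 2) * l j w ^ 2) +
          h ^ 2 * (|τ j| / ε ^ 3 * (h + 3 * (ε * s j * l j w))) := by ring
      _ = _ := by rw [e1, e2]; ring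
  rw [Finset.sum_congr rfl fun j _ => key j, Finset.sum_add_distrib, Finset.sum_add_distrib,
    ← Finset.mul_sum, ← Finset.mul_sum]
  ring

end Vale.Agent.P256L
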