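import Mathlib
import Vale.Agent.Lib.P256L.Defs
import Vale.Agent.Lib.P256L.C1
import Vale.Agent.Lib.P256L.R1
import Vale.Agent.Lib.P256L.S2

/-!
PROOF SKETCH.
exists_dec: h B w w + T w = sum c_j (h + X_j w)^3 + h sum Z_k^2 + h^2 g. Choose a basis of W and
r1 > 0 so small that |coord_i w| <= r1 h for all i implies |w| <= R h and |X_j w| <= h (so h +
X_j w >= 0) (norms equivalent / coordinates and linear forms are bounded by C |w| and |w| <= C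
max |coord|). S := {(h,w) | 0 <= h, |coord_i w| <= r1 h, exists T1 T2 Y (Fin N, Fin M, Fin N ->
R) with Z_k^2 <= T2_k h, (h+X_j w)^2 <= Y_j h, Y_j^2 <= T1_j (h + X_j w), T1, T2, Y >= 0, sum
c_j T1_j + sum T2_k + (g + f)(h,w) <= 0}. Rep: exists_snd of intersections (rep_soc, rep_nonneg,
forall_fin). If h = 0: w = 0, all is 0. If h > 0: Y_j >= (h+X)^2/h, T1_j >= (h+X)^3/h^2 (if h +
X_j w = 0 trivial), T2_k >= Z_k^2/h: multiply by h^2. Conversely take equalities.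
-/

namespace Vale.Agent.P256L

private theorem lin_bound {W : Type} [NormedAddCommGroup W] [NormedSpace ℝ W]
    [FiniteDimensional ℝ W] (l : W →ₗ[ℝ] ℝ) : ∃ C : ℝ, 0 ≤ C ∧ ∀ w, |l w| ≤ C * ‖w‖ :=
  ⟨‖LinearMap.toContinuousLinearMap l‖, norm_nonneg _, fun w => by
    have := (LinearMap.toContinuousLinearMap l).le_opNorm w
    rwa [Real.norm_eq_abs] at this⟩

private theorem norm_bound {W : Type} [NormedAddCommGroup W] [NormedSpace ℝ W] {D : ℕ}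
    (b : Module.Basis (Fin D) ℝ W) {ρ : ℝ} (w : W) (hw : ∀ i, |b.coord i w| ≤ ρ) :
    ‖w‖ ≤ ρ * ∑ i, ‖b i‖ := by
  have h1 : w = ∑ i, b.coord i w • b i := by
    conv_lhs => rw [← b.sum_repr w]
    rfl
  calc ‖w‖ = ‖∑ i, b.coord i w • b i‖ := by rw [← h1]
    _ ≤ ∑ i, ‖b.coord i w • b i‖ := norm_sum_le _ _
    _ ≤ ∑ i, ρ * ‖b i‖ := by
        refine Finset.sum_le_sum fun i _ => ?_
        rw [norm_smul, Real.norm_eq_abs]
        exact mul_le_mul_of_nonneg_right (hw i) (norm_nonneg _)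
    _ = ρ * ∑ i, ‖b i‖ := by rw [Finset.mul_sum]

private theorem cube_aux {h A Y T : ℝ} (hh : 0 < h) (hA : 0 ≤ A) (hY : A ^ 2 ≤ Y * h)
    (hT0 : 0 ≤ T) (hT : Y ^ 2 ≤ T * A) : A ^ 3 ≤ h ^ 2 * T := by
  rcases eq_or_lt_of_le hA with h0 | h0
  · rw [← h0]
    have : 0 ≤ h ^ 2 * T := by positivity
    simpa using this
  · have h1 : (A ^ 2) ^ 2 ≤ (Y * h) ^ 2 := pow_le_pow_left₀ (by positivity) hY 2
    have h2 : h ^ 2 * Y ^ 2 ≤ h ^ 2 * (T * A) := mul_le_mul_of_nonneg_left hT (by positivity)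
    have h3 : A ^ 3 * A ≤ (h ^ 2 * T) * A := by nlinarith
    exact le_of_mul_le_mul_right h3 h0

private theorem small_exists {D N : ℕ} (C : Fin D → ℝ) (C' : Fin N → ℝ) (hC : ∀ i, 0 ≤ C i)
    (hC' : ∀ j, 0 ≤ C' j) {r₁ : ℝ} (hr₁ : 0 < r₁) :
    ∃ r > 0, (∀ i, C i * r ≤ r₁) ∧ ∀ j, C' j * r ≤ 1 := by
  have h0 : 0 ≤ ∑ i, C i := Finset.sum_nonneg fun i _ => hC i
  have h0' : 0 ≤ ∑ j, C' j := Finset.sum_nonneg fun j _ => hC' j
  set Q := ∑ i, C i + ∑ j, C' j + 1 with hQ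
  have hQpos : 0 < Q := by linarith
  have hmin : 0 < min r₁ 1 := lt_min hr₁ one_pos
  have hr : 0 < min r₁ 1 / Q := div_pos hmin hQpos
  have hQr : Q * (min r₁ 1 / Q) = min r₁ 1 := by field_simp
  refine ⟨min r₁ 1 / Q, hr, fun i => ?_, fun j => ?_⟩
  · have h1 : C i ≤ Q := by
      have := Finset.single_le_sum (fun i _ => hC i) (Finset.mem_univ i)
      linarith
    calc C i * (min r₁ 1 / Q) ≤ Q * (min r₁ 1 / Q) := mul_le_mul_of_nonneg_right h1 hr.le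
      _ = min r₁ 1 := hQr
      _ ≤ r₁ := min_le_left _ _
  · have h1 : C' j ≤ Q := by
      have := Finset.single_le_sum (fun j _ => hC' j) (Finset.mem_univ j)
      linarith
    calc C' j * (min r₁ 1 / Q) ≤ Q * (min r₁ 1 / Q) := mul_le_mul_of_nonneg_right h1 hr.le
      _ = min r₁ 1 := hQr
      _ ≤ 1 := min_le_right _ _

private theorem rep_congr {E : Type} [AddCommGroup E] [Module ℝ E] {S T : Set E} (h : Rep S)
    (hh : ∀ x, x ∈ T ↔ x ∈ S) : Rep T := by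
  rw [show T = S from Set.ext hh]
  exact h

private theorem rep_main {W : Type} [AddCommGroup W] [Module ℝ W] {D N M : ℕ}
    (co : Fin D → W →ₗ[ℝ] ℝ) (r₁ : ℝ) (X : Fin N → W →ₗ[ℝ] ℝ) (c : Fin N → ℝ)
    (Z : Fin M → W →ₗ[ℝ] ℝ) (g : (ℝ × W) →ₗ[ℝ] ℝ) :
    Rep {x : ℝ × W | ∃ y : (Fin N → ℝ) × ((Fin N → ℝ) × (Fin M → ℝ)),
      0 ≤ x.1 ∧ (∀ i, 0 ≤ r₁ * x.1 - co i x.2) ∧ (∀ i, 0 ≤ r₁ * x.1 + co i x.2) ∧
      (∀ k, 0 ≤ y.2.2 k ∧ 0 ≤ x.1 ∧ Z k x.2 ^ 2 ≤ y.2.2 k * x.1) ∧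
      (∀ j, 0 ≤ y.1 j ∧ 0 ≤ x.1 ∧ (x.1 + X j x.2) ^ 2 ≤ y.1 j * x.1) ∧
      (∀ j, 0 ≤ y.2.1 j ∧ 0 ≤ x.1 + X j x.2 ∧ y.1 j ^ 2 ≤ y.2.1 j * (x.1 + X j x.2)) ∧
      0 ≤ -(∑ j, c j * y.2.1 j + ∑ k, y.2.2 k + g x)} := by
  let E := ℝ × W
  let F := (Fin N → ℝ) × ((Fin N → ℝ) × (Fin M → ℝ))
  let H : (E × F) →ₗ[ℝ] ℝ := (LinearMap.fst ℝ ℝ W).comp (LinearMap.fst ℝ E F)
  let V : (E × F) →ₗ[ℝ] W := (LinearMap.snd ℝ ℝ W).comp (LinearMap.fst ℝ E F)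
  let Y : Fin N → (E × F) →ₗ[ℝ] ℝ := fun j =>
    (LinearMap.proj j).comp ((LinearMap.fst ℝ (Fin N → ℝ) ((Fin N → ℝ) × (Fin M → ℝ))).comp
      (LinearMap.snd ℝ E F))
  let T1 : Fin N → (E × F) →ₗ[ℝ] ℝ := fun j =>
    (LinearMap.proj j).comp ((LinearMap.fst ℝ (Fin N → ℝ) (Fin M → ℝ)).comp
      ((LinearMap.snd ℝ (Fin N → ℝ) ((Fin N → ℝ) × (Fin M → ℝ))).comp (LinearMap.snd ℝ E F)))
  let T2 : Fin M → (E × F) →ₗ[ℝ] ℝ := fun k =>
    (LinearMap.proj k).comp ((LinearMap.snd ℝ (Fin N → ℝ) (Fin M → ℝ)).comp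
      ((LinearMap.snd ℝ (Fin N → ℝ) ((Fin N → ℝ) × (Fin M → ℝ))).comp (LinearMap.snd ℝ E F)))
  let G : (E × F) →ₗ[ℝ] ℝ :=
    -(∑ j, c j • T1 j + ∑ k, T2 k + g.comp (LinearMap.fst ℝ E F))
  have hrep := Rep.exists_snd (E := E) (F := F)
    ((rep_nonneg H).inter ((Rep.forall_fin D (fun i => {p | 0 ≤ (r₁ • H - (co i).comp V) p})
      (fun i => rep_nonneg _)).inter ((Rep.forall_fin D
        (fun i => {p | 0 ≤ (r₁ • H + (co i).comp V) p})
      (fun i => rep_nonneg _)).inter ((Rep.forall_fin M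
        (fun k => {p | 0 ≤ T2 k p ∧ 0 ≤ H p ∧ ((Z k).comp V p) ^ 2 ≤ T2 k p * H p})
      (fun k => rep_soc _ _ _)).inter ((Rep.forall_fin N
        (fun j => {p | 0 ≤ Y j p ∧ 0 ≤ H p ∧ ((H + (X j).comp V) p) ^ 2 ≤ Y j p * H p})
      (fun j => rep_soc _ _ _)).inter ((Rep.forall_fin N
        (fun j => {p | 0 ≤ T1 j p ∧ 0 ≤ (H + (X j).comp V) p ∧
          (Y j p) ^ 2 ≤ T1 j p * (H + (X j).comp V) p})
      (fun j => rep_soc _ _ _)).inter (rep_nonneg G)))))))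
  have hG : ∀ p : E × F, G p = -(∑ j, c j * p.2.2.1 j + ∑ k, p.2.2.2 k + g p.1) := by
    intro p
    simp only [G, LinearMap.neg_apply, LinearMap.add_apply, LinearMap.sum_apply,
      LinearMap.smul_apply, smul_eq_mul]
    rfl
  refine rep_congr hrep fun x => ?_
  refine exists_congr fun y => ?_
  rw [← hG (x, y)]
  exact Iff.rfl

theorem exists_local {W : Type} [NormedAddCommGroup W] [NormedSpace ℝ W] [FiniteDimensional ℝ W]
    (B : W →ₗ[ℝ] W →ₗ[ℝ] ℝ) {m : ℝ} (hm : 0 < m) (hB : ∀ w, m * ‖w‖ ^ 2 ≤ B w w)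
    {T : W → ℝ} (hT : IsCubic T) (f : (ℝ × W) →ₗ[ℝ] ℝ) {R : ℝ} (hR : 0 < R) :
    ∃ S : Set (ℝ × W), Rep S ∧
      (∀ x ∈ S, 0 ≤ x.1 ∧ ‖x.2‖ ≤ R * x.1 ∧ x.1 ^ 2 * f x + x.1 * B x.2 x.2 + T x.2 ≤ 0) ∧
      ∃ r > 0, ∀ x : ℝ × W, 0 < x.1 → ‖x.2‖ ≤ r * x.1 →
        x.1 ^ 2 * f x + x.1 * B x.2 x.2 + T x.2 ≤ 0 → x ∈ S := by
  obtain ⟨N, M, X, c, Z, g, hc, hdec⟩ := exists_dec B hm hB hT
  let b := Module.finBasis ℝ W
  have hs0 : 0 ≤ ∑ i, ‖b i‖ := Finset.sum_nonneg fun i _ => norm_nonneg _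
  set r₁ := R / (∑ i, ‖b i‖ + 1) with hr₁d
  have hr₁ : 0 < r₁ := by positivity
  have hr₁R : r₁ * ∑ i, ‖b i‖ ≤ R := by
    rw [hr₁d, div_mul_eq_mul_div, div_le_iff₀ (by linarith)]
    nlinarith
  refine ⟨_, rep_main (fun i => b.coord i) r₁ X c Z (g + f), ?_, ?_⟩
  · rintro ⟨h, w⟩ ⟨⟨Y, T1, T2⟩, h0, h1, h2, h3, h4, h5, h6⟩
    simp only at h0 h1 h2 h3 h4 h5 h6 ⊢
    have hw : ‖w‖ ≤ R * h := by
      have h7 := norm_bound b (ρ := r₁ * h) w (fun i => abs_le.2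
        ⟨by linarith [h2 i], by linarith [h1 i]⟩)
      calc ‖w‖ ≤ r₁ * h * ∑ i, ‖b i‖ := h7
        _ = (r₁ * ∑ i, ‖b i‖) * h := by ring
        _ ≤ R * h := mul_le_mul_of_nonneg_right hr₁R h0
    refine ⟨h0, hw, ?_⟩
    rcases eq_or_lt_of_le h0 with hh | hh
    · rw [← hh, mul_zero] at hw
      have hw0 : w = 0 := norm_le_zero_iff.1 hw
      rw [← hh, hw0, hT.map_zero]
      simp
    · have hd := hdec h w
      have e1 : ∑ j, c j * (h + X j w) ^ 3 ≤ h ^ 2 * ∑ j, c j * T1 j := by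
        rw [Finset.mul_sum]
        refine Finset.sum_le_sum fun j _ => ?_
        have := cube_aux hh (h5 j).2.1 (h4 j).2.2 (h5 j).1 (h5 j).2.2
        nlinarith [mul_le_mul_of_nonneg_left this (hc j)]
      have e2 : h * ∑ k, Z k w ^ 2 ≤ h ^ 2 * ∑ k, T2 k := by
        rw [Finset.mul_sum, Finset.mul_sum]
        refine Finset.sum_le_sum fun k _ => ?_
        nlinarith [mul_le_mul_of_nonneg_left (h3 k).2.2 hh.le]
      have e3 : (g + f) (h, w) = g (h, w) + f (h, w) := rfl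
      rw [e3] at h6
      have e4 : 0 ≤ h ^ 2 * (-(∑ j, c j * T1 j + ∑ k, T2 k + (g (h, w) + f (h, w)))) :=
        mul_nonneg (by positivity) h6
      nlinarith
  · choose C hC0 hC using fun i => lin_bound (b.coord i)
    choose C' hC0' hC' using fun j => lin_bound (X j)
    obtain ⟨r, hr, hrC, hrC'⟩ := small_exists C C' hC0 hC0' hr₁
    refine ⟨r, hr, ?_⟩
    rintro ⟨h, w⟩ hh hw hle
    simp only at hh hw hle
    have hco : ∀ i, |b.coord i w| ≤ r₁ * h := by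
      intro i
      calc |b.coord i w| ≤ C i * ‖w‖ := hC i w
        _ ≤ C i * (r * h) := mul_le_mul_of_nonneg_left hw (hC0 i)
        _ = (C i * r) * h := by ring
        _ ≤ r₁ * h := mul_le_mul_of_nonneg_right (hrC i) hh.le
    have hX : ∀ j, 0 ≤ h + X j w := by
      intro j
      have : |X j w| ≤ h := by
        calc |X j w| ≤ C' j * ‖w‖ := hC' j w
          _ ≤ C' j * (r * h) := mul_le_mul_of_nonneg_left hw (hC0' j)
          _ = (C' j * r) * h := by ring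
          _ ≤ 1 * h := mul_le_mul_of_nonneg_right (hrC' j) hh.le
          _ = h := one_mul h
      linarith [(abs_le.1 this).1]
    refine ⟨⟨fun j => (h + X j w) ^ 2 / h, fun j => (h + X j w) ^ 3 / h ^ 2,
      fun k => Z k w ^ 2 / h⟩, hh.le, fun i => ?_, fun i => ?_, fun k => ⟨?_, hh.le, ?_⟩,
      fun j => ⟨?_, hh.le, ?_⟩, fun j => ⟨?_, hX j, ?_⟩, ?_⟩
    · simp only
      linarith [(abs_le.1 (hco i)).2]
    · simp only
      linarith [(abs_le.1 (hco i)).1]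
    · simp only
      positivity
    · simp only
      rw [div_mul_cancel₀ _ hh.ne']
    · simp only
      positivity
    · simp only
      rw [div_mul_cancel₀ _ hh.ne']
    · simp only
      exact div_nonneg (pow_nonneg (hX j) 3) (by positivity)
    · simp only
      refine le_of_eq ?_
      field_simp
    · simp only
      have hd := hdec h w
      have e3 : (g + f) (h, w) = g (h, w) + f (h, w) := rfl
      rw [e3]
      have e1 : ∑ j, c j * ((h + X j w) ^ 3 / h ^ 2) = (∑ j, c j * (h + X j w) ^ 3) / h ^ 2 := by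
        rw [Finset.sum_div]
        exact Finset.sum_congr rfl fun j _ => by ring
      have e2 : ∑ k, Z k w ^ 2 / h = (h * ∑ k, Z k w ^ 2) / h ^ 2 := by
        rw [← Finset.sum_div]
        field_simp
      rw [e1, e2]
      have e4 : (∑ j, c j * (h + X j w) ^ 3) / h ^ 2 + (h * ∑ k, Z k w ^ 2) / h ^ 2
          + (g (h, w) + f (h, w))
          = (∑ j, c j * (h + X j w) ^ 3 + h * ∑ k, Z k w ^ 2 + h ^ 2 * (g (h, w) + f (h, w)))
            / h ^ 2 := by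
        field_simp
      rw [e4, neg_nonneg]
      refine div_nonpos_of_nonpos_of_nonneg ?_ (by positivity)
      linarith

end Vale.Agent.P256L
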