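import Mathlib
import Vale.Agent.Lib.P256L.Defs
import Vale.Agent.Lib.P256L.C1

/-!
PROOF SKETCH.
a = sum tau_j l_j^3, q(x) = x.1^2 - |x.2|^2, s = q(1,c) = 1-|c|^2 > 0. tau := (Da(1,c)[.] s -
a(1,c) Dq(1,c)[.])/s^2 with Da(1,c)[z] = 3 sum tau_j (l_j (1,c))^2 l_j z, Dq(1,c)[z] = 2 z.1 - 2
<c, z.2>. Then tau(1,c) = a(1,c)/s. G = a - q tau, G(t, t c + v) = t^3 G(1,c) + t^2
DG(1,c)[(0,v)] + t B v v + T v with G(1,c) = 0, DG(1,c) = 0, B v w = 3 sum tau_j l_j(1,c)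
l_j(0,v) l_j(0,w) + tau(1,c) <v,w> + (<c,v> tau(0,w) + <c,w> tau(0,v)), T v = a(0,v) + |v|^2
tau(0,v) (IsCubic by comp, isCubic_mul_norm, add). Expand everything as polynomials in t.
-/

namespace Vale.Agent.P256L

theorem exists_taylor {d : ℕ} {a : ℝ × EE d → ℝ} (ha : IsCubic a) (c : EE d) (hc : ‖c‖ < 1) :
    ∃ (τ : (ℝ × EE d) →ₗ[ℝ] ℝ) (B : EE d →ₗ[ℝ] EE d →ₗ[ℝ] ℝ) (T : EE d → ℝ), IsCubic T ∧
      τ (1, c) * (1 - ‖c‖ ^ 2) = a (1, c) ∧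
      ∀ (t : ℝ) (v : EE d), a (t, t • c + v) -
        (t ^ 2 - ‖t • c + v‖ ^ 2) * τ (t, t • c + v) = t * B v v + T v := by
  obtain ⟨N, σ, l, hl⟩ := id ha
  have hs : 0 < 1 - ‖c‖ ^ 2 := by
    have h0 := norm_nonneg c
    nlinarith
  obtain ⟨s, hsd⟩ : ∃ s, s = 1 - ‖c‖ ^ 2 := ⟨_, rfl⟩
  rw [← hsd] at hs
  obtain ⟨e, he⟩ : ∃ e : ℝ × EE d, e = (1, c) := ⟨_, rfl⟩
  let Da : (ℝ × EE d) →ₗ[ℝ] ℝ := ∑ j, (3 * σ j * l j e ^ 2) • l j
  let Dq : (ℝ × EE d) →ₗ[ℝ] ℝ := (2 : ℝ) • LinearMap.fst ℝ ℝ (EE d) -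
    (2 : ℝ) • (innerₗ (EE d) c).comp (LinearMap.snd ℝ ℝ (EE d))
  let τ : (ℝ × EE d) →ₗ[ℝ] ℝ := s⁻¹ • Da - (a e / s ^ 2) • Dq
  let ir := LinearMap.inr ℝ ℝ (EE d)
  let B : EE d →ₗ[ℝ] EE d →ₗ[ℝ] ℝ :=
    (∑ j, (3 * σ j * l j e) • (LinearMap.mul ℝ ℝ).compl₁₂ ((l j).comp ir) ((l j).comp ir)) +
    (τ e) • innerₗ (EE d) +
    ((LinearMap.mul ℝ ℝ).compl₁₂ (innerₗ (EE d) c) (τ.comp ir) +
      (LinearMap.mul ℝ ℝ).compl₁₂ (τ.comp ir) (innerₗ (EE d) c))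
  have hDa : ∀ z, Da z = ∑ j, 3 * σ j * l j e ^ 2 * l j z := by
    intro z
    simp [Da, LinearMap.sum_apply]
  have hDq : ∀ z : ℝ × EE d, Dq z = 2 * z.1 - 2 * inner ℝ c z.2 := by
    intro z
    simp [Dq]
  have hτ : ∀ z, τ z = s⁻¹ * Da z - a e / s ^ 2 * Dq z := by
    intro z
    simp [τ]
  have hB : ∀ v, B v v = ∑ j, 3 * σ j * l j e * l j (0, v) ^ 2 + τ e * ‖v‖ ^ 2 +
      2 * inner ℝ c v * τ (0, v) := by
    intro v
    have h1 : B v v = ∑ j, 3 * σ j * l j e * (l j (0, v) * l j (0, v)) + τ e * inner ℝ v v +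
      (inner ℝ c v * τ (0, v) + τ (0, v) * inner ℝ c v) := by
      simp [B, ir, LinearMap.sum_apply]
    rw [h1, real_inner_self_eq_norm_sq]
    have h2 : ∑ j, 3 * σ j * l j e * (l j (0, v) * l j (0, v)) =
        ∑ j, 3 * σ j * l j e * l j (0, v) ^ 2 :=
      Finset.sum_congr rfl fun j _ => by ring
    rw [h2]
    ring
  have hDae : Da e = 3 * a e := by
    rw [hDa, hl, Finset.mul_sum]
    exact Finset.sum_congr rfl fun j _ => by ring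
  have hDqe : Dq e = 2 * s := by
    rw [hDq, he]
    simp only
    rw [real_inner_self_eq_norm_sq, hsd]
    ring
  have hτe : τ e * s = a e := by
    rw [hτ, hDae, hDqe]
    field_simp
    ring
  refine ⟨τ, B, fun v => a (0, v) + τ (0, v) * ‖v‖ ^ 2, ?_, ?_, ?_⟩
  · exact (ha.comp ir).add (isCubic_mul_norm (τ.comp ir))
  · rw [← he, ← hsd]
    exact hτe
  · intro t v
    have hx : ((t, t • c + v) : ℝ × EE d) = t • e + (0, v) := by
      rw [he]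
      simp
    have h1 : ∀ f : (ℝ × EE d) →ₗ[ℝ] ℝ, f (t, t • c + v) = t * f e + f (0, v) := by
      intro f
      rw [hx, map_add, map_smul, smul_eq_mul]
    have ha1 : a (t, t • c + v) = t ^ 3 * a e + t ^ 2 * Da (0, v) +
        t * (∑ j, 3 * σ j * l j e * l j (0, v) ^ 2) + a (0, v) := by
      rw [hl (t, t • c + v), hl e, hl (0, v), hDa, Finset.mul_sum, Finset.mul_sum,
        Finset.mul_sum, ← Finset.sum_add_distrib, ← Finset.sum_add_distrib,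
        ← Finset.sum_add_distrib]
      refine Finset.sum_congr rfl fun j _ => ?_
      rw [h1]
      ring
    have hn : ‖t • c + v‖ ^ 2 = t ^ 2 * (1 - s) + 2 * t * inner ℝ c v + ‖v‖ ^ 2 := by
      rw [norm_add_sq_real, norm_smul, mul_pow, Real.norm_eq_abs, sq_abs, inner_smul_left, hsd]
      simp only [conj_trivial]
      ring
    have hτv : s * τ (0, v) = Da (0, v) + 2 * τ e * inner ℝ c v := by
      rw [hτ (0, v), hDq]
      simp only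
      have h2 : τ e = a e / s := by
        rw [eq_div_iff hs.ne']
        exact hτe
      rw [h2]
      field_simp
      ring
    have hDav : Da (0, v) = s * τ (0, v) - 2 * τ e * inner ℝ c v := by linarith
    rw [h1 τ, ha1, hn, hB, hDav, ← hτe]
    ring

end Vale.Agent.P256L
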