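import Mathlib
import Vale.Agent.Lib.P256L.Defs
import Vale.Agent.Lib.P256L.C1

/-!
PROOF SKETCH.
exists_sphere: IVT for t -> |c + t v| on [0, (1+|c|)/|v| ] (continuous, < 1 at 0, >= 1 at the
end). taylor_pos: for v != 0 take t from exists_sphere: h 1 (t v) gives a(1, c + t v) = t^2 B v
v + t^3 T v > 0 (map_smul; the factor 1 - |c+tv|^2 is 0), so B v v + t T v > 0; the same for -v
with another t: B v v - t2 T v > 0 (map_neg); hence B v v > 0 . If |c + v| <= 1 then 1 <= t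
(else c + t v is a strict convex combination), so by linear interpolation B v v + T v >= 0. The
lower bound m |v|^2: minimum of B v v over the unit sphere (compact; if the sphere is empty take
m = 1), homogeneity.
-/

namespace Vale.Agent.P256L

theorem exists_sphere {d : ℕ} (c v : EE d) (hc : ‖c‖ < 1) (hv : v ≠ 0) :
    ∃ t : ℝ, 0 < t ∧ ‖c + t • v‖ = 1 := by
  have hv0 : 0 < ‖v‖ := norm_pos_iff.2 hv
  have hT : 0 ≤ (1 + ‖c‖) / ‖v‖ := by positivity
  have hcont : ContinuousOn (fun t : ℝ => ‖c + t • v‖) (Set.Icc 0 ((1 + ‖c‖) / ‖v‖)) := by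
    fun_prop
  have h := intermediate_value_Icc hT hcont
  have h1 : (1 : ℝ) ∈ Set.Icc ‖c + (0 : ℝ) • v‖ ‖c + ((1 + ‖c‖) / ‖v‖) • v‖ := by
    constructor
    · rw [zero_smul, add_zero]
      exact hc.le
    · have h2 : ‖((1 + ‖c‖) / ‖v‖) • v‖ = 1 + ‖c‖ := by
        rw [norm_smul, Real.norm_eq_abs, abs_of_nonneg hT]
        field_simp
      have h3 : ‖((1 + ‖c‖) / ‖v‖) • v‖ ≤ ‖c + ((1 + ‖c‖) / ‖v‖) • v‖ + ‖c‖ := by
        calc ‖((1 + ‖c‖) / ‖v‖) • v‖ = ‖(c + ((1 + ‖c‖) / ‖v‖) • v) - c‖ := by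
              rw [add_sub_cancel_left]
          _ ≤ _ := norm_sub_le _ _
      linarith
  obtain ⟨t, ht, ht2⟩ := h h1
  refine ⟨t, lt_of_le_of_ne ht.1 ?_, ht2⟩
  rintro rfl
  simp only [zero_smul, add_zero] at ht2
  linarith

private lemma T2_key {d : ℕ} {a : ℝ × EE d → ℝ}
    (hpos : ∀ y : EE d, ‖y‖ = 1 → 0 < a (1, y)) (c : EE d) (hc : ‖c‖ < 1)
    {τ : (ℝ × EE d) →ₗ[ℝ] ℝ} {B : EE d →ₗ[ℝ] EE d →ₗ[ℝ] ℝ} {T : EE d → ℝ} (hT : IsCubic T)
    (h : ∀ (t : ℝ) (v : EE d), a (t, t • c + v) -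
        (t ^ 2 - ‖t • c + v‖ ^ 2) * τ (t, t • c + v) = t * B v v + T v) (v : EE d) (hv : v ≠ 0) :
    ∃ t : ℝ, 0 < t ∧ ‖c + t • v‖ = 1 ∧ 0 < B v v + t * T v := by
  obtain ⟨t, ht, ht1⟩ := exists_sphere c v hc hv
  refine ⟨t, ht, ht1, ?_⟩
  have h1 := h 1 (t • v)
  rw [one_smul, ht1, hT.map_smul, one_pow, sub_self, zero_mul, sub_zero, one_mul] at h1
  have h2 : B (t • v) (t • v) = t ^ 2 * B v v := by
    rw [LinearMap.map_smul, LinearMap.map_smul, LinearMap.smul_apply, smul_eq_mul, smul_eq_mul]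
    ring
  rw [h2] at h1
  have h3 := hpos _ ht1
  rw [h1] at h3
  have h4 : t ^ 2 * B v v + t ^ 3 * T v = t ^ 2 * (B v v + t * T v) := by ring
  rw [h4] at h3
  exact (mul_pos_iff_of_pos_left (by positivity)).1 h3

private lemma T2_pos {d : ℕ} {a : ℝ × EE d → ℝ}
    (hpos : ∀ y : EE d, ‖y‖ = 1 → 0 < a (1, y)) (c : EE d) (hc : ‖c‖ < 1)
    {τ : (ℝ × EE d) →ₗ[ℝ] ℝ} {B : EE d →ₗ[ℝ] EE d →ₗ[ℝ] ℝ} {T : EE d → ℝ} (hT : IsCubic T)
    (h : ∀ (t : ℝ) (v : EE d), a (t, t • c + v) -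
        (t ^ 2 - ‖t • c + v‖ ^ 2) * τ (t, t • c + v) = t * B v v + T v) (v : EE d) (hv : v ≠ 0) :
    0 < B v v := by
  obtain ⟨t, ht, -, h1⟩ := T2_key hpos c hc hT h v hv
  obtain ⟨s, hs, -, h2⟩ := T2_key hpos c hc hT h (-v) (neg_ne_zero.2 hv)
  have h3 : B (-v) (-v) = B v v := by simp
  rw [h3, hT.map_neg] at h2
  by_cases h4 : 0 ≤ T v
  · nlinarith
  · push Not at h4
    nlinarith

theorem taylor_pos {d : ℕ} {a : ℝ × EE d → ℝ} (ha : IsCubic a)
    (hpos : ∀ y : EE d, ‖y‖ = 1 → 0 < a (1, y)) (c : EE d) (hc : ‖c‖ < 1)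
    {τ : (ℝ × EE d) →ₗ[ℝ] ℝ} {B : EE d →ₗ[ℝ] EE d →ₗ[ℝ] ℝ} {T : EE d → ℝ} (hT : IsCubic T)
    (h : ∀ (t : ℝ) (v : EE d), a (t, t • c + v) -
        (t ^ 2 - ‖t • c + v‖ ^ 2) * τ (t, t • c + v) = t * B v v + T v) :
    (∃ m > 0, ∀ v, m * ‖v‖ ^ 2 ≤ B v v) ∧ ∀ v, ‖c + v‖ ≤ 1 → 0 ≤ B v v + T v := by
  have hpB := T2_pos hpos c hc hT h
  refine ⟨?_, fun v hv => ?_⟩
  · have hBc : Continuous fun v : EE d => B v v := by
      have e : (fun v : EE d => B v v) = fun v : EE d =>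
          a (1, (1 : ℝ) • c + v) - (1 ^ 2 - ‖(1 : ℝ) • c + v‖ ^ 2) * τ (1, (1 : ℝ) • c + v) - T v := by
        funext v
        rw [h 1 v]
        ring
      rw [e]
      have c1 : Continuous fun v : EE d => ((1 : ℝ), (1 : ℝ) • c + v) := by fun_prop
      have c2 : Continuous τ := τ.continuous_of_finiteDimensional
      have c3 : Continuous fun v : EE d => a (1, (1 : ℝ) • c + v) := ha.continuous.comp c1
      have c4 : Continuous fun v : EE d => τ (1, (1 : ℝ) • c + v) := c2.comp c1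
      have c5 : Continuous T := hT.continuous
      have c6 : Continuous fun v : EE d => ((1 : ℝ) ^ 2 - ‖(1 : ℝ) • c + v‖ ^ 2) := by fun_prop
      exact (c3.sub (c6.mul c4)).sub c5
    have hcomp : IsCompact (Metric.sphere (0 : EE d) 1) := isCompact_sphere 0 1
    rcases (Metric.sphere (0 : EE d) 1).eq_empty_or_nonempty with he | hne
    · refine ⟨1, one_pos, fun v => ?_⟩
      have hv : v = 0 := by
        by_contra hv
        have hv0 : ‖v‖ ≠ 0 := norm_ne_zero_iff.2 hv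
        have : ‖v‖⁻¹ • v ∈ Metric.sphere (0 : EE d) 1 := by
          rw [mem_sphere_zero_iff_norm, norm_smul, norm_inv, norm_norm, inv_mul_cancel₀ hv0]
        rw [he] at this
        exact this
      subst hv
      simp
    · obtain ⟨w, hw, hw2⟩ := hcomp.exists_isMinOn hne hBc.continuousOn
      have hw1 : ‖w‖ = 1 := mem_sphere_zero_iff_norm.1 hw
      have hw0 : w ≠ 0 := by
        rintro rfl
        simp at hw1
      refine ⟨B w w, hpB w hw0, fun v => ?_⟩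
      by_cases hv : v = 0
      · subst hv
        simp
      · have hv0 : ‖v‖ ≠ 0 := norm_ne_zero_iff.2 hv
        have h1 : ‖v‖⁻¹ • v ∈ Metric.sphere (0 : EE d) 1 := by
          rw [mem_sphere_zero_iff_norm, norm_smul, norm_inv, norm_norm, inv_mul_cancel₀ hv0]
        have h2 : B w w ≤ B (‖v‖⁻¹ • v) (‖v‖⁻¹ • v) := hw2 h1
        have h3 : B (‖v‖⁻¹ • v) (‖v‖⁻¹ • v) = (‖v‖⁻¹) ^ 2 * B v v := by
          rw [LinearMap.map_smul, LinearMap.map_smul, LinearMap.smul_apply, smul_eq_mul,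
            smul_eq_mul]
          ring
        rw [h3] at h2
        have h4 : (‖v‖⁻¹) ^ 2 * B v v * ‖v‖ ^ 2 = B v v := by
          field_simp
        calc B w w * ‖v‖ ^ 2 ≤ (‖v‖⁻¹) ^ 2 * B v v * ‖v‖ ^ 2 := by gcongr
          _ = B v v := h4
  · by_cases hv0 : v = 0
    · subst hv0
      rw [hT.map_zero]
      simp
    · obtain ⟨t, ht, ht1, h1⟩ := T2_key hpos c hc hT h v hv0
      have hB := hpB v hv0
      have h2 : 1 ≤ t := by
        by_contra hlt
        push Not at hlt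
        have h3 : c + t • v = (1 - t) • c + t • (c + v) := by
          rw [sub_smul, one_smul, smul_add]
          abel
        have h4 : ‖c + t • v‖ ≤ (1 - t) * ‖c‖ + t * ‖c + v‖ := by
          rw [h3]
          refine (norm_add_le _ _).trans ?_
          rw [norm_smul, norm_smul, Real.norm_eq_abs, Real.norm_eq_abs, abs_of_pos ht,
            abs_of_pos (by linarith)]
        rw [ht1] at h4
        nlinarith
      by_cases h5 : 0 ≤ T v
      · linarith
      · push Not at h5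
        nlinarith

end Vale.Agent.P256L
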