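import Mathlib
import Vale.Agent.Lib.P256L.Defs
import Vale.Agent.Lib.P256L.C1
import Vale.Agent.Lib.P256L.R1
import Vale.Agent.Lib.P256L.T1
import Vale.Agent.Lib.P256L.T2
import Vale.Agent.Lib.P256L.S3

/-!
PROOF SKETCH.
tau, B, T from exists_taylor at c, taylor_pos gives m. s0 = 1-|c|^2. Coordinates: zeta = x.1 -
tau(x.2), v = x.2.2 - x.2.1 c, h = x.2.1 + mu zeta. -p = a(x.2) - x.1 q(x.2) = x.2.1 B v v + T v
- zeta q(x.2) with q(x.2) = x.2.1^2 s0 - 2 x.2.1 <c,v> - |v|^2; substitute x.2.1 = h - mu zeta: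
-p = -zeta s0 h^2 + h Q(zeta,v) + T2(zeta,v), Q = B v v + 2 mu s0 zeta^2 + 2 zeta <c,v>, T2 =
-mu zeta B v v + T v - mu^2 s0 zeta^3 - 2 mu zeta^2 <c,v> + zeta |v|^2 (IsCubic: isCubic_mul3,
isCubic_mul_bilin, comp, add). mu large: Q >= m2 |(zeta,v)|^2. Apply exists_local with W = R x
EE d, f = -s0 zeta, R small (x.2.1 = h - mu zeta >= h/2, |y| <= |v| + x.2.1 |c| < x.2.1). P =
preimage (Rep.comap). P in K a: h > 0: first clause; h = 0: everything 0: second clause. Near c: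
x = t pt a y: zeta/h, v/h -> 0 as y -> c (continuity), -p = 0; the criterion is scale invariant.
-/

namespace Vale.Agent.P256L

private theorem s4_key {d : ℕ} {a : ℝ × EE d → ℝ} {c : EE d}
    {τ : (ℝ × EE d) →ₗ[ℝ] ℝ} {B : EE d →ₗ[ℝ] EE d →ₗ[ℝ] ℝ} {T : EE d → ℝ}
    (h : ∀ (t : ℝ) (v : EE d), a (t, t • c + v) -
        (t ^ 2 - ‖t • c + v‖ ^ 2) * τ (t, t • c + v) = t * B v v + T v)
    (x : ℝ × (ℝ × EE d)) (μ ζ : ℝ) (v : EE d) (hζ : ζ = x.1 - τ x.2)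
    (hv : v = x.2.2 - x.2.1 • c) :
    (x.2.1 + μ * ζ) ^ 2 * (-((1 - ‖c‖ ^ 2) * ζ)) +
      (x.2.1 + μ * ζ) * (B v v + 2 * μ * (1 - ‖c‖ ^ 2) * ζ * ζ + 2 * ζ * inner ℝ c v) +
      (-μ * ζ * B v v + T v + -(μ ^ 2 * (1 - ‖c‖ ^ 2)) * ζ * ζ * ζ +
        -2 * μ * ζ * ζ * inner ℝ c v + ζ * inner ℝ v v) =
      a x.2 - x.1 * (x.2.1 ^ 2 - ‖x.2.2‖ ^ 2) := by
  have e0 : x.2.2 = x.2.1 • c + v := by
    rw [hv]
    abel
  have e1 := h x.2.1 v
  rw [← e0] at e1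
  have e2 : ‖x.2.2‖ ^ 2 = x.2.1 ^ 2 * ‖c‖ ^ 2 + 2 * x.2.1 * inner ℝ c v + inner ℝ v v := by
    rw [e0, norm_add_sq_real, norm_smul, inner_smul_left, real_inner_self_eq_norm_sq, mul_pow,
      Real.norm_eq_abs, sq_abs]
    simp only [conj_trivial]
    ring
  have e3 : x.1 = ζ + τ x.2 := by rw [hζ]; ring
  have e4 : a x.2 = x.2.1 * B v v + T v + (x.2.1 ^ 2 - ‖x.2.2‖ ^ 2) * τ x.2 := by
    have : (x.2.1, x.2.2) = x.2 := rfl
    rw [this] at e1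
    linarith
  rw [e4, e3, e2]
  ring

private theorem s4_zero {E : Type} [AddCommGroup E] [Module ℝ E] {S : Set E} (hS : Rep S) :
    (0 : E) ∈ S := by
  obtain ⟨m, k, L, hL⟩ := hS
  rw [hL]
  refine ⟨0, fun j => ?_⟩
  have h0 : ((0 : E), (0 : Fin m → ℝ)) = 0 := rfl
  rw [h0, map_zero, map_zero, map_zero]
  norm_num

private theorem s4_Q {d : ℕ} {c : EE d} (hc : ‖c‖ < 1) {B : EE d →ₗ[ℝ] EE d →ₗ[ℝ] ℝ} {m : ℝ}
    (hm : 0 < m) (hB : ∀ v, m * ‖v‖ ^ 2 ≤ B v v) {μ : ℝ}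
    (hμ : 2 * μ * (1 - ‖c‖ ^ 2) = 2 / m + m / 2) (w : ℝ × EE d) :
    m / 2 * ‖w‖ ^ 2 ≤ B w.2 w.2 + 2 * μ * (1 - ‖c‖ ^ 2) * w.1 * w.1 +
      2 * w.1 * inner ℝ c w.2 := by
  have h1 : |inner ℝ c w.2| ≤ ‖w.2‖ := by
    have h2 := abs_real_inner_le_norm c w.2
    have h3 := mul_le_mul_of_nonneg_right hc.le (norm_nonneg w.2)
    rw [one_mul] at h3
    exact h2.trans h3
  have h4 : -(|w.1| * ‖w.2‖) ≤ w.1 * inner ℝ c w.2 := by
    have h5 : |w.1 * inner ℝ c w.2| ≤ |w.1| * ‖w.2‖ := by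
      rw [abs_mul]
      exact mul_le_mul_of_nonneg_left h1 (abs_nonneg _)
    have := neg_abs_le (w.1 * inner ℝ c w.2)
    linarith
  have h6 : 2 * (|w.1| * ‖w.2‖) ≤ m / 2 * ‖w.2‖ ^ 2 + 2 / m * |w.1| ^ 2 := by
    have h7 : m / 2 * ‖w.2‖ ^ 2 + 2 / m * |w.1| ^ 2 - 2 * (|w.1| * ‖w.2‖) =
        (m * ‖w.2‖ - 2 * |w.1|) ^ 2 / (2 * m) := by
      field_simp
      ring
    have h8 : 0 ≤ (m * ‖w.2‖ - 2 * |w.1|) ^ 2 / (2 * m) := by positivity
    linarith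
  have h9 : ‖w‖ ^ 2 ≤ |w.1| ^ 2 + ‖w.2‖ ^ 2 := by
    rw [Prod.norm_def, Real.norm_eq_abs]
    rcases le_total |w.1| ‖w.2‖ with h | h
    · rw [max_eq_right h]
      have := sq_nonneg |w.1|
      linarith
    · rw [max_eq_left h]
      have := sq_nonneg ‖w.2‖
      linarith
  have h10 := hB w.2
  have h11 := mul_le_mul_of_nonneg_left h9 (by positivity : 0 ≤ m / 2)
  have h12 : 2 * μ * (1 - ‖c‖ ^ 2) * w.1 * w.1 = (2 / m + m / 2) * |w.1| ^ 2 := by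
    rw [hμ, sq_abs]
    ring
  rw [h12]
  nlinarith

private noncomputable def s4B {d : ℕ} (c : EE d) (B : EE d →ₗ[ℝ] EE d →ₗ[ℝ] ℝ) (k : ℝ) :
    (ℝ × EE d) →ₗ[ℝ] (ℝ × EE d) →ₗ[ℝ] ℝ :=
  LinearMap.mk₂ ℝ (fun w w' => B w.2 w'.2 + k * w.1 * w'.1 + 2 * w.1 * inner ℝ c w'.2)
    (fun x y z => by
      simp only [Prod.fst_add, Prod.snd_add, map_add, LinearMap.add_apply]
      ring)
    (fun r x y => by
      simp only [Prod.smul_fst, Prod.smul_snd, map_smul, LinearMap.smul_apply, smul_eq_mul]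
      ring)
    (fun x y z => by
      simp only [Prod.fst_add, Prod.snd_add, map_add, inner_add_right]
      ring)
    (fun r x y => by
      simp only [Prod.smul_fst, Prod.smul_snd, map_smul, inner_smul_right, smul_eq_mul]
      ring)

private theorem s4B_apply {d : ℕ} (c : EE d) (B : EE d →ₗ[ℝ] EE d →ₗ[ℝ] ℝ) (k : ℝ)
    (w w' : ℝ × EE d) : s4B c B k w w' =
      B w.2 w'.2 + k * w.1 * w'.1 + 2 * w.1 * inner ℝ c w'.2 := rfl

private theorem s4_T {d : ℕ} (c : EE d) (B : EE d →ₗ[ℝ] EE d →ₗ[ℝ] ℝ) {T : EE d → ℝ}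
    (hT : IsCubic T) (μ s : ℝ) :
    IsCubic (fun w : ℝ × EE d => -μ * w.1 * B w.2 w.2 + T w.2 + -(μ ^ 2 * s) * w.1 * w.1 * w.1 +
        -2 * μ * w.1 * w.1 * inner ℝ c w.2 + w.1 * inner ℝ w.2 w.2) := by
  set F : (ℝ × EE d) →ₗ[ℝ] ℝ := LinearMap.fst ℝ ℝ (EE d) with hF
  set G : (ℝ × EE d) →ₗ[ℝ] EE d := LinearMap.snd ℝ ℝ (EE d) with hG
  have t1 : IsCubic (fun w : ℝ × EE d => -μ * w.1 * B w.2 w.2) :=
    isCubic_mul_bilin ((-μ) • F) (B.compl₁₂ G G)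
  have t2 : IsCubic (fun w : ℝ × EE d => T w.2) := hT.comp G
  have t3 : IsCubic (fun w : ℝ × EE d => -(μ ^ 2 * s) * w.1 * w.1 * w.1) :=
    isCubic_mul3 ((-(μ ^ 2 * s)) • F) F F
  have t4 : IsCubic (fun w : ℝ × EE d => -2 * μ * w.1 * w.1 * inner ℝ c w.2) :=
    isCubic_mul3 ((-2 * μ) • F) F ((innerₗ (EE d) c).comp G)
  have t5 : IsCubic (fun w : ℝ × EE d => w.1 * inner ℝ w.2 w.2) :=
    isCubic_mul_bilin F ((innerₗ (EE d)).compl₁₂ G G)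
  exact (((t1.add t2).add t3).add t4).add t5

private theorem s4_bd {d : ℕ} {a : ℝ × EE d → ℝ} (ha : IsCubic a) {y : EE d} (hy1 : ‖y‖ < 1)
    {t : ℝ} (ht : 0 < t) : a (t • pt a y).2 - (t • pt a y).1 *
      ((t • pt a y).2.1 ^ 2 - ‖(t • pt a y).2.2‖ ^ 2) = 0 := by
  have hy2 : (1 : ℝ) - ‖y‖ ^ 2 ≠ 0 := by
    have h1 := pow_lt_one₀ (norm_nonneg y) hy1 (two_ne_zero)
    linarith
  have h2 : a (t • pt a y).2 = t ^ 3 * a (1, y) := ha.map_smul t (1, y)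
  have h3 : (t • pt a y).1 = t * (a (1, y) / (1 - ‖y‖ ^ 2)) := rfl
  have h4 : (t • pt a y).2.1 = t * 1 := rfl
  have h5 : ‖(t • pt a y).2.2‖ = t * ‖y‖ := by
    have h6 : (t • pt a y).2.2 = t • y := rfl
    rw [h6, norm_smul, Real.norm_of_nonneg ht.le]
  rw [h2, h3, h4, h5]
  have h7 : t * (a (1, y) / (1 - ‖y‖ ^ 2)) * ((t * 1) ^ 2 - (t * ‖y‖) ^ 2) =
      t ^ 3 * a (1, y) := by
    field_simp
  rw [h7, sub_self]

theorem piece_inner {d : ℕ} {a : ℝ × EE d → ℝ} (ha : IsCubic a)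
    (hpos : ∀ y : EE d, ‖y‖ = 1 → 0 < a (1, y)) (c : EE d) (hc : ‖c‖ < 1) :
    ∃ P : Set (ℝ × (ℝ × EE d)), Rep P ∧ P ⊆ K a ∧ (0 : ℝ × (ℝ × EE d)) ∈ P ∧
      ∃ r > 0, ∀ y, ‖y - c‖ < r → ‖y‖ < 1 → ∀ t : ℝ, 0 < t → t • pt a y ∈ P := by
  obtain ⟨τ, B, T, hT, hτ, htay⟩ := exists_taylor ha c hc
  obtain ⟨⟨m, hm, hB⟩, -⟩ := taylor_pos ha hpos c hc hT htay
  obtain ⟨s, hs⟩ : ∃ s, s = 1 - ‖c‖ ^ 2 := ⟨_, rfl⟩
  have hs0 : 0 < s := by
    rw [hs]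
    nlinarith [norm_nonneg c]
  obtain ⟨μ, hμ⟩ : ∃ μ, μ = (2 / m + m / 2) / (2 * s) := ⟨_, rfl⟩
  have hμ0 : 0 < μ := by
    rw [hμ]
    positivity
  have hμ1 : 2 * μ * (1 - ‖c‖ ^ 2) = 2 / m + m / 2 := by
    rw [hμ, ← hs]
    field_simp
  have hc1 : 0 < 1 - ‖c‖ := by linarith
  obtain ⟨R, hR⟩ : ∃ R, R = min (1 / (2 * μ)) ((1 - ‖c‖) / 4) := ⟨_, rfl⟩
  have hR0 : 0 < R := by
    rw [hR]
    exact lt_min (by positivity) (by positivity)
  have hR1 : μ * R ≤ 1 / 2 := by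
    have h1 : R ≤ 1 / (2 * μ) := by
      rw [hR]
      exact min_le_left _ _
    have h2 := mul_le_mul_of_nonneg_left h1 hμ0.le
    have h3 : μ * (1 / (2 * μ)) = 1 / 2 := by
      field_simp
    linarith
  have hR2 : R ≤ (1 - ‖c‖) / 4 := by
    rw [hR]
    exact min_le_right _ _
  obtain ⟨S, hSrep, hS1, r, hr, hS2⟩ := exists_local (s4B c B (2 * μ * (1 - ‖c‖ ^ 2)))
    (by positivity : 0 < m / 2) (fun w => s4_Q hc hm hB hμ1 w)
    (s4_T c B hT μ (1 - ‖c‖ ^ 2))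
    ((-(1 - ‖c‖ ^ 2)) • ((LinearMap.fst ℝ ℝ (EE d)).comp (LinearMap.snd ℝ ℝ (ℝ × EE d)))) hR0
  set zl : (ℝ × (ℝ × EE d)) →ₗ[ℝ] ℝ :=
    LinearMap.fst ℝ ℝ (ℝ × EE d) - τ.comp (LinearMap.snd ℝ ℝ (ℝ × EE d)) with hzl
  set vl : (ℝ × (ℝ × EE d)) →ₗ[ℝ] EE d :=
    (LinearMap.snd ℝ ℝ (EE d) - (LinearMap.toSpanSingleton ℝ (EE d) c).comp
      (LinearMap.fst ℝ ℝ (EE d))).comp (LinearMap.snd ℝ ℝ (ℝ × EE d)) with hvl
  set hl : (ℝ × (ℝ × EE d)) →ₗ[ℝ] ℝ :=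
    (LinearMap.fst ℝ ℝ (EE d)).comp (LinearMap.snd ℝ ℝ (ℝ × EE d)) + μ • zl with hhl
  set L : (ℝ × (ℝ × EE d)) →ₗ[ℝ] ℝ × (ℝ × EE d) := hl.prod (zl.prod vl) with hL
  have ezl : ∀ x, zl x = x.1 - τ x.2 := fun x => rfl
  have evl : ∀ x, vl x = x.2.2 - x.2.1 • c := fun x => rfl
  have ehl : ∀ x, hl x = x.2.1 + μ * zl x := fun x => rfl
  have eL : ∀ x, L x = (hl x, (zl x, vl x)) := fun x => rfl
  have hkey : ∀ x, (L x).1 ^ 2 * ((-(1 - ‖c‖ ^ 2)) • ((LinearMap.fst ℝ ℝ (EE d)).comp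
      (LinearMap.snd ℝ ℝ (ℝ × EE d))) : (ℝ × (ℝ × EE d)) →ₗ[ℝ] ℝ) (L x) +
      (L x).1 * s4B c B (2 * μ * (1 - ‖c‖ ^ 2)) (L x).2 (L x).2 +
      (-μ * (L x).2.1 * B (L x).2.2 (L x).2.2 + T (L x).2.2 +
        -(μ ^ 2 * (1 - ‖c‖ ^ 2)) * (L x).2.1 * (L x).2.1 * (L x).2.1 +
        -2 * μ * (L x).2.1 * (L x).2.1 * inner ℝ c (L x).2.2 +
        (L x).2.1 * inner ℝ (L x).2.2 (L x).2.2) =
      a x.2 - x.1 * (x.2.1 ^ 2 - ‖x.2.2‖ ^ 2) := by
    intro x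
    have h1 := s4_key htay x μ (zl x) (vl x) (ezl x) (evl x)
    rw [← h1, s4B_apply, eL]
    have h2 : ((-(1 - ‖c‖ ^ 2)) • ((LinearMap.fst ℝ ℝ (EE d)).comp
      (LinearMap.snd ℝ ℝ (ℝ × EE d))) : (ℝ × (ℝ × EE d)) →ₗ[ℝ] ℝ) (hl x, (zl x, vl x)) =
      -((1 - ‖c‖ ^ 2) * zl x) := by
      rw [← neg_mul]
      rfl
    rw [h2, ehl]
  refine ⟨{x | L x ∈ S}, hSrep.comap L, ?_, ?_, ?_⟩
  · intro x hx
    obtain ⟨h1, h2, h3⟩ := hS1 _ hx
    have h4 : a x.2 - x.1 * (x.2.1 ^ 2 - ‖x.2.2‖ ^ 2) ≤ 0 := by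
      rw [← hkey x]
      exact h3
    have h5 : |zl x| ≤ R * hl x := by
      refine le_trans ?_ h2
      rw [← Real.norm_eq_abs]
      exact norm_fst_le (L x).2
    have h6 : ‖vl x‖ ≤ R * hl x := (norm_snd_le (L x).2).trans h2
    have h1' : 0 ≤ hl x := h1
    have h7 : x.2.1 = hl x - μ * zl x := by
      rw [ehl]
      ring
    have h8 : x.2.2 = vl x + x.2.1 • c := by
      rw [evl]
      abel
    rcases h1'.eq_or_lt with h9 | h9
    · right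
      have z0 : zl x = 0 := by
        rw [← h9, mul_zero] at h5
        exact abs_eq_zero.1 (le_antisymm h5 (abs_nonneg _))
      have v0 : vl x = 0 := by
        rw [← h9, mul_zero] at h6
        exact norm_eq_zero.1 (le_antisymm h6 (norm_nonneg _))
      have h10 : x.2.1 = 0 := by rw [h7, ← h9, z0, mul_zero, sub_zero]
      have h11 : x.2.2 = 0 := by rw [h8, v0, h10, zero_smul, add_zero]
      have h12 : x.2 = 0 := Prod.ext h10 h11
      refine ⟨h12, ?_⟩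
      have h13 := ezl x
      rw [z0, h12, map_zero, sub_zero] at h13
      exact h13.le
    · left
      have h10 : μ * zl x ≤ 1 / 2 * hl x := by
        have h11 : μ * zl x ≤ μ * (R * hl x) :=
          mul_le_mul_of_nonneg_left ((le_abs_self _).trans h5) hμ0.le
        have h12 := mul_le_mul_of_nonneg_right hR1 h1'
        linarith
      have h11 : 1 / 2 * hl x ≤ x.2.1 := by
        rw [h7]
        linarith
      have h12 : 0 < x.2.1 := by linarith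
      refine ⟨?_, by linarith⟩
      have h13 : ‖x.2.2‖ ≤ R * hl x + x.2.1 * ‖c‖ := by
        rw [h8]
        refine (norm_add_le _ _).trans (add_le_add h6 ?_)
        rw [norm_smul, Real.norm_of_nonneg h12.le]
      have h14 : R * hl x ≤ (1 - ‖c‖) / 4 * (2 * x.2.1) :=
        mul_le_mul hR2 (by linarith) h1' (by positivity)
      have h15 : 0 < (1 - ‖c‖) * x.2.1 := mul_pos hc1 h12
      nlinarith
  · change L 0 ∈ S
    rw [map_zero]
    exact s4_zero hSrep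
  · have hden : (1 : ℝ) - ‖c‖ ^ 2 ≠ 0 := by
      rw [← hs]
      exact hs0.ne'
    have hcont : ContinuousAt (fun y : EE d => zl (pt a y)) c := by
      have hc1 : Continuous a := ha.continuous
      have hc2 : Continuous τ := LinearMap.continuous_of_finiteDimensional τ
      have hc3 : Continuous fun y : EE d => ((1 : ℝ), y) := by fun_prop
      have h1 : ContinuousAt (fun y : EE d => a (1, y) / (1 - ‖y‖ ^ 2) - τ (1, y)) c := by
        refine ContinuousAt.sub (ContinuousAt.div (hc1.comp hc3).continuousAt ?_ hden)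
          (hc2.comp hc3).continuousAt
        exact (by fun_prop : Continuous fun y : EE d => (1 : ℝ) - ‖y‖ ^ 2).continuousAt
      exact h1
    have hval : zl (pt a c) = 0 := by
      have h1 : zl (pt a c) = a (1, c) / (1 - ‖c‖ ^ 2) - τ (1, c) := rfl
      rw [h1, ← hτ, mul_div_assoc, div_self hden, mul_one, sub_self]
    obtain ⟨ε, hε⟩ : ∃ ε, ε = min (r / 2) (1 / (2 * μ)) := ⟨_, rfl⟩
    have hε0 : 0 < ε := by
      rw [hε]
      exact lt_min (by positivity) (by positivity)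
    obtain ⟨δ, hδ, hδ'⟩ := Metric.continuousAt_iff.1 hcont ε hε0
    refine ⟨min δ (r / 2), lt_min hδ (by positivity), fun y hy hy1 t ht => ?_⟩
    have k1 : |zl (pt a y)| < ε := by
      have h1 : dist y c < δ := by
        rw [dist_eq_norm]
        exact lt_of_lt_of_le hy (min_le_left _ _)
      have h2 := hδ' h1
      rw [hval, dist_zero_right, Real.norm_eq_abs] at h2
      exact h2
    have k2 : ‖vl (pt a y)‖ ≤ r / 2 := by
      have h1 : vl (pt a y) = y - c := by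
        rw [evl]
        change y - (1 : ℝ) • c = y - c
        rw [one_smul]
      rw [h1]
      exact (lt_of_lt_of_le hy (min_le_right _ _)).le
    have k3 : |zl (pt a y)| ≤ r / 2 := k1.le.trans (by rw [hε]; exact min_le_left _ _)
    have k4 : 1 / 2 ≤ hl (pt a y) := by
      have h1 : |zl (pt a y)| ≤ 1 / (2 * μ) := k1.le.trans (by rw [hε]; exact min_le_right _ _)
      have h2 := mul_le_mul_of_nonneg_left h1 hμ0.le
      have h3 : μ * (1 / (2 * μ)) = 1 / 2 := by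
        field_simp
      have h4 : -(μ * |zl (pt a y)|) ≤ μ * zl (pt a y) := by
        rw [← mul_neg]
        exact mul_le_mul_of_nonneg_left (neg_abs_le _) hμ0.le
      have h5 : hl (pt a y) = 1 + μ * zl (pt a y) := rfl
      rw [h5]
      linarith
    have hLt : L (t • pt a y) = t • L (pt a y) := map_smul L t _
    change L (t • pt a y) ∈ S
    refine hS2 _ ?_ ?_ ?_
    · rw [hLt]
      change 0 < t * hl (pt a y)
      exact mul_pos ht (by linarith)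
    · rw [hLt]
      change ‖t • (L (pt a y)).2‖ ≤ r * (t * hl (pt a y))
      rw [norm_smul, Real.norm_of_nonneg ht.le]
      have h1 : ‖(L (pt a y)).2‖ ≤ r / 2 := by
        rw [eL, Prod.norm_def]
        refine max_le ?_ k2
        rw [Real.norm_eq_abs]
        exact k3
      have h2 : r / 2 ≤ r * hl (pt a y) := by nlinarith
      calc t * ‖(L (pt a y)).2‖ ≤ t * (r * hl (pt a y)) :=
            mul_le_mul_of_nonneg_left (h1.trans h2) ht.le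
        _ = r * (t * hl (pt a y)) := by ring
    · exact le_of_eq ((hkey (t • pt a y)).trans (s4_bd ha hy1 ht))

end Vale.Agent.P256L
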