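import Mathlib
import Vale.Agent.Lib.P256L.Defs
import Vale.Agent.Lib.P256L.C1
import Vale.Agent.Lib.P256L.T1
import Vale.Agent.Lib.P256L.T2

/-!
PROOF SKETCH.
Cases. Both in the open part: x.2 = (x0,y), z.2 = (z0,w), c := (y+w)/(x0+z0), |c| < 1.
exists_taylor, taylor_pos at c. For the point x: t = x0, v = y - x0 c: a x.2 - q(x.2) tau(x.2) =
t B v v + T v = t^3 (B (v/t) (v/t) + T (v/t)) >= 0 as c + v/t = y/x0 is in the ball. So x.1 q >=
a >= q tau, x.1 >= tau(x.2); the same for z; sum: x.1+z.1 >= tau(x.2+z.2) = (x0+z0) tau(1,c),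
and a (x.2+z.2) = (x0+z0)^3 a(1,c) = (x0+z0)^3 (1-|c|^2) tau(1,c) = q(x.2+z.2) tau(x.2+z.2). The
case x.2 = 0: only x.1 grows (q > 0). Norm: |y+w| <= |y|+|w| < x0+z0.
-/

namespace Vale.Agent.P256L

private theorem T3_le {d : ℕ} {a : ℝ × EE d → ℝ} (ha : IsCubic a)
    (hpos : ∀ y : EE d, ‖y‖ = 1 → 0 < a (1, y)) (c : EE d) (hc : ‖c‖ < 1)
    {τ : (ℝ × EE d) →ₗ[ℝ] ℝ} {B : EE d →ₗ[ℝ] EE d →ₗ[ℝ] ℝ} {T : EE d → ℝ} (hT : IsCubic T)
    (h : ∀ (t : ℝ) (v : EE d), a (t, t • c + v) -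
        (t ^ 2 - ‖t • c + v‖ ^ 2) * τ (t, t • c + v) = t * B v v + T v)
    (x : ℝ × (ℝ × EE d)) (hx : x ∈ K a) : τ x.2 ≤ x.1 := by
  obtain ⟨-, hnn⟩ := taylor_pos ha hpos c hc hT h
  rcases hx with ⟨h1, h2⟩ | ⟨h1, h2⟩
  · obtain ⟨x1, t, y⟩ := x
    simp only at h1 h2 ⊢
    have t0 : 0 < t := (norm_nonneg _).trans_lt h1
    have hq : 0 < t ^ 2 - ‖y‖ ^ 2 := by nlinarith [norm_nonneg y]
    have e := h t (y - t • c)
    rw [add_sub_cancel] at e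
    have hn : ‖c + t⁻¹ • (y - t • c)‖ ≤ 1 := by
      have e1 : c + t⁻¹ • (y - t • c) = t⁻¹ • y := by
        rw [smul_sub, smul_smul, inv_mul_cancel₀ t0.ne', one_smul]
        abel
      rw [e1, norm_smul, norm_inv, Real.norm_of_nonneg t0.le, inv_mul_le_iff₀ t0, mul_one]
      exact h1.le
    have p := hnn _ hn
    rw [hT.map_smul, _root_.map_smul, _root_.map_smul, LinearMap.smul_apply, smul_eq_mul,
      smul_eq_mul] at p
    have p2 : 0 ≤ t * B (y - t • c) (y - t • c) + T (y - t • c) := by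
      have p3 := mul_nonneg (pow_nonneg t0.le 3) p
      have e2 : t ^ 3 * (t⁻¹ * (t⁻¹ * B (y - t • c) (y - t • c)) + t⁻¹ ^ 3 * T (y - t • c))
          = t * B (y - t • c) (y - t • c) + T (y - t • c) := by
        field_simp
      rw [e2] at p3
      exact p3
    rw [← e] at p2
    have p4 : (t ^ 2 - ‖y‖ ^ 2) * τ (t, y) ≤ (t ^ 2 - ‖y‖ ^ 2) * x1 := by linarith
    exact le_of_mul_le_mul_left p4 hq
  · rw [h1, map_zero]
    exact h2

private theorem T3_lt {d : ℕ} {a : ℝ × EE d → ℝ} (x : ℝ × (ℝ × EE d)) (hx : x ∈ K a)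
    (h0 : x.2 ≠ 0) : ‖x.2.2‖ < x.2.1 := by
  rcases hx with ⟨h1, _⟩ | ⟨h1, _⟩
  · exact h1
  · exact absurd h1 h0

private theorem T3_nn {d : ℕ} {a : ℝ × EE d → ℝ} (x : ℝ × (ℝ × EE d)) (hx : x ∈ K a)
    (h0 : x.2 = 0) : 0 ≤ x.1 := by
  rcases hx with ⟨h1, _⟩ | ⟨_, h2⟩
  · rw [h0] at h1
    simp at h1
  · exact h2

theorem K_add {d : ℕ} {a : ℝ × EE d → ℝ} (ha : IsCubic a)
    (hpos : ∀ y : EE d, ‖y‖ = 1 → 0 < a (1, y)) (x : ℝ × (ℝ × EE d)) (hx : x ∈ K a)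
    (z : ℝ × (ℝ × EE d)) (hz : z ∈ K a) : x + z ∈ K a := by
  by_cases h0 : x.2 = 0 ∧ z.2 = 0
  · right
    refine ⟨?_, ?_⟩
    · rw [Prod.snd_add, h0.1, h0.2, add_zero]
    · exact add_nonneg (T3_nn x hx h0.1) (T3_nn z hz h0.2)
  · have hle : ∀ w : ℝ × (ℝ × EE d), w ∈ K a → ‖w.2.2‖ ≤ w.2.1 := by
      intro w hw
      by_cases hw0 : w.2 = 0
      · rw [hw0]
        simp
      · exact (T3_lt w hw hw0).le
    have hlt : ‖(x + z).2.2‖ < (x + z).2.1 := by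
      have e1 : (x + z).2.2 = x.2.2 + z.2.2 := rfl
      have e2 : (x + z).2.1 = x.2.1 + z.2.1 := rfl
      rw [e1, e2]
      refine (norm_add_le _ _).trans_lt ?_
      rcases not_and_or.1 h0 with h | h
      · exact add_lt_add_of_lt_of_le (T3_lt x hx h) (hle z hz)
      · exact add_lt_add_of_le_of_lt (hle x hx) (T3_lt z hz h)
    left
    refine ⟨hlt, ?_⟩
    set s := (x + z).2.1 with hs
    set u := (x + z).2.2 with hu
    have s0 : 0 < s := (norm_nonneg _).trans_lt hlt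
    have hc : ‖s⁻¹ • u‖ < 1 := by
      rw [norm_smul, norm_inv, Real.norm_of_nonneg s0.le, inv_mul_lt_iff₀ s0, mul_one]
      exact hlt
    obtain ⟨τ, B, T, hT, h1, h⟩ := exists_taylor ha (s⁻¹ • u) hc
    have k1 := T3_le ha hpos _ hc hT h x hx
    have k2 := T3_le ha hpos _ hc hT h z hz
    have hsu : (x + z).2 = s • ((1 : ℝ), s⁻¹ • u) := by
      rw [Prod.smul_mk, smul_smul, mul_inv_cancel₀ s0.ne', one_smul, smul_eq_mul, mul_one]
    have k3 : τ (x + z).2 ≤ (x + z).1 := by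
      rw [Prod.snd_add, map_add, Prod.fst_add]
      exact add_le_add k1 k2
    have hq : s ^ 2 - ‖u‖ ^ 2 = s ^ 2 * (1 - ‖s⁻¹ • u‖ ^ 2) := by
      rw [norm_smul, norm_inv, Real.norm_of_nonneg s0.le]
      field_simp
    have hq0 : 0 ≤ s ^ 2 - ‖u‖ ^ 2 := by nlinarith [norm_nonneg u]
    have k4 : a (x + z).2 = (s ^ 2 - ‖u‖ ^ 2) * τ (x + z).2 := by
      rw [hq, hsu, ha.map_smul, _root_.map_smul, smul_eq_mul, ← h1]
      ring
    rw [k4, mul_comm]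
    exact mul_le_mul_of_nonneg_right k3 hq0

end Vale.Agent.P256L
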