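import Mathlib
import Vale.Agent.Lib.P256L.Defs
import Vale.Agent.Lib.P256L.R2
import Vale.Agent.Lib.P256L.T3
import Vale.Agent.Lib.P256L.S4
import Vale.Agent.Lib.P256L.N5

/-!
Compact closed ball: for every y in closedBall 0 1 a piece P_y and r_y (piece_inner if |y|<1,
piece_node if |y| = 1). Finite subcover, Rep.cover with C = K a, S0 = {x | x.2 = 0 and 0 <= x.1}.
-/

namespace Vale.Agent.P256L

private theorem rep_ray {d : ℕ} : Rep {x : ℝ × (ℝ × EE d) | x.2 = 0 ∧ 0 ≤ x.1} := by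
  have h1 : Rep {x : ℝ × (ℝ × EE d) | 0 ≤ (LinearMap.fst ℝ ℝ (ℝ × EE d)) x} := rep_nonneg _
  have h2 : Rep {x : ℝ × (ℝ × EE d) | 0 ≤
      ((LinearMap.fst ℝ ℝ (EE d)).comp (LinearMap.snd ℝ ℝ (ℝ × EE d))) x} := rep_nonneg _
  have h3 : Rep {x : ℝ × (ℝ × EE d) | 0 ≤
      (-((LinearMap.fst ℝ ℝ (EE d)).comp (LinearMap.snd ℝ ℝ (ℝ × EE d)))) x} := rep_nonneg _
  have h4 : ∀ i : Fin d, Rep ({x : ℝ × (ℝ × EE d) | 0 ≤
      (((EuclideanSpace.proj i : EE d →L[ℝ] ℝ) : EE d →ₗ[ℝ] ℝ).comp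
        ((LinearMap.snd ℝ ℝ (EE d)).comp (LinearMap.snd ℝ ℝ (ℝ × EE d)))) x} ∩
      {x : ℝ × (ℝ × EE d) | 0 ≤
      (-(((EuclideanSpace.proj i : EE d →L[ℝ] ℝ) : EE d →ₗ[ℝ] ℝ).comp
        ((LinearMap.snd ℝ ℝ (EE d)).comp (LinearMap.snd ℝ ℝ (ℝ × EE d))))) x}) :=
    fun i => (rep_nonneg _).inter (rep_nonneg _)
  have h5 := ((h1.inter (h2.inter h3))).inter (Rep.forall_fin d _ h4)
  convert h5 using 1
  ext x
  simp only [Set.mem_ofPred_eq, Set.mem_inter_iff, LinearMap.fst_apply, LinearMap.comp_apply,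
    LinearMap.snd_apply, LinearMap.neg_apply, ContinuousLinearMap.coe_coe]
  constructor
  · rintro ⟨hx, h0⟩
    rw [hx]
    refine ⟨⟨h0, ?_, ?_⟩, ?_⟩ <;> simp
  · rintro ⟨⟨h0, ha, hb⟩, hc⟩
    refine ⟨?_, h0⟩
    refine Prod.ext ?_ ?_
    · exact le_antisymm (neg_nonneg.mp hb) ha
    · ext i
      exact le_antisymm (neg_nonneg.mp (hc i).2) (hc i).1

theorem rep_K {d : ℕ} {a : ℝ × EE d → ℝ} (ha : IsCubic a)
    (hpos : ∀ y : EE d, ‖y‖ = 1 → 0 < a (1, y)) : Rep (K a) := by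
  classical
  have piece : ∀ c : EE d, ‖c‖ ≤ 1 → ∃ P : Set (ℝ × (ℝ × EE d)), Rep P ∧ P ⊆ K a ∧
      (0 : ℝ × (ℝ × EE d)) ∈ P ∧
      ∃ r > 0, ∀ y, ‖y - c‖ < r → ‖y‖ < 1 → ∀ t : ℝ, 0 < t → t • pt a y ∈ P := by
    intro c hc
    rcases lt_or_eq_of_le hc with h | h
    · exact piece_inner ha hpos c h
    · exact piece_node ha c h (hpos c h)
  choose! P hPr hPK hP0 r hr hP using piece
  have hcomp : IsCompact (Metric.closedBall (0 : EE d) 1) := isCompact_closedBall _ _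
  obtain ⟨t, ht, htc⟩ := hcomp.elim_nhds_subcover (fun c => Metric.ball c (r c))
    (fun c hc => Metric.ball_mem_nhds c (hr c (by simpa using hc)))
  have ht' : ∀ c ∈ t, ‖c‖ ≤ 1 := fun c hc => by simpa using ht c hc
  refine Rep.cover (C := K a) (S₀ := {x : ℝ × (ℝ × EE d) | x.2 = 0 ∧ 0 ≤ x.1})
    (fun x hx y hy => K_add ha hpos x hx y hy) ?_ rep_ray ?_ t P
    (fun i hi => hPr i (ht' i hi)) (fun i hi => hPK i (ht' i hi))
    (fun i hi => hP0 i (ht' i hi)) ?_ ?_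
  · exact Or.inr ⟨rfl, le_refl _⟩
  · intro x hx
    exact Or.inr hx
  · exact ⟨rfl, le_refl _⟩
  · rintro x (⟨hx1, hx2⟩ | ⟨hx1, hx2⟩)
    · have hpos1 : 0 < x.2.1 := lt_of_le_of_lt (norm_nonneg _) hx1
      set y : EE d := x.2.1⁻¹ • x.2.2 with hy
      have hyn : ‖y‖ = x.2.1⁻¹ * ‖x.2.2‖ := by
        rw [hy, norm_smul, Real.norm_eq_abs, abs_of_pos (inv_pos.mpr hpos1)]
      have hy1 : ‖y‖ < 1 := by
        rw [hyn, inv_mul_lt_iff₀ hpos1]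
        simpa using hx1
      have hx22 : x.2.1 • y = x.2.2 := by
        rw [hy, smul_smul, mul_inv_cancel₀ hpos1.ne', one_smul]
      have hnorm : ‖x.2.2‖ = x.2.1 * ‖y‖ := by
        rw [hyn, ← mul_assoc, mul_inv_cancel₀ hpos1.ne', one_mul]
      have hs : 0 < 1 - ‖y‖ ^ 2 := by nlinarith [norm_nonneg y]
      have hax : a x.2 = x.2.1 ^ 3 * a (1, y) := by
        rw [← ha.map_smul]
        congr 1
        refine Prod.ext ?_ ?_
        · simp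
        · simp [hx22]
      obtain ⟨c, hc, hyc⟩ : ∃ c ∈ t, y ∈ Metric.ball c (r c) := by
        have := htc (show y ∈ Metric.closedBall (0 : EE d) 1 by simpa using hy1.le)
        simpa using this
      refine ⟨(x.1 - x.2.1 * (a (1, y) / (1 - ‖y‖ ^ 2)), 0), ⟨rfl, ?_⟩, x.2.1 • pt a y, ?_,
        Or.inr ⟨c, hc, ?_⟩⟩
      · show 0 ≤ x.1 - x.2.1 * (a (1, y) / (1 - ‖y‖ ^ 2))
        rw [hax, hnorm] at hx2
        have h1 : x.2.1 * a (1, y) ≤ x.1 * (1 - ‖y‖ ^ 2) := by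
          have h2 : x.2.1 ^ 2 * (x.2.1 * a (1, y)) ≤ x.2.1 ^ 2 * (x.1 * (1 - ‖y‖ ^ 2)) := by
            linarith [hx2]
          exact le_of_mul_le_mul_left h2 (by positivity)
        rw [sub_nonneg, ← mul_div_assoc, div_le_iff₀ hs]
        exact h1
      · refine Prod.ext ?_ (Prod.ext ?_ ?_)
        · simp [pt]
        · simp [pt]
        · simp [pt, hx22]
      · refine hP c (ht' c hc) y ?_ hy1 x.2.1 hpos1
        rwa [Metric.mem_ball, dist_eq_norm] at hyc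
    · exact ⟨x, ⟨hx1, hx2⟩, 0, by simp, Or.inl rfl⟩

end Vale.Agent.P256L
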