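import Mathlib
import Vale.Agent.Lib.P256L.Defs
import Vale.Agent.Lib.P256L.C1

/-!
PROOF SKETCH.
Write q(x) = x.1^2 - |x.2|^2. If x.2 = t0 e.2: the left side is (t-t0)^2 ((t e.1 - x.1) q(e.2) -
(t - t0) a(e.2)) (map_smul): roots t0, t0, (x.1 q(e.2) - t0 a(e.2))/p(e). Otherwise q(t e.2 -
x.2) is a quadratic polynomial in t with positive leading coefficient q(e.2), negative for t =
x.2.1/e.2.1, so roots t1 < t2 with t1 e.2 - x.2 = -(null vector in the cone, nonzero), t2 e.2 -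
x.2 a nonzero null vector: the cubic P(t) is a(nu1) > 0 at t1, -a(nu2) < 0 at t2 (a(nu) = nu.1^3
a(1, nu.2/nu.1) > 0), leading coefficient p(e) > 0: roots r1 < t1 < r2 < t2 < r3 by IVT; a cubic
polynomial with 3 different roots factors. Membership: 0 <= r1 iff x in K: 0 < t1 iff x.2 in the
open cone; for t < t1: P(t) <= 0 iff t <= r1; P(0) = -(x.1 q(x.2) - a(x.2)).
-/

namespace Vale.Agent.P256L

/-- A quadratic polynomial with positive leading coefficient and a negative value factors. -/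
private lemma H1_quad {c β γ s : ℝ} (hc : 0 < c) (hs : c * s ^ 2 + β * s + γ < 0) :
    ∃ r r' : ℝ, (∀ t : ℝ, c * t ^ 2 + β * t + γ = c * ((t - r) * (t - r'))) ∧ r < s ∧ s < r' := by
  have hD : (2 * c * s + β) ^ 2 < β ^ 2 - 4 * c * γ := by nlinarith
  have hD0 : 0 ≤ β ^ 2 - 4 * c * γ := le_trans (sq_nonneg _) hD.le
  have hsq : Real.sqrt (β ^ 2 - 4 * c * γ) ^ 2 = β ^ 2 - 4 * c * γ := Real.sq_sqrt hD0
  have habs : |2 * c * s + β| < Real.sqrt (β ^ 2 - 4 * c * γ) := by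
    rw [← Real.sqrt_sq_eq_abs]
    exact Real.sqrt_lt_sqrt (sq_nonneg _) hD
  obtain ⟨h1, h2⟩ := abs_lt.mp habs
  set w := Real.sqrt (β ^ 2 - 4 * c * γ) with hw
  refine ⟨(-β - w) / (2 * c), (-β + w) / (2 * c), ?_, ?_, ?_⟩
  · intro t
    have hc' : c ≠ 0 := hc.ne'
    field_simp
    nlinarith
  · rw [div_lt_iff₀ (by positivity)]
    nlinarith
  · rw [lt_div_iff₀ (by positivity)]
    nlinarith

/-- The cubic polynomial of the line. -/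
private lemma H1_poly {d : ℕ} {a : ℝ × EE d → ℝ} (ha : IsCubic a) (e x : ℝ × EE d) :
    ∃ c₂ c₁ : ℝ, ∀ t : ℝ, a (t • e - x) = a e * t ^ 3 + c₂ * t ^ 2 + c₁ * t - a x := by
  obtain ⟨N, τ, l, hl⟩ := ha
  refine ⟨∑ j, -3 * τ j * l j e ^ 2 * l j x, ∑ j, 3 * τ j * l j e * l j x ^ 2, fun t => ?_⟩
  rw [hl, hl, hl, Finset.sum_mul, Finset.sum_mul, Finset.sum_mul, ← Finset.sum_add_distrib,
    ← Finset.sum_add_distrib, ← Finset.sum_sub_distrib]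
  refine Finset.sum_congr rfl fun j _ => ?_
  rw [map_sub, map_smul, smul_eq_mul]
  ring

private lemma H1_null {d : ℕ} {a : ℝ × EE d → ℝ} (ha : IsCubic a)
    (hpos : ∀ y : EE d, ‖y‖ = 1 → 0 < a (1, y)) {s : ℝ} (hs : 0 < s) {w : EE d}
    (hw : ‖w‖ ^ 2 = s ^ 2) : 0 < a (s, w) := by
  have hw' : ‖w‖ = s := by
    have h := (sq_eq_sq₀ (norm_nonneg w) hs.le).mp hw
    exact h
  have h1 : ((s, w) : ℝ × EE d) = s • ((1, s⁻¹ • w) : ℝ × EE d) := by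
    ext1
    · simp
    · simp [smul_smul, hs.ne']
  rw [h1, ha.map_smul]
  have h2 : ‖s⁻¹ • w‖ = 1 := by
    rw [norm_smul, norm_inv, Real.norm_eq_abs, abs_of_pos hs, hw', inv_mul_cancel₀ hs.ne']
  have := hpos _ h2
  positivity

/-- A cubic polynomial with a sign change in the wrong direction has three different roots. -/
private lemma H1_cubic {c d₂ d₁ d₀ t₁ t₂ : ℝ} (hc : 0 < c) (h12 : t₁ < t₂)
    (hP1 : 0 < c * t₁ ^ 3 + d₂ * t₁ ^ 2 + d₁ * t₁ + d₀)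
    (hP2 : c * t₂ ^ 3 + d₂ * t₂ ^ 2 + d₁ * t₂ + d₀ < 0) :
    ∃ r₁ r₂ r₃ : ℝ, (∀ t : ℝ, c * t ^ 3 + d₂ * t ^ 2 + d₁ * t + d₀ =
      c * ((t - r₁) * (t - r₂) * (t - r₃))) ∧ r₁ < t₁ ∧ t₁ < r₂ ∧ r₂ < t₂ ∧ t₂ < r₃ := by
  have hcont : Continuous fun t : ℝ => c * t ^ 3 + d₂ * t ^ 2 + d₁ * t + d₀ := by fun_prop
  obtain ⟨r₂, ⟨hr1, hr2⟩, hr⟩ := intermediate_value_Ioo' h12.le hcont.continuousOn ⟨hP2, hP1⟩
  simp only at hr
  have hdiv : ∀ t, c * t ^ 3 + d₂ * t ^ 2 + d₁ * t + d₀ =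
      (t - r₂) * (c * t ^ 2 + (d₂ + c * r₂) * t + (d₁ + (d₂ + c * r₂) * r₂)) := by
    intro t
    have h0 : d₀ = -(c * r₂ ^ 3 + d₂ * r₂ ^ 2 + d₁ * r₂) := by linarith
    rw [h0]
    ring
  have hQ1 : c * t₁ ^ 2 + (d₂ + c * r₂) * t₁ + (d₁ + (d₂ + c * r₂) * r₂) < 0 := by
    rw [hdiv] at hP1
    by_contra hcon
    push Not at hcon
    have := mul_nonneg (sub_nonneg.mpr hr1.le) hcon
    linarith
  obtain ⟨r₁, r₃, hfac2, hr11, hr13⟩ := H1_quad hc hQ1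
  have hall : ∀ t, c * t ^ 3 + d₂ * t ^ 2 + d₁ * t + d₀ =
      c * ((t - r₁) * (t - r₂) * (t - r₃)) := by
    intro t
    rw [hdiv, hfac2]
    ring
  refine ⟨r₁, r₂, r₃, hall, hr11, hr1, hr2, ?_⟩
  by_contra hcon
  push Not at hcon
  rw [hall] at hP2
  have h2 : 0 ≤ c * ((t₂ - r₁) * (t₂ - r₂) * (t₂ - r₃)) := by
    have h3 : 0 ≤ t₂ - r₁ := by linarith
    have h4 : 0 ≤ t₂ - r₂ := by linarith
    have h5 : 0 ≤ t₂ - r₃ := by linarith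
    positivity
  linarith

private lemma H1_sign {c r₁ r₂ r₃ t₁ : ℝ} (hc : 0 < c) (h1 : r₁ < t₁) (h2 : t₁ < r₂)
    (h3 : r₂ < r₃) (ht : 0 < t₁) : c * ((0 - r₁) * (0 - r₂) * (0 - r₃)) ≤ 0 ↔ 0 ≤ r₁ := by
  have hr2 : 0 < r₂ := ht.trans h2
  have hr3 : 0 < r₃ := hr2.trans h3
  have h6 : c * ((0 - r₁) * (0 - r₂) * (0 - r₃)) = -(c * (r₂ * r₃) * r₁) := by ring
  have h7 : 0 < c * (r₂ * r₃) := by positivity
  rw [h6, neg_nonpos]
  exact mul_nonneg_iff_of_pos_left h7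

private lemma H1_par {d : ℕ} {a : ℝ × EE d → ℝ} (ha : IsCubic a) {e1 e0 x1 x0 : ℝ} {f y : EE d}
    (he : ‖f‖ < e0) (he0 : 0 < e0) (hq : 0 < e0 ^ 2 - ‖f‖ ^ 2)
    (hc : 0 < e1 * (e0 ^ 2 - ‖f‖ ^ 2) - a (e0, f)) (hpar : y = (x0 / e0) • f) :
    ∃ r₁ r₂ r₃ : ℝ, (∀ t : ℝ, (t * e1 - x1) * ((t * e0 - x0) ^ 2 -
        ‖t • f - y‖ ^ 2) - a (t • ((e0, f) : ℝ × EE d) - (x0, y)) =
        (e1 * (e0 ^ 2 - ‖f‖ ^ 2) - a (e0, f)) * ((t - r₁) * (t - r₂) * (t - r₃))) ∧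
      (((x1, (x0, y)) : ℝ × (ℝ × EE d)) ∈ K a ↔ 0 ≤ r₁ ∧ 0 ≤ r₂ ∧ 0 ≤ r₃) := by
  set c := e1 * (e0 ^ 2 - ‖f‖ ^ 2) - a (e0, f) with hcdef
  set t₀ := x0 / e0 with ht₀
  have hx0 : x0 = t₀ * e0 := by rw [ht₀]; field_simp
  have hx2 : ((x0, y) : ℝ × EE d) = t₀ • ((e0, f) : ℝ × EE d) := by
    ext1
    · simp [hx0]
    · simp [hpar]
  refine ⟨t₀, t₀, (x1 * (e0 ^ 2 - ‖f‖ ^ 2) - t₀ * a (e0, f)) / c, fun t => ?_, ?_⟩
  · have h1 : t • ((e0, f) : ℝ × EE d) - (x0, y) = (t - t₀) • ((e0, f) : ℝ × EE d) := by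
      rw [hx2, sub_smul]
    have h2 : t • f - y = (t - t₀) • f := by rw [hpar, sub_smul]
    rw [h1, h2, ha.map_smul, norm_smul, mul_pow, Real.norm_eq_abs, sq_abs, hx0]
    field_simp
    rw [hcdef]
    ring
  · rw [K, Set.mem_setOf_eq]
    simp only
    have hsq : (|t₀| * ‖f‖) ^ 2 = t₀ ^ 2 * ‖f‖ ^ 2 := by rw [mul_pow, sq_abs]
    rw [hx2, ha.map_smul, hx0, hpar, norm_smul, Real.norm_eq_abs, hsq]
    have h3 : (0 ≤ (x1 * (e0 ^ 2 - ‖f‖ ^ 2) - t₀ * a (e0, f)) / c) ↔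
        t₀ * a (e0, f) ≤ x1 * (e0 ^ 2 - ‖f‖ ^ 2) := by
      rw [div_nonneg_iff]
      constructor
      · rintro (h | h)
        · linarith [h.1]
        · linarith [h.2]
      · intro h
        left
        exact ⟨by linarith, hc.le⟩
    rw [h3]
    have he2 : ((e0, f) : ℝ × EE d) ≠ 0 := by
      intro h
      have := congrArg Prod.fst h
      simp at this
      exact he0.ne' this
    constructor
    · rintro (⟨h1, h2⟩ | ⟨h1, h2⟩)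
      · have ht : 0 < t₀ := by
          by_contra hneg
          push Not at hneg
          have : t₀ * e0 ≤ 0 := mul_nonpos_of_nonpos_of_nonneg hneg he0.le
          have h5 : 0 ≤ |t₀| * ‖f‖ := by positivity
          linarith
        refine ⟨ht.le, ht.le, ?_⟩
        have h6 : t₀ ^ 2 * (t₀ * a (e0, f)) ≤ t₀ ^ 2 * (x1 * (e0 ^ 2 - ‖f‖ ^ 2)) := by
          nlinarith [h2]
        exact le_of_mul_le_mul_left h6 (by positivity)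
      · have ht : t₀ = 0 := by
          rcases smul_eq_zero.mp h1 with h | h
          · exact h
          · exact absurd h he2
        rw [ht]
        refine ⟨le_rfl, le_rfl, ?_⟩
        rw [zero_mul]
        positivity
    · rintro ⟨h1, -, h2⟩
      rcases h1.lt_or_eq with h | h
      · left
        constructor
        · rw [abs_of_pos h]
          exact mul_lt_mul_of_pos_left he h
        · have h6 : t₀ ^ 2 * (t₀ * a (e0, f)) ≤ t₀ ^ 2 * (x1 * (e0 ^ 2 - ‖f‖ ^ 2)) :=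
            mul_le_mul_of_nonneg_left h2 (by positivity)
          nlinarith [h6]
      · right
        rw [← h, zero_smul]
        refine ⟨rfl, ?_⟩
        rw [← h, zero_mul] at h2
        by_contra hneg
        push Not at hneg
        nlinarith [mul_neg_of_neg_of_pos hneg hq]

private lemma H1_main {d : ℕ} {a : ℝ × EE d → ℝ} (ha : IsCubic a)
    (hpos : ∀ y : EE d, ‖y‖ = 1 → 0 < a (1, y)) {e1 e0 x1 x0 : ℝ} {f y : EE d}
    (he0 : 0 < e0) (hq : 0 < e0 ^ 2 - ‖f‖ ^ 2)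
    (hc : 0 < e1 * (e0 ^ 2 - ‖f‖ ^ 2) - a (e0, f)) (hpar : ¬ y = (x0 / e0) • f) :
    ∃ r₁ r₂ r₃ : ℝ, (∀ t : ℝ, (t * e1 - x1) * ((t * e0 - x0) ^ 2 -
        ‖t • f - y‖ ^ 2) - a (t • ((e0, f) : ℝ × EE d) - (x0, y)) =
        (e1 * (e0 ^ 2 - ‖f‖ ^ 2) - a (e0, f)) * ((t - r₁) * (t - r₂) * (t - r₃))) ∧
      (((x1, (x0, y)) : ℝ × (ℝ × EE d)) ∈ K a ↔ 0 ≤ r₁ ∧ 0 ≤ r₂ ∧ 0 ≤ r₃) := by
  set c := e1 * (e0 ^ 2 - ‖f‖ ^ 2) - a (e0, f) with hcdef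
  have hqt : ∀ t : ℝ, (t * e0 - x0) ^ 2 - ‖t • f - y‖ ^ 2 =
      (e0 ^ 2 - ‖f‖ ^ 2) * t ^ 2 + (-2 * (e0 * x0 - inner ℝ f y)) * t +
        (x0 ^ 2 - ‖y‖ ^ 2) := by
    intro t
    rw [norm_sub_sq_real, norm_smul, mul_pow, Real.norm_eq_abs, sq_abs, real_inner_smul_left]
    ring
  have hneg : (e0 ^ 2 - ‖f‖ ^ 2) * (x0 / e0) ^ 2 + (-2 * (e0 * x0 - inner ℝ f y)) * (x0 / e0) +
        (x0 ^ 2 - ‖y‖ ^ 2) < 0 := by
    rw [← hqt, div_mul_cancel₀ _ he0.ne', sub_self]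
    have h1 : 0 < ‖(x0 / e0) • f - y‖ := by
      rw [norm_pos_iff, sub_ne_zero]
      exact fun h => hpar h.symm
    nlinarith
  obtain ⟨t₁, t₂, hfac, ht₁, ht₂⟩ := H1_quad hq hneg
  have hq12 : ∀ t : ℝ, (t * e0 - x0) ^ 2 - ‖t • f - y‖ ^ 2 =
      (e0 ^ 2 - ‖f‖ ^ 2) * ((t - t₁) * (t - t₂)) := fun t => by rw [hqt, hfac]
  obtain ⟨c₂, c₁, hpoly⟩ := H1_poly ha (e0, f) (x0, y)
  -- the polynomial
  set P : ℝ → ℝ := fun t => (t * e1 - x1) * ((t * e0 - x0) ^ 2 - ‖t • f - y‖ ^ 2) -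
    a (t • ((e0, f) : ℝ × EE d) - (x0, y)) with hP
  obtain ⟨d₂, d₁, d₀, hPp⟩ : ∃ d₂ d₁ d₀ : ℝ, ∀ t, P t = c * t ^ 3 + d₂ * t ^ 2 + d₁ * t + d₀ := by
    refine ⟨-x1 * (e0 ^ 2 - ‖f‖ ^ 2) + e1 * (-2 * (e0 * x0 - inner ℝ f y)) - c₂,
      e1 * (x0 ^ 2 - ‖y‖ ^ 2) - x1 * (-2 * (e0 * x0 - inner ℝ f y)) - c₁,
      -x1 * (x0 ^ 2 - ‖y‖ ^ 2) + a (x0, y), fun t => ?_⟩
    simp only [hP]
    rw [hqt, hpoly, hcdef]
    ring
  have hP1 : 0 < P t₁ := by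
    simp only [hP]
    rw [hq12, sub_self, zero_mul, mul_zero, mul_zero, zero_sub]
    have h1 : t₁ * e0 < x0 := by rwa [lt_div_iff₀ he0] at ht₁
    have h2 : t₁ • ((e0, f) : ℝ × EE d) - (x0, y) = -(x0 - t₁ * e0, y - t₁ • f) := by
      ext1 <;> simp
    rw [h2, ha.map_neg, neg_neg]
    refine H1_null ha hpos (by linarith) ?_
    have h3 := hq12 t₁
    rw [sub_self, zero_mul, mul_zero] at h3
    rw [norm_sub_rev]
    nlinarith [h3]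
  have hP2 : P t₂ < 0 := by
    simp only [hP]
    rw [hq12, sub_self, mul_zero, mul_zero, mul_zero, zero_sub]
    have h1 : x0 < t₂ * e0 := by rwa [div_lt_iff₀ he0] at ht₂
    have h2 : t₂ • ((e0, f) : ℝ × EE d) - (x0, y) = (t₂ * e0 - x0, t₂ • f - y) := by
      ext1 <;> simp
    rw [h2, neg_lt_zero]
    refine H1_null ha hpos (by linarith) ?_
    have h3 := hq12 t₂
    rw [sub_self, mul_zero, mul_zero] at h3
    nlinarith [h3]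
  have ht12 : t₁ < t₂ := ht₁.trans ht₂
  rw [hPp] at hP1 hP2
  obtain ⟨r₁, r₂, r₃, hfacP, hr11, hr1, hr2, hr3⟩ := H1_cubic hc ht12 hP1 hP2
  have hall : ∀ t, P t = c * ((t - r₁) * (t - r₂) * (t - r₃)) := fun t => by rw [hPp, hfacP]
  refine ⟨r₁, r₂, r₃, hall, ?_⟩
  have hne : ((x0, y) : ℝ × EE d) ≠ 0 := by
    intro h
    apply hpar
    have h1 := congrArg Prod.fst h
    have h2 := congrArg Prod.snd h
    simp only [Prod.fst_zero, Prod.snd_zero] at h1 h2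
    rw [h1, h2]
    simp
  have hP0 : P 0 = a (x0, y) - x1 * (x0 ^ 2 - ‖y‖ ^ 2) := by
    simp only [hP]
    rw [hqt, zero_smul, zero_sub, ha.map_neg]
    ring
  have hq0 : x0 ^ 2 - ‖y‖ ^ 2 = (e0 ^ 2 - ‖f‖ ^ 2) * (t₁ * t₂) := by
    have h := hq12 0
    have h2 := hqt 0
    rw [h] at h2
    linarith [h2]
  have hcone : ‖y‖ < x0 ↔ 0 < t₁ := by
    constructor
    · intro h
      have hx0 : 0 < x0 := lt_of_le_of_lt (norm_nonneg _) h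
      have ht2 : 0 < t₂ := lt_trans (by positivity) ht₂
      have h1 : 0 < x0 ^ 2 - ‖y‖ ^ 2 := by nlinarith [norm_nonneg y]
      rw [hq0] at h1
      have h2 : 0 < t₁ * t₂ := (pos_iff_pos_of_mul_pos h1).mp hq
      exact (pos_iff_pos_of_mul_pos h2).mpr ht2
    · intro h
      have hx0 : 0 < x0 := by
        have : 0 < x0 / e0 := h.trans ht₁
        have := mul_pos this he0
        rwa [div_mul_cancel₀ _ he0.ne'] at this
      have ht2 : 0 < t₂ := h.trans ht12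
      have h1 : 0 < x0 ^ 2 - ‖y‖ ^ 2 := by
        rw [hq0]
        positivity
      exact lt_of_pow_lt_pow_left₀ 2 hx0.le (by linarith)
  have hsg : 0 < t₁ → (a (x0, y) ≤ x1 * (x0 ^ 2 - ‖y‖ ^ 2) ↔ 0 ≤ r₁) := by
    intro ht
    rw [← H1_sign hc hr11 hr1 (hr2.trans hr3) ht, ← hall 0, hP0, sub_nonpos]
  rw [K, Set.mem_setOf_eq]
  simp only
  constructor
  · rintro (⟨h1, h2⟩ | ⟨h1, -⟩)
    · have ht := hcone.mp h1
      have hr2p : 0 < r₂ := ht.trans hr1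
      exact ⟨(hsg ht).mp h2, hr2p.le, (hr2p.trans (hr2.trans hr3)).le⟩
    · exact absurd h1 hne
  · rintro ⟨h1, h2, h3⟩
    left
    have ht : 0 < t₁ := lt_of_le_of_lt h1 hr11
    exact ⟨hcone.mpr ht, (hsg ht).mpr h1⟩

theorem exists_roots {d : ℕ} {a : ℝ × EE d → ℝ} (ha : IsCubic a)
    (hpos : ∀ y : EE d, ‖y‖ = 1 → 0 < a (1, y)) (e : ℝ × (ℝ × EE d)) (he : ‖e.2.2‖ < e.2.1)
    (hpe : a e.2 < e.1 * (e.2.1 ^ 2 - ‖e.2.2‖ ^ 2)) (x : ℝ × (ℝ × EE d)) :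
    ∃ r₁ r₂ r₃ : ℝ, (∀ t : ℝ, (t * e.1 - x.1) * ((t * e.2.1 - x.2.1) ^ 2 -
        ‖t • e.2.2 - x.2.2‖ ^ 2) - a (t • e.2 - x.2) =
        (e.1 * (e.2.1 ^ 2 - ‖e.2.2‖ ^ 2) - a e.2) * ((t - r₁) * (t - r₂) * (t - r₃))) ∧
      (x ∈ K a ↔ 0 ≤ r₁ ∧ 0 ≤ r₂ ∧ 0 ≤ r₃) := by
  obtain ⟨e1, e0, f⟩ := e
  obtain ⟨x1, x0, y⟩ := x
  simp only at he hpe ⊢
  have he0 : 0 < e0 := lt_of_le_of_lt (norm_nonneg f) he
  have hq : 0 < e0 ^ 2 - ‖f‖ ^ 2 := by nlinarith [norm_nonneg f]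
  have hc : 0 < e1 * (e0 ^ 2 - ‖f‖ ^ 2) - a (e0, f) := by linarith
  by_cases hpar : y = (x0 / e0) • f
  · exact H1_par ha he he0 hq hc hpar
  · exact H1_main ha hpos he0 hq hc hpar

end Vale.Agent.P256L
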