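import Mathlib
import Vale.Agent.Lib.P256L.Defs

/-!
PROOF SKETCH.
N = 2k: index the matrices by Fin k x Fin 2 and reindex with finProdFinEquiv (prove first a
version of IsShadow with arbitrary Fintype index, then Matrix.PosSemidef.submatrix both ways).
A0 = 0, A i = blockDiagonal of !![L j 0 (e_i,0), L j 1 (e_i,0); L j 1 (e_i,0), L j 2 (e_i,0)], B
similarly with (0, e_j). The pencil at (x,u) is the block diagonal matrix with blocks
!![L0,L1;L1,L2](x,u) (linearity: x = sum x_i e_i); block diagonal PSD iff all blocks PSD (test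
vectors supported on one block; conversely the quadratic form is the sum over blocks), and a
symmetric 2x2 matrix is PSD iff L0 >= 0, L2 >= 0, L1^2 <= L0 L2.
-/

namespace Vale.Agent.P256L

open Matrix

private def r3idx (p q : Fin 2) : Fin 3 := ⟨p.val + q.val, by omega⟩

private theorem r3idx_comm (p q : Fin 2) : r3idx p q = r3idx q p := by
  unfold r3idx
  apply Fin.ext
  exact Nat.add_comm _ _

private def r3G {k : ℕ} (c : Fin k → Fin 3 → ℝ) : Matrix (Fin 2 × Fin k) (Fin 2 × Fin k) ℝ :=
  fun a b => if a.2 = b.2 then c a.2 (r3idx a.1 b.1) else 0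

private theorem r3G_symm {k : ℕ} (c : Fin k → Fin 3 → ℝ) (a b : Fin 2 × Fin k) :
    r3G c a b = r3G c b a := by
  unfold r3G
  by_cases h : a.2 = b.2
  · rw [if_pos h, if_pos h.symm, r3idx_comm, h]
  · rw [if_neg h, if_neg (Ne.symm h)]

private theorem r3G_quad {k : ℕ} (c : Fin k → Fin 3 → ℝ) (x : Fin 2 × Fin k → ℝ) :
    star x ⬝ᵥ (r3G c *ᵥ x) = ∑ j, (c j 0 * x (0, j) ^ 2 + 2 * c j 1 * (x (0, j) * x (1, j)) +
      c j 2 * x (1, j) ^ 2) := by
  have h00 : r3idx 0 0 = 0 := rfl
  have h01 : r3idx 0 1 = 1 := rfl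
  have h10 : r3idx 1 0 = 1 := rfl
  have h11 : r3idx 1 1 = 2 := rfl
  simp only [dotProduct, mulVec, Fintype.sum_prod_type, Fin.sum_univ_two, r3G, Pi.star_apply,
    star_trivial, ite_mul, zero_mul, Finset.sum_ite_eq, Finset.mem_univ, if_true, h00, h01, h10,
    h11]
  rw [← Finset.sum_add_distrib]
  refine Finset.sum_congr rfl fun j _ => ?_
  ring

private theorem r3G_psd {k : ℕ} (c : Fin k → Fin 3 → ℝ) :
    (r3G c).PosSemidef ↔ ∀ j, 0 ≤ c j 0 ∧ 0 ≤ c j 2 ∧ (c j 1) ^ 2 ≤ c j 0 * c j 2 := by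
  constructor
  · intro h j
    have hq : ∀ s t : ℝ, 0 ≤ c j 0 * s ^ 2 + 2 * c j 1 * (s * t) + c j 2 * t ^ 2 := by
      intro s t
      have h1 := h.dotProduct_mulVec_nonneg
        (fun a : Fin 2 × Fin k => if a.2 = j then (if a.1 = 0 then s else t) else 0)
      rw [r3G_quad, Finset.sum_eq_single j] at h1
      · simpa using h1
      · intro b _ hb
        simp [hb]
      · intro hj
        exact absurd (Finset.mem_univ j) hj
    have h0 : 0 ≤ c j 0 := by
      have := hq 1 0
      linarith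
    have h2 : 0 ≤ c j 2 := by
      have := hq 0 1
      linarith
    refine ⟨h0, h2, ?_⟩
    rcases h0.lt_or_eq with h0' | h0'
    · have h3 := hq (-c j 1) (c j 0)
      have h4 : 0 ≤ c j 0 * (c j 0 * c j 2 - c j 1 ^ 2) := by
        nlinarith [h3]
      have h5 := nonneg_of_mul_nonneg_right h4 h0'
      linarith
    · rcases h2.lt_or_eq with h2' | h2'
      · have h3 := hq (c j 2) (-c j 1)
        have h4 : 0 ≤ c j 2 * (c j 0 * c j 2 - c j 1 ^ 2) := by
          nlinarith [h3]
        have h5 := nonneg_of_mul_nonneg_right h4 h2'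
        linarith
      · have h3 := hq 1 (-c j 1)
        rw [← h0', ← h2'] at h3 ⊢
        nlinarith [h3]
  · intro h
    refine PosSemidef.of_dotProduct_mulVec_nonneg ?_ fun x => ?_
    · ext a b
      rw [conjTranspose_apply, star_trivial]
      exact r3G_symm c b a
    · rw [r3G_quad]
      refine Finset.sum_nonneg fun j _ => ?_
      obtain ⟨h0, h2, h1⟩ := h j
      have hs : 0 ≤ x (0, j) ^ 2 := sq_nonneg _
      have ht : 0 ≤ x (1, j) ^ 2 := sq_nonneg _
      generalize x (0, j) = s at *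
      generalize x (1, j) = t at *
      generalize c j 0 = A at *
      generalize c j 1 = B at *
      generalize c j 2 = C at *
      rcases h0.lt_or_eq with h0' | h0'
      · have h3 : 0 ≤ A * (A * s ^ 2 + 2 * B * (s * t) + C * t ^ 2) := by
          nlinarith [sq_nonneg (A * s + B * t), mul_nonneg (sub_nonneg.2 h1) ht]
        exact nonneg_of_mul_nonneg_right h3 h0'
      · rw [← h0', zero_mul] at h1
        have hB : B = 0 := by
          have := le_antisymm h1 (sq_nonneg B)
          exact pow_eq_zero_iff (two_ne_zero) |>.1 this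
        rw [← h0', hB]
        nlinarith [mul_nonneg h2 ht]

private theorem r3_lin {n m : ℕ} (l : ((Fin n → ℝ) × (Fin m → ℝ)) →ₗ[ℝ] ℝ) (x : Fin n → ℝ)
    (u : Fin m → ℝ) : l (x, u) = ∑ i, x i * l (Pi.single i 1, 0) +
      ∑ j, u j * l (0, Pi.single j 1) := by
  have h1 : ((x, u) : (Fin n → ℝ) × (Fin m → ℝ)) =
      ∑ i, x i • ((Pi.single i 1, 0) : (Fin n → ℝ) × (Fin m → ℝ)) +
      ∑ j, u j • ((0, Pi.single j 1) : (Fin n → ℝ) × (Fin m → ℝ)) := by
    refine Prod.ext ?_ ?_
    · ext i
      simp [Prod.fst_sum, Finset.sum_apply, Pi.single_apply]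
    · ext i
      simp [Prod.snd_sum, Finset.sum_apply, Pi.single_apply]
  rw [h1, map_add, map_sum, map_sum]
  simp only [map_smul, smul_eq_mul]

theorem Rep.isShadow {n : ℕ} {S : Set (Fin n → ℝ)} (hS : Rep S) : IsShadow S := by
  obtain ⟨m, k, L, hL⟩ := hS
  let e : Fin (2 * k) ≃ Fin 2 × Fin k := finProdFinEquiv.symm
  let D : ((Fin n → ℝ) × (Fin m → ℝ)) → Matrix (Fin (2 * k)) (Fin (2 * k)) ℝ :=
    fun z => (r3G fun j p => L j p z).submatrix e e
  have hDs : ∀ z, (D z).IsSymm := by
    intro z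
    ext a b
    exact r3G_symm (fun j p => L j p z) (e b) (e a)
  refine ⟨2 * k, m, 0, fun i => D (Pi.single i 1, 0), fun j => D (0, Pi.single j 1), ?_,
    fun i => hDs _, fun j => hDs _, ?_⟩
  · ext a b
    rfl
  · intro x
    rw [hL]
    refine exists_congr fun u => ?_
    have h1 : (0 : Matrix (Fin (2 * k)) (Fin (2 * k)) ℝ) + ∑ i, x i • D (Pi.single i 1, 0) +
        ∑ j, u j • D (0, Pi.single j 1) = D (x, u) := by
      ext a b
      rw [zero_add, Matrix.add_apply, Matrix.sum_apply, Matrix.sum_apply]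
      simp only [Matrix.smul_apply, smul_eq_mul]
      show ∑ i, x i * r3G (fun j p => L j p (Pi.single i 1, 0)) (e a) (e b) +
        ∑ i, u i * r3G (fun j p => L j p (0, Pi.single i 1)) (e a) (e b) =
        r3G (fun j p => L j p (x, u)) (e a) (e b)
      unfold r3G
      by_cases h : (e a).2 = (e b).2
      · simp only [if_pos h]
        exact (r3_lin _ x u).symm
      · simp only [if_neg h, mul_zero, Finset.sum_const_zero, add_zero]
    rw [h1]
    show _ ↔ ((r3G fun j p => L j p (x, u)).submatrix e e).PosSemidef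
    rw [posSemidef_submatrix_equiv, r3G_psd]

end Vale.Agent.P256L
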