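import Mathlib
import Vale.Agent.Lib.P256L.Defs
import Vale.Agent.Lib.P256L.G
import Vale.Agent.Lib.P256L.H1
import Vale.Agent.Lib.P256L.F1
import Vale.Agent.Lib.P256L.R3

namespace Vale.Agent.P256L


end Vale.Agent.P256L
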