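import Mathlib
import Vale.Agent.Lib.P256L.Defs
import Vale.Agent.Lib.P256L.G
import Vale.Agent.Lib.P256L.H1
import Vale.Agent.Lib.P256L.F1
import Vale.Agent.Lib.P256L.R3

/-!
P256L: the final assembly.
-/

namespace Vale.Agent.P256L

open MvPolynomial

/-- `p` is hyperbolic with respect to `e`: `p (e) > 0` and for every real `x` all complex roots
of `t ↦ p (t e - x)` are real. -/
def Hyperbolic {n : ℕ} (p : MvPolynomial (Fin n) ℝ) (e : Fin n → ℝ) : Prop :=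
  0 < eval e p ∧ ∀ (x : Fin n → ℝ) (t : ℂ),
    aeval (fun i => t * (e i : ℂ) - (x i : ℂ)) p = 0 → t.im = 0

/-- The closed hyperbolicity cone: all roots of `t ↦ p (t e - x)` are nonnegative. -/
def hypCone {n : ℕ} (p : MvPolynomial (Fin n) ℝ) (e : Fin n → ℝ) : Set (Fin n → ℝ) :=
  {x | ∀ t : ℝ, eval (fun i => t * e i - x i) p = 0 → 0 ≤ t}

/-- The cubic form `x₀ (x₁² - x₂² - ... - x_{d+1}²) - a (x₁, ..., x_{d+1})`. -/
noncomputable def nodal {d : ℕ} (a : MvPolynomial (Fin (d + 1)) ℝ) :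
    MvPolynomial (Fin (d + 2)) ℝ :=
  X 0 * (X 1 ^ 2 - ∑ i : Fin d, X i.succ.succ ^ 2) - rename Fin.succ a

/-- The coordinates. -/
noncomputable def Phi (d : ℕ) : (Fin (d + 2) → ℝ) →ₗ[ℝ] ℝ × (ℝ × EE d) where
  toFun x := (x 0, (x 1, WithLp.toLp 2 (fun i => x i.succ.succ)))
  map_add' x y := by
    ext <;> simp
  map_smul' c x := by
    ext <;> simp

/-- The cubic form as a function. -/
noncomputable def fa {d : ℕ} (a : MvPolynomial (Fin (d + 1)) ℝ) (z : ℝ × EE d) : ℝ :=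
  eval (Fin.cons z.1 (fun i => z.2 i) : Fin (d + 1) → ℝ) a

/-- The inverse coordinates for `a`. -/
noncomputable def Psi (d : ℕ) : (ℝ × EE d) →ₗ[ℝ] (Fin (d + 1) → ℝ) where
  toFun z := Fin.cons z.1 (fun i => z.2 i)
  map_add' x y := by
    ext i
    refine Fin.cases ?_ (fun i => ?_) i <;> simp
  map_smul' c x := by
    ext i
    refine Fin.cases ?_ (fun i => ?_) i <;> simp

theorem isCubic_fa {d : ℕ} {a : MvPolynomial (Fin (d + 1)) ℝ} (ha : a.IsHomogeneous 3) :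
    IsCubic (fa a) :=
  (isCubic_of_isHomogeneous a ha).comp (Psi d)

theorem normSq_toLp {d : ℕ} (f : Fin d → ℝ) :
    ‖(WithLp.toLp 2 f : EE d)‖ ^ 2 = ∑ i, f i ^ 2 := by
  rw [EuclideanSpace.norm_sq_eq]
  simp

theorem eval_nodal {d : ℕ} (a : MvPolynomial (Fin (d + 1)) ℝ) (x : Fin (d + 2) → ℝ) :
    eval x (nodal a) = (Phi d x).1 * ((Phi d x).2.1 ^ 2 - ‖(Phi d x).2.2‖ ^ 2) -
      fa a (Phi d x).2 := by
  have h1 : ‖(Phi d x).2.2‖ ^ 2 = ∑ i : Fin d, x i.succ.succ ^ 2 := normSq_toLp _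
  have h2 : fa a (Phi d x).2 = eval (x ∘ Fin.succ) a := by
    unfold fa
    congr 1
    congr 1
    funext i
    refine Fin.cases ?_ (fun i => ?_) i
    · rfl
    · rfl
  rw [h1, h2]
  unfold nodal
  simp only [map_sub, map_mul, map_pow, map_sum, eval_X, eval_rename]
  rfl

theorem fa_pos {d : ℕ} {a : MvPolynomial (Fin (d + 1)) ℝ}
    (hpos : ∀ z : Fin (d + 1) → ℝ, 0 < z 0 → z 0 ^ 2 = ∑ i : Fin d, z i.succ ^ 2 → 0 < eval z a)
    (y : EE d) (hy : ‖y‖ = 1) : 0 < fa a (1, y) := by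
  unfold fa
  refine hpos _ ?_ ?_
  · simp
  · have : ‖y‖ ^ 2 = ∑ i, y i ^ 2 := by
      rw [EuclideanSpace.norm_sq_eq]
      simp
    rw [hy] at this
    simpa using this

theorem main_cone {d : ℕ} {a : MvPolynomial (Fin (d + 1)) ℝ} (ha : a.IsHomogeneous 3)
    (hpos : ∀ z : Fin (d + 1) → ℝ, 0 < z 0 → z 0 ^ 2 = ∑ i : Fin d, z i.succ ^ 2 → 0 < eval z a)
    (e : Fin (d + 2) → ℝ) (he : 0 < e 1) (he2 : ∑ i : Fin d, e i.succ.succ ^ 2 < e 1 ^ 2)
    (hpe : 0 < eval e (nodal a)) (x : Fin (d + 2) → ℝ) :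
    ∃ r₁ r₂ r₃ : ℝ, (∀ t : ℝ, eval (fun i => t * e i - x i) (nodal a) =
        eval e (nodal a) * ((t - r₁) * (t - r₂) * (t - r₃))) ∧
      (Phi d x ∈ K (fa a) ↔ 0 ≤ r₁ ∧ 0 ≤ r₂ ∧ 0 ≤ r₃) := by
  have h1 : ‖(Phi d e).2.2‖ ^ 2 = ∑ i : Fin d, e i.succ.succ ^ 2 := normSq_toLp _
  have h2 : ‖(Phi d e).2.2‖ < (Phi d e).2.1 := by
    refine lt_of_pow_lt_pow_left₀ 2 he.le ?_
    rw [h1]
    exact he2
  have h3 := eval_nodal a e
  have h4 : fa a (Phi d e).2 < (Phi d e).1 * ((Phi d e).2.1 ^ 2 - ‖(Phi d e).2.2‖ ^ 2) := by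
    rw [h3] at hpe
    linarith
  obtain ⟨r₁, r₂, r₃, hr, hK⟩ := exists_roots (isCubic_fa ha) (fa_pos hpos) (Phi d e) h2 h4
    (Phi d x)
  refine ⟨r₁, r₂, r₃, fun t => ?_, hK⟩
  rw [h3, ← hr t, eval_nodal]
  have h5 : Phi d (fun i => t * e i - x i) = t • Phi d e - Phi d x := by
    rw [← map_smul, ← map_sub]
    rfl
  rw [h5]
  simp [smul_eq_mul]

theorem hyperbolic_nodal {d : ℕ} {a : MvPolynomial (Fin (d + 1)) ℝ} (ha : a.IsHomogeneous 3)
    (hpos : ∀ z : Fin (d + 1) → ℝ, 0 < z 0 → z 0 ^ 2 = ∑ i : Fin d, z i.succ ^ 2 → 0 < eval z a)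
    (e : Fin (d + 2) → ℝ) (he : 0 < e 1) (he2 : ∑ i : Fin d, e i.succ.succ ^ 2 < e 1 ^ 2)
    (hpe : 0 < eval e (nodal a)) : Hyperbolic (nodal a) e := by
  refine ⟨hpe, fun x t ht => ?_⟩
  obtain ⟨r₁, r₂, r₃, hr, -⟩ := main_cone ha hpos e he he2 hpe x
  set P : Polynomial ℝ := aeval (fun i => Polynomial.X * Polynomial.C (e i) -
    Polynomial.C (x i)) (nodal a) with hP
  have hPe : ∀ s : ℝ, P.eval s = eval (fun i => s * e i - x i) (nodal a) := by
    intro s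
    rw [← Polynomial.coe_aeval_eq_eval, hP, MvPolynomial.comp_aeval_apply]
    have hf : (fun i => (Polynomial.aeval s : Polynomial ℝ →ₐ[ℝ] ℝ)
        (Polynomial.X * Polynomial.C (e i) - Polynomial.C (x i))) = fun i => s * e i - x i := by
      funext i
      simp only [map_sub, map_mul, Polynomial.aeval_X, Polynomial.aeval_C, Algebra.algebraMap_self,
        RingHom.id_apply]
    rw [hf, ← MvPolynomial.coe_aeval_eq_eval]
    rfl
  have hPP : P = Polynomial.C (eval e (nodal a)) * ((Polynomial.X - Polynomial.C r₁) *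
      (Polynomial.X - Polynomial.C r₂) * (Polynomial.X - Polynomial.C r₃)) := by
    refine Polynomial.funext fun s => ?_
    rw [hPe, hr]
    simp
  have hPc : Polynomial.aeval t P = aeval (fun i => t * (e i : ℂ) - (x i : ℂ)) (nodal a) := by
    rw [hP, MvPolynomial.comp_aeval_apply]
    have hf : (fun i => (Polynomial.aeval t : Polynomial ℝ →ₐ[ℝ] ℂ)
        (Polynomial.X * Polynomial.C (e i) - Polynomial.C (x i))) =
        fun i => t * (e i : ℂ) - (x i : ℂ) := by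
      funext i
      simp only [map_sub, map_mul, Polynomial.aeval_X, Polynomial.aeval_C]
      rfl
    rw [hf]
  rw [ht, hPP] at hPc
  have h0 : (eval e (nodal a) : ℂ) ≠ 0 := by
    exact_mod_cast hpe.ne'
  simp only [map_mul, Polynomial.aeval_C, map_sub, Polynomial.aeval_X] at hPc
  have h6 : ((t - (r₁ : ℂ)) * (t - (r₂ : ℂ)) * (t - (r₃ : ℂ))) = 0 := by
    rcases mul_eq_zero.1 hPc with h | h
    · exact absurd h h0
    · exact h
  rcases mul_eq_zero.1 h6 with h | h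
  · rcases mul_eq_zero.1 h with h | h
    · rw [sub_eq_zero.1 h]
      simp
    · rw [sub_eq_zero.1 h]
      simp
  · rw [sub_eq_zero.1 h]
    simp

theorem shadow_nodal {d : ℕ} {a : MvPolynomial (Fin (d + 1)) ℝ} (ha : a.IsHomogeneous 3)
    (hpos : ∀ z : Fin (d + 1) → ℝ, 0 < z 0 → z 0 ^ 2 = ∑ i : Fin d, z i.succ ^ 2 → 0 < eval z a)
    (e : Fin (d + 2) → ℝ) (he : 0 < e 1) (he2 : ∑ i : Fin d, e i.succ.succ ^ 2 < e 1 ^ 2)
    (hpe : 0 < eval e (nodal a)) : Rep (hypCone (nodal a) e) := by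
  have h := (rep_K (isCubic_fa ha) (fa_pos hpos)).comap (Phi d)
  convert h using 1
  ext x
  obtain ⟨r₁, r₂, r₃, hr, hK⟩ := main_cone ha hpos e he he2 hpe x
  show (∀ t : ℝ, eval (fun i => t * e i - x i) (nodal a) = 0 → 0 ≤ t) ↔ Phi d x ∈ K (fa a)
  rw [hK]
  constructor
  · intro h
    refine ⟨h r₁ ?_, h r₂ ?_, h r₃ ?_⟩ <;> rw [hr] <;> simp
  · rintro ⟨h1, h2, h3⟩ t ht
    rw [hr] at ht
    rcases mul_eq_zero.1 ht with h | h
    · exact absurd h hpe.ne'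
    · rcases mul_eq_zero.1 h with h | h
      · rcases mul_eq_zero.1 h with h | h
        · linarith
        · linarith
      · linarith

end Vale.Agent.P256L
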