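import Mathlib
import Vale.Agent.Lib.P256L.Defs
import Vale.Agent.Lib.P256L.C1

/-!
PROOF SKETCH.
The polynomial F := aeval (fun i => X * C (e i) - C (x i)) p in R[X] (see Lib/P256L/Fin.lean,
hyperbolic_nodal, for the evaluation lemmas with MvPolynomial.comp_aeval_apply) has natDegree <=
3 and coefficient p(e) at X^3 (homogeneous: t^3 p(e - x/t) -> p(e) t^3; or: F.eval t = sum over
monomials; or write reverse: t^3 F(1/t) = p(e - t x) is a polynomial with value p(e) at 0). Over
C it splits; all roots real by hr (aeval t F = aeval (..) p); so F = C(p e) (X-r1)(X-r2)(X-r3)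
with real r_i (card of roots = 3).
-/

namespace Vale.Agent.P256L

/-- Degree and top coefficient of a product. -/
private theorem Z1_prod {ι : Type} (s : Finset ι) (f : ι → Polynomial ℝ) (d : ι → ℕ)
    (hf : ∀ i ∈ s, (f i).natDegree ≤ d i) :
    (∏ i ∈ s, f i).natDegree ≤ ∑ i ∈ s, d i ∧
      (∏ i ∈ s, f i).coeff (∑ i ∈ s, d i) = ∏ i ∈ s, (f i).coeff (d i) := by
  classical
  induction s using Finset.induction_on with
  | empty => simp
  | insert i s hi ih =>
    obtain ⟨h1, h2⟩ := ih fun j hj => hf j (Finset.mem_insert_of_mem hj)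
    have h0 := hf i (Finset.mem_insert_self i s)
    rw [Finset.prod_insert hi, Finset.sum_insert hi, Finset.prod_insert hi]
    refine ⟨Polynomial.natDegree_mul_le.trans (add_le_add h0 h1), ?_⟩
    rw [Polynomial.coeff_mul_add_eq_of_natDegree_le h0 h1, h2]

/-- One linear factor, power `k`. -/
private theorem Z1_pow (a b : ℝ) (k : ℕ) :
    ((Polynomial.X * Polynomial.C a - Polynomial.C b) ^ k).natDegree ≤ k ∧
      ((Polynomial.X * Polynomial.C a - Polynomial.C b) ^ k).coeff k = a ^ k := by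
  have h1 : (Polynomial.X * Polynomial.C a - Polynomial.C b).natDegree ≤ 1 := by
    refine (Polynomial.natDegree_sub_le _ _).trans (max_le ?_ ?_)
    · exact Polynomial.natDegree_mul_le.trans (by simp)
    · simp
  refine ⟨Polynomial.natDegree_pow_le.trans (by nlinarith), ?_⟩
  have h2 := Polynomial.coeff_pow_of_natDegree_le (m := k) h1
  rw [mul_one] at h2
  rw [h2]
  congr 1
  rw [Polynomial.coeff_sub, Polynomial.coeff_C_of_ne_zero one_ne_zero, sub_zero]
  simp

/-- Splitting off a real root. -/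
private theorem Z1_step (k : ℕ) (P : Polynomial ℝ) (hP : P.natDegree = k + 1)
    (hr : ∀ t : ℂ, Polynomial.aeval t P = 0 → t.im = 0) :
    ∃ (r : ℝ) (Q : Polynomial ℝ), P = (Polynomial.X - Polynomial.C r) * Q ∧ Q.natDegree = k ∧
      Q.leadingCoeff = P.leadingCoeff ∧ ∀ t : ℂ, Polynomial.aeval t Q = 0 → t.im = 0 := by
  have hP0 : P ≠ 0 := by
    rintro rfl
    simp at hP
  have hd : P.degree ≠ 0 := by
    intro h
    have h1 : P.natDegree = 0 := Polynomial.natDegree_eq_zero_iff_degree_le_zero.2 h.le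
    omega
  obtain ⟨z, hz⟩ := IsAlgClosed.exists_aeval_eq_zero ℂ P hd
  have him := hr z hz
  have hz' : z = ((z.re : ℝ) : ℂ) := by
    apply Complex.ext
    · simp
    · simp [him]
  have hroot : Polynomial.IsRoot P z.re := by
    rw [hz'] at hz
    have h1 : Polynomial.aeval ((z.re : ℝ) : ℂ) P = ((P.eval z.re : ℝ) : ℂ) := by
      have := Polynomial.aeval_algebraMap_apply ℂ z.re P
      simpa using this
    rw [h1] at hz
    exact_mod_cast hz
  obtain ⟨Q, hQ⟩ := Polynomial.dvd_iff_isRoot.2 hroot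
  have hQ0 : Q ≠ 0 := by
    rintro rfl
    rw [mul_zero] at hQ
    exact hP0 hQ
  refine ⟨z.re, Q, hQ, ?_, ?_, ?_⟩
  · have h1 : P.natDegree = 1 + Q.natDegree := by
      rw [hQ, Polynomial.natDegree_mul (Polynomial.X_sub_C_ne_zero _) hQ0,
        Polynomial.natDegree_X_sub_C]
    omega
  · rw [hQ, Polynomial.leadingCoeff_mul, Polynomial.leadingCoeff_X_sub_C, one_mul]
  · intro t ht
    refine hr t ?_
    rw [hQ, map_mul, ht, mul_zero]

theorem roots_of_hyperbolic {n : ℕ} (p : MvPolynomial (Fin n) ℝ) (hp : p.IsHomogeneous 3)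
    (e : Fin n → ℝ) (he : 0 < MvPolynomial.eval e p)
    (hr : ∀ (x : Fin n → ℝ) (t : ℂ),
      MvPolynomial.aeval (fun i => t * (e i : ℂ) - (x i : ℂ)) p = 0 → t.im = 0)
    (x : Fin n → ℝ) :
    ∃ r₁ r₂ r₃ : ℝ, ∀ t : ℝ, MvPolynomial.eval (t • e - x) p =
      MvPolynomial.eval e p * ((t - r₁) * (t - r₂) * (t - r₃)) := by
  classical
  set P : Polynomial ℝ := MvPolynomial.aeval (fun i => Polynomial.X * Polynomial.C (e i) -
    Polynomial.C (x i)) p with hP
  have hPe : ∀ s : ℝ, P.eval s = MvPolynomial.eval (s • e - x) p := by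
    intro s
    rw [← Polynomial.coe_aeval_eq_eval, hP, MvPolynomial.comp_aeval_apply]
    have hf : (fun i => (Polynomial.aeval s : Polynomial ℝ →ₐ[ℝ] ℝ)
        (Polynomial.X * Polynomial.C (e i) - Polynomial.C (x i))) = s • e - x := by
      funext i
      simp only [map_sub, map_mul, Polynomial.aeval_X, Polynomial.aeval_C, Algebra.algebraMap_self,
        RingHom.id_apply, Pi.sub_apply, Pi.smul_apply, smul_eq_mul]
    rw [hf, ← MvPolynomial.coe_aeval_eq_eval]
    rfl
  have hPc : ∀ t : ℂ, Polynomial.aeval t P =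
      MvPolynomial.aeval (fun i => t * (e i : ℂ) - (x i : ℂ)) p := by
    intro t
    rw [hP, MvPolynomial.comp_aeval_apply]
    have hf : (fun i => (Polynomial.aeval t : Polynomial ℝ →ₐ[ℝ] ℂ)
        (Polynomial.X * Polynomial.C (e i) - Polynomial.C (x i))) =
        fun i => t * (e i : ℂ) - (x i : ℂ) := by
      funext i
      simp only [map_sub, map_mul, Polynomial.aeval_X, Polynomial.aeval_C]
      rfl
    rw [hf]
  have hsum : P = ∑ d ∈ p.support, Polynomial.C (p.coeff d) *
      ∏ i, (Polynomial.X * Polynomial.C (e i) - Polynomial.C (x i)) ^ d i := by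
    rw [hP, MvPolynomial.aeval_def, MvPolynomial.eval₂_eq']
    rfl
  have hdeg : ∀ d ∈ p.support, ∑ i, d i = 3 := by
    intro d hd
    have h1 := hp (MvPolynomial.mem_support_iff.1 hd)
    rw [← Finsupp.degree_eq_sum, Finsupp.degree_eq_weight_one]
    exact h1
  have hterm : ∀ d ∈ p.support,
      (Polynomial.C (p.coeff d) *
        ∏ i, (Polynomial.X * Polynomial.C (e i) - Polynomial.C (x i)) ^ d i).natDegree ≤ 3 ∧
      (Polynomial.C (p.coeff d) *
        ∏ i, (Polynomial.X * Polynomial.C (e i) - Polynomial.C (x i)) ^ d i).coeff 3 =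
        p.coeff d * ∏ i, e i ^ d i := by
    intro d hd
    obtain ⟨h1, h2⟩ := Z1_prod Finset.univ
      (fun i => (Polynomial.X * Polynomial.C (e i) - Polynomial.C (x i)) ^ d i) (fun i => d i)
      (fun i _ => (Z1_pow (e i) (x i) (d i)).1)
    rw [hdeg d hd] at h1 h2
    refine ⟨(Polynomial.natDegree_C_mul_le _ _).trans h1, ?_⟩
    rw [Polynomial.coeff_C_mul, h2]
    congr 1
    exact Finset.prod_congr rfl fun i _ => (Z1_pow (e i) (x i) (d i)).2
  have hnd : P.natDegree ≤ 3 := by
    rw [hsum]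
    exact Polynomial.natDegree_sum_le_of_forall_le _ _ fun d hd => (hterm d hd).1
  have hc3 : P.coeff 3 = MvPolynomial.eval e p := by
    rw [hsum, Polynomial.finsetSum_coeff, MvPolynomial.eval_eq']
    exact Finset.sum_congr rfl fun d hd => (hterm d hd).2
  have hnd3 : P.natDegree = 2 + 1 := by
    refine le_antisymm hnd ?_
    refine Polynomial.le_natDegree_of_ne_zero ?_
    show P.coeff 3 ≠ 0
    rw [hc3]
    exact he.ne'
  have hlc : P.leadingCoeff = MvPolynomial.eval e p := by
    rw [Polynomial.leadingCoeff, hnd3, ← hc3]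
  obtain ⟨r₁, Q₁, h1, h1d, h1c, h1r⟩ := Z1_step 2 P hnd3 fun t ht => hr x t (by rw [← hPc, ht])
  obtain ⟨r₂, Q₂, h2, h2d, h2c, h2r⟩ := Z1_step 1 Q₁ h1d h1r
  obtain ⟨r₃, Q₃, h3, h3d, h3c, -⟩ := Z1_step 0 Q₂ h2d h2r
  have h4 : Q₃ = Polynomial.C (MvPolynomial.eval e p) := by
    rw [Polynomial.eq_C_of_natDegree_eq_zero h3d]
    congr 1
    rw [← hlc, ← h1c, ← h2c, ← h3c, Polynomial.leadingCoeff, h3d]
  refine ⟨r₁, r₂, r₃, fun t => ?_⟩
  rw [← hPe, h1, h2, h3, h4]
  simp only [Polynomial.eval_mul, Polynomial.eval_sub, Polynomial.eval_X, Polynomial.eval_C]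
  ring

end Vale.Agent.P256L
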