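import Mathlib
import Vale.Agent.Lib.P256L.Defs
import Vale.Agent.Lib.P256L.C1

/-!
PROOF SKETCH.
P = sum tau_j l_j^3. P(v + s x) is a polynomial in s with linear coefficient 3 sum tau_j
l_j(v)^2 l_j(x), which is the derivative at 0, so it is 0 for every x (uniqueness
HasDerivAt.unique); x = v gives P v = 0. B x y := 3 sum tau_j l_j(v) l_j(x) l_j(y). P(s v + x) =
s^3 P(v) + 3 s^2 (...=0) + s B x x + P x.
-/

namespace Vale.Agent.P256L

theorem exists_polar {V : Type} [AddCommGroup V] [Module ℝ V] {P : V → ℝ} (hP : IsCubic P)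
    (v : V) (hv : ∀ x : V, HasDerivAt (fun s : ℝ => P (v + s • x)) 0 0) :
    ∃ B : V →ₗ[ℝ] V →ₗ[ℝ] ℝ, (∀ x y, B x y = B y x) ∧ (∀ x, B v x = 0) ∧
      ∀ (s : ℝ) (x : V), P (s • v + x) = s * B x x + P x := by
  obtain ⟨N, τ, l, h⟩ := hP
  have hB : ∀ x y : V, (∑ j, (3 * τ j * l j v) • (l j).smulRight (l j) :
      V →ₗ[ℝ] V →ₗ[ℝ] ℝ) x y = ∑ j, 3 * τ j * l j v * (l j x * l j y) := by
    intro x y
    rw [LinearMap.sum_apply, LinearMap.sum_apply]
    refine Finset.sum_congr rfl fun j _ => ?_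
    rw [LinearMap.smul_apply, LinearMap.smul_apply, LinearMap.smulRight_apply,
      LinearMap.smul_apply, smul_eq_mul, smul_eq_mul]
  have h0 : ∀ x : V, ∑ j, 3 * τ j * l j v * (l j v * l j x) = 0 := by
    intro x
    have h1 : HasDerivAt (fun s : ℝ => P (v + s • x))
        (∑ j, 3 * τ j * l j v * (l j v * l j x)) 0 := by
      have e : (fun s : ℝ => P (v + s • x)) =
          fun s : ℝ => ∑ j, τ j * (l j v + s * l j x) ^ 3 := by
        funext s
        rw [h]
        refine Finset.sum_congr rfl fun j _ => ?_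
        rw [map_add, map_smul, smul_eq_mul]
      rw [e]
      refine HasDerivAt.fun_sum fun j _ => ?_
      have h2 : HasDerivAt (fun s : ℝ => l j v + s * l j x) (l j x) 0 := by
        have h3 := ((hasDerivAt_id (0 : ℝ)).mul_const (l j x)).const_add (l j v)
        simpa using h3
      have h4 := (h2.pow 3).const_mul (τ j)
      refine h4.congr_deriv ?_
      norm_num
      ring
    exact h1.unique (hv x)
  refine ⟨∑ j, (3 * τ j * l j v) • (l j).smulRight (l j), fun x y => ?_, fun x => ?_,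
    fun s x => ?_⟩
  · rw [hB, hB]
    exact Finset.sum_congr rfl fun j _ => by ring
  · rw [hB]
    exact h0 x
  · rw [hB, h, h]
    have e : ∑ j, τ j * l j (s • v + x) ^ 3 =
        s ^ 3 / 3 * (∑ j, 3 * τ j * l j v * (l j v * l j v)) +
        s ^ 2 * (∑ j, 3 * τ j * l j v * (l j v * l j x)) +
        s * (∑ j, 3 * τ j * l j v * (l j x * l j x)) + ∑ j, τ j * l j x ^ 3 := by
      rw [Finset.mul_sum, Finset.mul_sum, Finset.mul_sum, ← Finset.sum_add_distrib,
        ← Finset.sum_add_distrib, ← Finset.sum_add_distrib]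
      refine Finset.sum_congr rfl fun j _ => ?_
      rw [map_add, map_smul, smul_eq_mul]
      ring
    rw [e, h0, h0]
    ring

end Vale.Agent.P256L
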