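import Mathlib
import Vale.Agent.Lib.P256L.Defs

/-!
PROOF SKETCH.
Chain rule: derivative of s -> eval (v + s x) p at 0 is sum_i (pderiv i p)(v) x_i = 0. By
MvPolynomial.induction_on (C, add, mul by X) prove the general statement HasDerivAt (fun s =>
eval (v + s x) p) (sum_i x_i * eval (v + s x) (pderiv i p)) s, or search Mathlib for
MvPolynomial hasFDerivAt / pderiv.
-/

namespace Vale.Agent.P256L

private theorem Z2b_gen {n : ℕ} (p : MvPolynomial (Fin n) ℝ) (v x : Fin n → ℝ) (s : ℝ) :
    HasDerivAt (fun s : ℝ => MvPolynomial.eval (v + s • x) p)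
      (∑ i, x i * MvPolynomial.eval (v + s • x) (MvPolynomial.pderiv i p)) s := by
  induction p using MvPolynomial.induction_on with
  | C a =>
    simp only [MvPolynomial.eval_C, MvPolynomial.pderiv_C, map_zero, mul_zero,
      Finset.sum_const_zero]
    exact hasDerivAt_const s a
  | add p q hp hq =>
    have h := hp.add hq
    refine (h.congr_deriv ?_).congr_of_eventuallyEq (Filter.Eventually.of_forall fun t => ?_)
    · rw [← Finset.sum_add_distrib]
      refine Finset.sum_congr rfl fun i _ => ?_
      rw [map_add, map_add]
      ring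
    · exact map_add _ _ _
  | mul_X p j hp =>
    have h1 : HasDerivAt (fun s : ℝ => v j + s * x j) (x j) s := by
      have h2 := ((hasDerivAt_id s).mul_const (x j)).const_add (v j)
      rw [one_mul] at h2
      exact h2
    have h := hp.mul h1
    refine (h.congr_deriv ?_).congr_of_eventuallyEq (Filter.Eventually.of_forall fun t => ?_)
    · have h3 : ∀ i, x i * MvPolynomial.eval (v + s • x) (MvPolynomial.pderiv i
          (p * MvPolynomial.X j)) = x i * MvPolynomial.eval (v + s • x)
          (MvPolynomial.pderiv i p) * (v j + s * x j) +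
          (if j = i then x i * MvPolynomial.eval (v + s • x) p else 0) := by
        intro i
        rw [MvPolynomial.pderiv_mul, map_add, map_mul, map_mul, MvPolynomial.eval_X,
          MvPolynomial.pderiv_X]
        have h4 : (v + s • x) j = v j + s * x j := rfl
        rw [h4]
        by_cases hij : j = i
        · subst hij
          rw [if_pos rfl, Pi.single_eq_same, map_one]
          ring
        · rw [if_neg hij, Pi.single_eq_of_ne hij, map_zero]
          ring
      rw [Finset.sum_congr rfl fun i _ => h3 i, Finset.sum_add_distrib, Finset.sum_mul,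
        Finset.sum_ite_eq, if_pos (Finset.mem_univ _)]
      ring
    · change MvPolynomial.eval (v + t • x) (p * MvPolynomial.X j) = _
      rw [map_mul, MvPolynomial.eval_X]
      rfl

theorem hasDerivAt_of_pderiv {n : ℕ} (p : MvPolynomial (Fin n) ℝ) (v : Fin n → ℝ)
    (hv : ∀ i, MvPolynomial.eval v (MvPolynomial.pderiv i p) = 0) (x : Fin n → ℝ) :
    HasDerivAt (fun s : ℝ => MvPolynomial.eval (v + s • x) p) 0 0 := by
  refine (Z2b_gen p v x 0).congr_deriv ?_
  refine Finset.sum_eq_zero fun i _ => ?_
  rw [zero_smul, add_zero, hv, mul_zero]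

end Vale.Agent.P256L
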