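import Mathlib
import Vale.Agent.Lib.P256L.Defs

/-!
PROOF SKETCH.
Identity for all t gives b = kappa (r1+r2+r3), c = kappa (r1r2+r1r3+r2r3), d = kappa r1r2r3
(evaluate at t = 0, 1, -1). Then nlinarith / sums of squares: e1^2 - 3 e2 = 1/2 sum (ri-rj)^2,
e2^2 - 3 e1 e3 = 1/2 sum (ri rj - ri rk)^2. laguerre: F'^2 - F F'' = (t-r2)^2(t-r3)^2 +
(t-r1)^2(t-r3)^2 + (t-r1)^2(t-r2)^2 + ... (check by ring).
-/

namespace Vale.Agent.P256L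

private theorem vieta {b c d r₁ r₂ r₃ κ : ℝ}
    (h : ∀ t : ℝ, κ * t ^ 3 - b * t ^ 2 + c * t - d = κ * ((t - r₁) * (t - r₂) * (t - r₃))) :
    b = κ * (r₁ + r₂ + r₃) ∧ c = κ * (r₁ * r₂ + r₁ * r₃ + r₂ * r₃) ∧ d = κ * (r₁ * r₂ * r₃) := by
  have h0 := h 0
  have h1 := h 1
  have h2 := h (-1)
  refine ⟨?_, ?_, ?_⟩
  · linear_combination (-1 / 2 : ℝ) * h1 + (-1 / 2 : ℝ) * h2 + h0
  · linear_combination (1 / 2 : ℝ) * h1 + (-1 / 2 : ℝ) * h2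
  · linear_combination (-1 : ℝ) * h0

theorem newton_one {b c d r₁ r₂ r₃ κ : ℝ} (hκ : κ ≠ 0)
    (h : ∀ t : ℝ, κ * t ^ 3 - b * t ^ 2 + c * t - d = κ * ((t - r₁) * (t - r₂) * (t - r₃))) :
    3 * κ * c ≤ b ^ 2 ∧ 3 * b * d ≤ c ^ 2 := by
  obtain ⟨hb, hc, hd⟩ := vieta h
  constructor
  · have h1 : b ^ 2 - 3 * κ * c =
        ((κ * (r₁ - r₂)) ^ 2 + (κ * (r₁ - r₃)) ^ 2 + (κ * (r₂ - r₃)) ^ 2) / 2 := by
      rw [hb, hc]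
      ring
    have h2 : 0 ≤ b ^ 2 - 3 * κ * c := by
      rw [h1]
      positivity
    linarith
  · have h1 : c ^ 2 - 3 * b * d =
        ((κ * (r₁ * r₂ - r₁ * r₃)) ^ 2 + (κ * (r₁ * r₂ - r₂ * r₃)) ^ 2 +
          (κ * (r₁ * r₃ - r₂ * r₃)) ^ 2) / 2 := by
      rw [hb, hc, hd]
      ring
    have h2 : 0 ≤ c ^ 2 - 3 * b * d := by
      rw [h1]
      positivity
    linarith

theorem laguerre {b c d r₁ r₂ r₃ : ℝ}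
    (h : ∀ t : ℝ, t ^ 3 - b * t ^ 2 + c * t - d = (t - r₁) * (t - r₂) * (t - r₃)) (t : ℝ) :
    (t ^ 3 - b * t ^ 2 + c * t - d) * (6 * t - 2 * b) ≤ (3 * t ^ 2 - 2 * b * t + c) ^ 2 := by
  obtain ⟨hb, hc, hd⟩ := vieta (κ := 1) (b := b) (c := c) (d := d) (r₁ := r₁) (r₂ := r₂)
    (r₃ := r₃) (fun t => by rw [one_mul, one_mul]; exact h t)
  rw [one_mul] at hb hc hd
  have h1 : (3 * t ^ 2 - 2 * b * t + c) ^ 2 - (t ^ 3 - b * t ^ 2 + c * t - d) * (6 * t - 2 * b) =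
      ((t - r₁) * (t - r₂)) ^ 2 + ((t - r₁) * (t - r₃)) ^ 2 + ((t - r₂) * (t - r₃)) ^ 2 := by
    rw [hb, hc, hd]
    ring
  have h2 : 0 ≤ (3 * t ^ 2 - 2 * b * t + c) ^ 2 -
      (t ^ 3 - b * t ^ 2 + c * t - d) * (6 * t - 2 * b) := by
    rw [h1]
    positivity
  linarith

end Vale.Agent.P256L
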