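import Mathlib
import Vale.Agent.Lib.P256L.Defs
import Vale.Agent.Lib.P256L.C1
import Vale.Agent.Lib.P256L.Z3a

/-!
PROOF SKETCH.
For all x, s: P(t e - (x + s v)) = P(t e - x) - s B(te-x)(te-x) (hPv, B v = 0). P(te - x) = k
t^3 - b t^2 + c t - P x with k = P e, b, c independent of t and s (P cubic: expand sum tau l^3;
P(-x) = -P x). So k t^3 - (b + s B e e) t^2 + (c + 2 s B e x) t - (P x + s B x x) has three real
roots for every s. (i) If B e x = 0: newton_one second part for all s gives B e e * B x x <= 0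
(coefficient of s^2). If also B x x = 0 and B e e != 0 then 3 (b + s B e e) P x <= c^2 for all s
gives P x = 0, use hN. (ii) If B e e = 0: first part of newton_one, 3 k (c + 2 s B e x) <= b^2
for all s, gives B e x = 0 for every x; then laguerre (divide by k) at t with 6 t - 2 b/k != 0
for all s gives B x x = 0 for every x; take x outside span {e, v} (dimension >= 3), t = r1 a
root of P(te - x): hN gives t e - x = c v, contradiction.
-/

namespace Vale.Agent.P256L

private theorem Z3_lin {A C D : ℝ} (h : ∀ s : ℝ, A + s * C ≤ D) : C = 0 := by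
  by_contra hC
  have h1 := h ((D - A + 1) / C)
  rw [div_mul_cancel₀ _ hC] at h1
  linarith

private theorem Z3_quad {b p β γ D : ℝ} (h : ∀ s : ℝ, 3 * (b + s * β) * (p + s * γ) ≤ D) :
    β * γ ≤ 0 := by
  by_contra hq
  rw [not_le] at hq
  set S : ℝ := 1 + |D / 3 - b * p| / (β * γ) with hS
  have hdiv : 0 ≤ |D / 3 - b * p| / (β * γ) := div_nonneg (abs_nonneg _) hq.le
  have hS1 : 1 ≤ S := by linarith
  have h1 := h S
  have h2 := h (-S)
  have h3 : b * p + S ^ 2 * (β * γ) ≤ D / 3 := by nlinarith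
  have h4 : S * (β * γ) ≤ S ^ 2 * (β * γ) := by
    refine mul_le_mul_of_nonneg_right ?_ hq.le
    nlinarith
  have h5 : S * (β * γ) = β * γ + |D / 3 - b * p| := by
    rw [hS, add_mul, one_mul, div_mul_cancel₀ _ hq.ne']
  have h6 := le_abs_self (D / 3 - b * p)
  linarith

private theorem Z3_out {V : Type} [AddCommGroup V] [Module ℝ V] [FiniteDimensional ℝ V]
    (hV : 3 ≤ Module.finrank ℝ V) (e v : V) : ∃ x : V, ∀ a b : ℝ, x ≠ a • e - b • v := by
  classical
  by_contra hcon
  push Not at hcon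
  have htop : Submodule.span ℝ (({e, v} : Finset V) : Set V) = ⊤ := by
    rw [eq_top_iff]
    intro x _
    obtain ⟨a, b, hx⟩ := hcon x
    rw [hx]
    refine Submodule.sub_mem _ (Submodule.smul_mem _ _ (Submodule.subset_span ?_))
      (Submodule.smul_mem _ _ (Submodule.subset_span ?_))
    · simp
    · simp
  have h1 := finrank_span_finset_le_card (R := ℝ) ({e, v} : Finset V)
  have h2 : Module.finrank ℝ V ≤ ({e, v} : Finset V).card := by
    rw [Set.finrank, htop, finrank_top] at h1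
    exact h1
  have h3 : ({e, v} : Finset V).card ≤ 2 := Finset.card_le_two
  omega

theorem lorentz {V : Type} [AddCommGroup V] [Module ℝ V] [FiniteDimensional ℝ V]
    (hV : 3 ≤ Module.finrank ℝ V) {P : V → ℝ} (hP : IsCubic P) (e v : V) (he : 0 < P e)
    (hr : ∀ x, ∃ r₁ r₂ r₃ : ℝ, ∀ t : ℝ, P (t • e - x) =
      P e * ((t - r₁) * (t - r₂) * (t - r₃)))
    (B : V →ₗ[ℝ] V →ₗ[ℝ] ℝ) (hB : ∀ x y, B x y = B y x) (hBv : ∀ x, B v x = 0)
    (hPv : ∀ (s : ℝ) (x : V), P (s • v + x) = s * B x x + P x)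
    (hN : ∀ x, B x x = 0 → P x = 0 → ∃ c : ℝ, x = c • v) :
    B e e ≠ 0 ∧ (∀ x, B e x = 0 → B e e * B x x ≤ 0) ∧
      ∀ x, B e x = 0 → B x x = 0 → ∃ c : ℝ, x = c • v := by
  have hk := he.ne'
  -- expansion
  have hexp : ∀ x, ∃ b c : ℝ, ∀ s t : ℝ, P (t • e - (x + s • v)) =
      P e * t ^ 3 - (b + s * B e e) * t ^ 2 + (c + 2 * s * B e x) * t - (P x + s * B x x) := by
    intro x
    obtain ⟨N, τ, l, hl⟩ := hP
    refine ⟨3 * ∑ j, τ j * (l j e ^ 2 * l j x), 3 * ∑ j, τ j * (l j e * l j x ^ 2),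
      fun s t => ?_⟩
    have h1 : t • e - (x + s • v) = (-s) • v + (t • e - x) := by
      rw [neg_smul]
      abel
    have h2 : B (t • e - x) (t • e - x) = t ^ 2 * B e e - 2 * t * B e x + B x x := by
      simp only [map_sub, map_smul, LinearMap.sub_apply, LinearMap.smul_apply, smul_eq_mul]
      rw [hB x e]
      ring
    have h3 : P (t • e - x) = P e * t ^ 3 - (3 * ∑ j, τ j * (l j e ^ 2 * l j x)) * t ^ 2
        + (3 * ∑ j, τ j * (l j e * l j x ^ 2)) * t - P x := by
      rw [hl, hl e, hl x]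
      simp only [Finset.mul_sum, Finset.sum_mul]
      rw [← Finset.sum_sub_distrib, ← Finset.sum_add_distrib, ← Finset.sum_sub_distrib]
      refine Finset.sum_congr rfl fun j _ => ?_
      rw [map_sub, map_smul, smul_eq_mul]
      ring
    rw [h1, hPv, h2, h3]
    ring
  have hmain : ∀ x, ∃ b c : ℝ, (∀ s : ℝ, 3 * P e * (c + 2 * s * B e x) ≤ (b + s * B e e) ^ 2) ∧
      (∀ s : ℝ, 3 * (b + s * B e e) * (P x + s * B x x) ≤ (c + 2 * s * B e x) ^ 2) := by
    intro x
    obtain ⟨b, c, h⟩ := hexp x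
    refine ⟨b, c, fun s => ?_, fun s => ?_⟩
    · obtain ⟨r₁, r₂, r₃, hs⟩ := hr (x + s • v)
      exact (newton_one hk fun t => by rw [← h s t, hs t]).1
    · obtain ⟨r₁, r₂, r₃, hs⟩ := hr (x + s • v)
      exact (newton_one hk fun t => by rw [← h s t, hs t]).2
  have hβ : B e e ≠ 0 := by
    intro hβ
    have hex : ∀ x, B e x = 0 := by
      intro x
      obtain ⟨b, c, hA, -⟩ := hmain x
      have h1 : ∀ s : ℝ, 3 * P e * c + s * (6 * P e * B e x) ≤ b ^ 2 := by
        intro s
        have h2 := hA s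
        rw [hβ] at h2
        nlinarith
      have h3 := Z3_lin h1
      rcases mul_eq_zero.1 h3 with h4 | h4
      · exact absurd h4 (by positivity)
      · exact h4
    have hxx : ∀ x, B x x = 0 := by
      intro x
      obtain ⟨b, c, h⟩ := hexp x
      have hlag : ∀ s t : ℝ, (t ^ 3 - b / P e * t ^ 2 + c / P e * t - (P x + s * B x x) / P e)
          * (6 * t - 2 * (b / P e)) ≤ (3 * t ^ 2 - 2 * (b / P e) * t + c / P e) ^ 2 := by
        intro s t
        obtain ⟨r₁, r₂, r₃, hs⟩ := hr (x + s • v)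
        refine laguerre (r₁ := r₁) (r₂ := r₂) (r₃ := r₃) (fun u => ?_) t
        have h1 := (h s u).symm.trans (hs u)
        rw [hβ, hex x] at h1
        have h2 : P e * (u ^ 3 - b / P e * u ^ 2 + c / P e * u - (P x + s * B x x) / P e)
            = P e * ((u - r₁) * (u - r₂) * (u - r₃)) := by
          rw [← h1]
          field_simp
          ring
        exact mul_left_cancel₀ hk h2
      set t₀ : ℝ := b / P e / 3 + 1 with ht
      have h6 : 6 * t₀ - 2 * (b / P e) = 6 := by
        rw [ht]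
        ring
      have h1 : ∀ s : ℝ, (t₀ ^ 3 - b / P e * t₀ ^ 2 + c / P e * t₀ - P x / P e) * 6 +
          s * (-(6 * B x x / P e)) ≤ (3 * t₀ ^ 2 - 2 * (b / P e) * t₀ + c / P e) ^ 2 := by
        intro s
        have h2 := hlag s t₀
        rw [h6] at h2
        refine le_trans (le_of_eq ?_) h2
        ring
      have h3 := Z3_lin h1
      rw [neg_eq_zero, div_eq_zero_iff] at h3
      rcases h3 with h4 | h4
      · linarith
      · exact absurd h4 hk
    obtain ⟨x, hx⟩ := Z3_out hV e v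
    obtain ⟨r₁, r₂, r₃, hs⟩ := hr x
    have h1 : P (r₁ • e - x) = 0 := by
      rw [hs r₁]
      ring
    obtain ⟨c, hc⟩ := hN _ (hxx _) h1
    apply hx r₁ c
    rw [← hc]
    abel
  refine ⟨hβ, ?_, ?_⟩
  · intro x hx
    obtain ⟨b, c, -, hQ⟩ := hmain x
    refine Z3_quad (b := b) (p := P x) (D := c ^ 2) fun s => ?_
    have h1 := hQ s
    rw [hx] at h1
    simpa using h1
  · intro x hx hxx
    obtain ⟨b, c, -, hQ⟩ := hmain x
    have h1 : ∀ s : ℝ, 3 * b * P x + s * (3 * B e e * P x) ≤ c ^ 2 := by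
      intro s
      have h2 := hQ s
      rw [hx, hxx] at h2
      nlinarith
    have h3 := Z3_lin h1
    have h4 : P x = 0 := by
      rcases mul_eq_zero.1 h3 with h5 | h5
      · exact absurd h5 (mul_ne_zero (by norm_num) hβ)
      · exact h5
    exact hN x hxx h4

end Vale.Agent.P256L
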