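import Mathlib
import Vale.Agent.Lib.P256L.Defs

/-!
PROOF SKETCH.
H = ker (B e) has dimension d+1, contains v; -B is positive semidefinite on H with kernel R v.
Choose a complement F of R v in H (dimension d): -B is an inner product on F: get a basis
f_1..f_d of F with -B f_i f_j = delta_ij (e.g. LinearMap.BilinForm.exists_orthogonal_basis and
normalise by sqrt(-B f f), or Gram-Schmidt via InnerProductSpace.Core on F and
stdOrthonormalBasis). g(x1,(x0,y)) = x1 v + x0 (1/eps) e + sum y_i f_i, eps = sqrt (B e e).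
Injective: B(gz)(gz) and B e; then finrank equality gives the equivalence
(LinearEquiv.ofInjective... or LinearEquiv.ofFinrankEq with injective map
LinearMap.linearEquivOfInjective).
-/

namespace Vale.Agent.P256L

private theorem z4_ortho {F : Type} [AddCommGroup F] [Module ℝ F] [FiniteDimensional ℝ F] {d : ℕ}
    (hF : Module.finrank ℝ F = d) (Q : F →ₗ[ℝ] F →ₗ[ℝ] ℝ) (hs : ∀ x y, Q x y = Q y x)
    (hp : ∀ x, 0 ≤ Q x x) (hd : ∀ x, Q x x = 0 → x = 0) :
    ∃ T : EE d ≃ₗ[ℝ] F, ∀ y, Q (T y) (T y) = ‖y‖ ^ 2 := by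
  let core : InnerProductSpace.Core ℝ F :=
    { inner := fun x y => Q x y
      conj_inner_symm := fun x y => by
        show Q y x = Q x y
        exact hs y x
      re_inner_nonneg := fun x => hp x
      add_left := fun x y z => by
        show Q (x + y) z = Q x z + Q y z
        rw [map_add]
        rfl
      smul_left := fun x y r => by
        show Q (r • x) y = r * Q x y
        rw [map_smul]
        rfl
      definite := fun x h => hd x h }
  let _ : NormedAddCommGroup F := core.toNormedAddCommGroup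
  let _ : InnerProductSpace ℝ F := InnerProductSpace.ofCore core.toCore
  let b := (stdOrthonormalBasis ℝ F).reindex (finCongr hF)
  refine ⟨b.repr.symm.toLinearEquiv, fun y => ?_⟩
  have h1 : ‖b.repr.symm y‖ = ‖y‖ := b.repr.symm.norm_map y
  have h2 : inner ℝ (b.repr.symm y) (b.repr.symm y) = ‖b.repr.symm y‖ ^ 2 :=
    real_inner_self_eq_norm_sq _
  rw [h1] at h2
  exact h2

theorem normal_form {V : Type} [AddCommGroup V] [Module ℝ V] [FiniteDimensional ℝ V] {d : ℕ}
    (hV : Module.finrank ℝ V = d + 2) (e v : V) (hv : v ≠ 0)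
    (B : V →ₗ[ℝ] V →ₗ[ℝ] ℝ) (hB : ∀ x y, B x y = B y x) (hBv : ∀ x, B v x = 0)
    (he : 0 < B e e) (h1 : ∀ x, B e x = 0 → B x x ≤ 0)
    (h2 : ∀ x, B e x = 0 → B x x = 0 → ∃ c : ℝ, x = c • v) :
    ∃ (g : (ℝ × (ℝ × EE d)) ≃ₗ[ℝ] V) (ε : ℝ), 0 < ε ∧ g (1, (0, 0)) = v ∧
      g (0, (ε, 0)) = e ∧ ∀ z, B (g z) (g z) = z.2.1 ^ 2 - ‖z.2.2‖ ^ 2 := by
  have hBv' : ∀ x, B x v = 0 := fun x => by rw [hB, hBv]
  obtain ⟨ε, hε, hεε⟩ : ∃ ε : ℝ, 0 < ε ∧ ε ^ 2 = B e e :=
    ⟨Real.sqrt (B e e), Real.sqrt_pos.2 he, Real.sq_sqrt he.le⟩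
  have hli : LinearIndependent ℝ ![v, e] := by
    rw [LinearIndependent.pair_iff]
    intro s t hst
    have h3 : B e (s • v + t • e) = 0 := by rw [hst, map_zero]
    rw [map_add, map_smul, map_smul, hBv', smul_zero, zero_add, smul_eq_mul] at h3
    have ht : t = 0 := (mul_eq_zero.1 h3).resolve_right he.ne'
    rw [ht, zero_smul, add_zero] at hst
    exact ⟨(smul_eq_zero.1 hst).resolve_right hv, ht⟩
  obtain ⟨F, hF⟩ := Submodule.exists_isCompl (Submodule.span ℝ (Set.range ![v, e]))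
  have hU : Module.finrank ℝ (Submodule.span ℝ (Set.range ![v, e])) = 2 := by
    rw [finrank_span_eq_card hli, Fintype.card_fin]
  have hFd : Module.finrank ℝ F = d := by
    have h3 := Submodule.finrank_add_eq_of_isCompl hF
    rw [hU, hV] at h3
    omega
  let P : V →ₗ[ℝ] V := LinearMap.id - ((B e e)⁻¹ • (B e)).smulRight e
  have hP : ∀ x, P x = x - ((B e e)⁻¹ * B e x) • e := fun x => rfl
  have hPe : ∀ x, B e (P x) = 0 := by
    intro x
    rw [hP, map_sub, map_smul, smul_eq_mul]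
    field_simp
    ring
  let Q : F →ₗ[ℝ] F →ₗ[ℝ] ℝ := -(B.compl₁₂ (P.comp F.subtype) (P.comp F.subtype))
  have hQ : ∀ x y : F, Q x y = -B (P x) (P y) := fun x y => rfl
  obtain ⟨T, hT⟩ := z4_ortho hFd Q (fun x y => by rw [hQ, hQ, hB])
    (fun x => by
      rw [hQ]
      have := h1 (P x) (hPe x)
      linarith)
    (fun x hx => by
      rw [hQ, neg_eq_zero] at hx
      obtain ⟨c, hc⟩ := h2 (P x) (hPe x) hx
      rw [hP] at hc
      have h3 : (x : V) = c • v + ((B e e)⁻¹ * B e x) • e := by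
        rw [← hc]
        abel
      have h4 : (x : V) ∈ Submodule.span ℝ (Set.range ![v, e]) := by
        rw [h3]
        refine Submodule.add_mem _ (Submodule.smul_mem _ _ (Submodule.subset_span ⟨0, rfl⟩))
          (Submodule.smul_mem _ _ (Submodule.subset_span ⟨1, rfl⟩))
      have h5 : (x : V) ∈ (Submodule.span ℝ (Set.range ![v, e])) ⊓ F := ⟨h4, x.2⟩
      rw [hF.inf_eq_bot, Submodule.mem_bot] at h5
      exact Subtype.ext h5)
  let g0 : (ℝ × (ℝ × EE d)) →ₗ[ℝ] V :=
    (LinearMap.fst ℝ ℝ (ℝ × EE d)).smulRight v +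
    (((LinearMap.fst ℝ ℝ (EE d)).comp (LinearMap.snd ℝ ℝ (ℝ × EE d))).smulRight (ε⁻¹ • e) +
    ((P.comp F.subtype).comp T.toLinearMap).comp
      ((LinearMap.snd ℝ ℝ (EE d)).comp (LinearMap.snd ℝ ℝ (ℝ × EE d))))
  have hg : ∀ z, g0 z = z.1 • v + (z.2.1 • (ε⁻¹ • e) + P (T z.2.2)) := fun z => rfl
  have hgg : ∀ z, B (g0 z) (g0 z) = z.2.1 ^ 2 - ‖z.2.2‖ ^ 2 := by
    intro z
    have h3 := hT z.2.2
    rw [hQ] at h3
    have h4 : B (P (T z.2.2)) e = 0 := by rw [hB, hPe]
    rw [hg]
    simp only [map_add, map_smul, LinearMap.add_apply, LinearMap.smul_apply, hBv, hBv',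
      smul_zero, zero_add, smul_eq_mul, hPe, h4, mul_zero, add_zero]
    rw [← h3, ← hεε]
    field_simp
    ring
  have hinj : Function.Injective g0 := by
    rw [injective_iff_map_eq_zero]
    intro z hz
    have h3 : B e (g0 z) = 0 := by rw [hz, map_zero]
    rw [hg, map_add, map_add, map_smul, map_smul, map_smul, hBv', hPe, smul_zero, zero_add,
      add_zero, smul_eq_mul, smul_eq_mul] at h3
    have h4 : z.2.1 = 0 := by
      rcases mul_eq_zero.1 h3 with h | h
      · exact h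
      · exact absurd h (mul_pos (inv_pos.2 hε) he).ne'
    have h5 := hgg z
    rw [hz, map_zero, h4] at h5
    have h6 : ‖z.2.2‖ ^ 2 = 0 := by linarith
    have h7 : z.2.2 = 0 := norm_eq_zero.1 (pow_eq_zero_iff (two_ne_zero) |>.1 h6)
    rw [hg, h4, h7, map_zero, zero_smul, zero_add] at hz
    have h8 : P ((0 : F) : V) = 0 := by
      rw [Submodule.coe_zero, map_zero]
    rw [h8, add_zero] at hz
    have h9 : z.1 = 0 := (smul_eq_zero.1 hz).resolve_right hv
    exact Prod.ext h9 (Prod.ext h4 h7)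
  have hdim : Module.finrank ℝ (ℝ × (ℝ × EE d)) = Module.finrank ℝ V := by
    rw [hV, Module.finrank_prod, Module.finrank_prod, Module.finrank_self, finrank_euclideanSpace,
      Fintype.card_fin]
    omega
  refine ⟨LinearMap.linearEquivOfInjective g0 hinj hdim, ε, hε, ?_, ?_, fun z => ?_⟩
  · rw [LinearMap.linearEquivOfInjective_apply, hg, one_smul, zero_smul, zero_add, map_zero,
      Submodule.coe_zero, map_zero, add_zero]
  · rw [LinearMap.linearEquivOfInjective_apply, hg, zero_smul, zero_add, map_zero,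
      Submodule.coe_zero, map_zero, add_zero, smul_smul, mul_inv_cancel₀ hε.ne', one_smul]
  · rw [LinearMap.linearEquivOfInjective_apply]
    exact hgg z

end Vale.Agent.P256L
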