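import Mathlib
import Vale.Agent.Lib.P256L.Defs
import Vale.Agent.Lib.P256L.Z3a

/-!
PROOF SKETCH.
Write F_s(t) = t^3 - (b+s) t^2 + c t - (d - s) = F_0(t) - s (t^2 - 1). Suppose A := 1 - b + c -
d > 0 (= F_s(1)). With R(t) = F_0(t)/(t^2-1): N(t) := F_0'(t)(t^2-1) - 2 t F_0(t) satisfies N(1)
= -2A < 0 and N(t) -> infinity (N(t) = t^4 + ...), so there is T > 1 with N(T) = 0; s0 :=
F_0(T)/(T^2-1): F_{s0}(T) = 0 and F_{s0}'(T) = 0. For s = s0 + del: F_s(T) = -del (T^2-1),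
F_s'(T) = -2 del T, F_s''(T) = E - 2 del with E = F_{s0}''(T). laguerre for all del: -del
(T^2-1)(E - 2 del) <= 4 del^2 T^2, so E = 0 (del small of both signs). Then T is a triple root:
3T = b + s0, c = 3T^2 > 0; but newton_one (kappa = 1): 3 c <= (b+s)^2 for all s, s = -b: c <= 0.
Contradiction.
-/

namespace Vale.Agent.P256L

theorem pencil_nonpos {b c d : ℝ}
    (h : ∀ σ : ℝ, ∃ r₁ r₂ r₃ : ℝ, ∀ t : ℝ, t ^ 3 - (b + σ) * t ^ 2 + c * t - (d - σ) =
      (t - r₁) * (t - r₂) * (t - r₃)) : 1 - b + c - d ≤ 0 := by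
  by_contra hA
  push Not at hA
  have hc : c ≤ 0 := by
    obtain ⟨r₁, r₂, r₃, hr⟩ := h (-b)
    have h1 := (newton_one (b := b + -b) (c := c) (d := d - -b) (r₁ := r₁) (r₂ := r₂) (r₃ := r₃)
      (κ := 1) one_ne_zero (fun t => by
        have := hr t
        rw [one_mul, one_mul]
        exact this)).1
    have h2 : (b + -b) ^ 2 = 0 := by ring
    rw [h2] at h1
    linarith
  obtain ⟨T, hT1, hT⟩ : ∃ T : ℝ, 1 < T ∧
      T ^ 4 - (c + 3) * T ^ 2 + 2 * (b + d) * T - c = 0 := by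
    set M : ℝ := 2 + |c + 3| + 2 * |b + d| + |c| with hM
    have hM2 : 2 ≤ M := by
      have := abs_nonneg (c + 3)
      have := abs_nonneg (b + d)
      have := abs_nonneg c
      rw [hM]
      linarith
    have hcont : ContinuousOn (fun t : ℝ => t ^ 4 - (c + 3) * t ^ 2 + 2 * (b + d) * t - c)
        (Set.Icc 1 M) := by fun_prop
    have h1 : (fun t : ℝ => t ^ 4 - (c + 3) * t ^ 2 + 2 * (b + d) * t - c) 1 ≤ 0 := by
      dsimp only
      linarith
    have h2 : 0 ≤ (fun t : ℝ => t ^ 4 - (c + 3) * t ^ 2 + 2 * (b + d) * t - c) M := by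
      dsimp only
      have hMM : M ≤ M ^ 2 := by nlinarith
      have hM1 : 1 ≤ M ^ 2 := by nlinarith
      have e1 : (c + 3) * M ^ 2 ≤ |c + 3| * M ^ 2 :=
        mul_le_mul_of_nonneg_right (le_abs_self _) (sq_nonneg M)
      have e2 : -(2 * (b + d) * M) ≤ 2 * |b + d| * M ^ 2 := by
        have e3 : -(b + d) ≤ |b + d| := neg_le_abs _
        have e4 : -(b + d) * M ≤ |b + d| * M := mul_le_mul_of_nonneg_right e3 (by linarith)
        have e5 : |b + d| * M ≤ |b + d| * M ^ 2 := mul_le_mul_of_nonneg_left hMM (abs_nonneg _)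
        nlinarith
      have e6 : c ≤ |c| * M ^ 2 := by
        have e7 : |c| * 1 ≤ |c| * M ^ 2 := mul_le_mul_of_nonneg_left hM1 (abs_nonneg _)
        linarith [le_abs_self c]
      have e8 : M ^ 4 - (|c + 3| + 2 * |b + d| + |c|) * M ^ 2 = M ^ 2 * (M ^ 2 - M + 2) := by
        have : |c + 3| + 2 * |b + d| + |c| = M - 2 := by rw [hM]; ring
        rw [this]
        ring
      have e9 : 0 ≤ M ^ 2 * (M ^ 2 - M + 2) := mul_nonneg (sq_nonneg M) (by linarith)
      nlinarith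
    obtain ⟨T, hTm, hT0⟩ := intermediate_value_Icc (by linarith : (1 : ℝ) ≤ M) hcont ⟨h1, h2⟩
    refine ⟨T, lt_of_le_of_ne hTm.1 ?_, hT0⟩
    intro h3
    rw [← h3] at hT0
    dsimp only at hT0
    linarith
  have hT2 : 0 < T ^ 2 - 1 := by nlinarith
  set s : ℝ := (T ^ 3 - b * T ^ 2 + c * T - d) / (T ^ 2 - 1) with hs
  have hs1 : s * (T ^ 2 - 1) = T ^ 3 - b * T ^ 2 + c * T - d := by
    rw [hs]
    field_simp
  have hs2 : 3 * T ^ 2 - 2 * b * T + c - 2 * s * T = 0 := by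
    have h1 : (3 * T ^ 2 - 2 * b * T + c - 2 * s * T) * (T ^ 2 - 1) = 0 := by
      have h2 : (3 * T ^ 2 - 2 * b * T + c - 2 * s * T) * (T ^ 2 - 1) =
          (3 * T ^ 2 - 2 * b * T + c) * (T ^ 2 - 1) - 2 * T * (s * (T ^ 2 - 1)) := by ring
      rw [h2, hs1]
      linear_combination hT
    exact (mul_eq_zero.1 h1).resolve_right hT2.ne'
  set E : ℝ := 6 * T - 2 * (b + s) with hE
  have key : ∀ δ : ℝ, -δ * (T ^ 2 - 1) * (E - 2 * δ) ≤ (2 * δ * T) ^ 2 := by
    intro δ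
    obtain ⟨r₁, r₂, r₃, hr⟩ := h (s + δ)
    have h1 := laguerre hr T
    have h2 : T ^ 3 - (b + (s + δ)) * T ^ 2 + c * T - (d - (s + δ)) = -δ * (T ^ 2 - 1) := by
      linear_combination (-1 : ℝ) * hs1
    have h3 : 6 * T - 2 * (b + (s + δ)) = E - 2 * δ := by
      rw [hE]
      ring
    have h4 : 3 * T ^ 2 - 2 * (b + (s + δ)) * T + c = -(2 * δ * T) := by
      linear_combination hs2
    rw [h2, h3, h4, neg_sq] at h1
    exact h1
  have hE0 : E = 0 := by
    have h1 := key (-((T ^ 2 - 1) * E) / (2 * (2 * T ^ 2 + 2)))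
    set X : ℝ := (T ^ 2 - 1) * E with hX
    have hP : 0 < 2 * T ^ 2 + 2 := by positivity
    have h2 : X ^ 2 ≤ 0 := by
      have h3 : -(-X / (2 * (2 * T ^ 2 + 2))) * X ≤
          (-X / (2 * (2 * T ^ 2 + 2))) ^ 2 * (2 * T ^ 2 + 2) := by
        rw [hX] at h1 ⊢
        nlinarith [h1]
      have h4 : -(-X / (2 * (2 * T ^ 2 + 2))) * X = X ^ 2 / (2 * (2 * T ^ 2 + 2)) := by
        field_simp
      have h5 : (-X / (2 * (2 * T ^ 2 + 2))) ^ 2 * (2 * T ^ 2 + 2) =
          X ^ 2 / (4 * (2 * T ^ 2 + 2)) := by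
        field_simp
        norm_num
      rw [h4, h5, div_le_div_iff₀ (by positivity) (by positivity)] at h3
      nlinarith [h3, sq_nonneg X]
    have h6 : X = 0 := by
      have : X ^ 2 = 0 := le_antisymm h2 (sq_nonneg X)
      exact pow_eq_zero_iff (two_ne_zero) |>.1 this
    rw [hX] at h6
    exact (mul_eq_zero.1 h6).resolve_left hT2.ne'
  have h7 : c = 3 * T ^ 2 := by
    rw [hE] at hE0
    have : b + s = 3 * T := by linarith
    have h8 : s = 3 * T - b := by linarith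
    rw [h8] at hs2
    linear_combination hs2
  nlinarith [sq_nonneg T]

end Vale.Agent.P256L
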