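import Mathlib
import Vale.Agent.Lib.P256L.Defs
import Vale.Agent.Lib.P256L.C1
import Vale.Agent.Lib.P256L.Z5a

/-!
IsCubic.map_smul: a(eps t, eps y) = eps^3 a(t,y). t -> a(t,y) is a cubic polynomial in t with
leading coefficient a(1,0) = a(eps,0)/eps^3 < 0: write -eps^3 a(t,y) = M (t^3 - b t^2 + c t -
d0), M = -eps^3 a(1,0) = -a(eps,0) > 0 (expand a = sum tau l^3). For x = (s, (0, -eps y)): the
left side of hr is -s eps^2 (t^2 - 1) - eps^3 a(t,y) = M (t^3 - (b + sg) t^2 + c t - (d0 - sg)),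
sg = s eps^2/M arbitrary real. pencil_nonpos: 1 - b + c - d0 <= 0, i.e. -eps^3 a(1,y) <= 0; with
hN: a(1,y) > 0.
-/

namespace Vale.Agent.P256L

private theorem cubic_line {d : ℕ} {a : ℝ × EE d → ℝ} (ha : IsCubic a) (y : EE d) (ε : ℝ) :
    ∃ α β γ δ : ℝ, (∀ t : ℝ, a (t, y) = α * t ^ 3 + β * t ^ 2 + γ * t + δ) ∧
      a (ε, 0) = ε ^ 3 * α := by
  obtain ⟨N, τ, l, h⟩ := ha
  refine ⟨∑ j, τ j * (l j (1, 0)) ^ 3, ∑ j, 3 * τ j * (l j (1, 0)) ^ 2 * l j (0, y),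
    ∑ j, 3 * τ j * l j (1, 0) * (l j (0, y)) ^ 2, ∑ j, τ j * (l j (0, y)) ^ 3, ?_, ?_⟩
  · intro t
    rw [h, Finset.sum_mul, Finset.sum_mul, Finset.sum_mul, ← Finset.sum_add_distrib,
      ← Finset.sum_add_distrib, ← Finset.sum_add_distrib]
    refine Finset.sum_congr rfl fun j _ => ?_
    have e : l j (t, y) = t * l j (1, 0) + l j (0, y) := by
      rw [← smul_eq_mul, ← map_smul, ← map_add]
      congr 1
      simp
    rw [e]
    ring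
  · rw [h, Finset.mul_sum]
    refine Finset.sum_congr rfl fun j _ => ?_
    have e : l j (ε, 0) = ε * l j (1, 0) := by
      rw [← smul_eq_mul, ← map_smul]
      congr 1
      simp
    rw [e]
    ring

theorem cone_pos {d : ℕ} {a : ℝ × EE d → ℝ} (ha : IsCubic a) {ε : ℝ} (hε : 0 < ε)
    (h0 : a (ε, 0) < 0)
    (hr : ∀ x : ℝ × (ℝ × EE d), ∃ r₁ r₂ r₃ : ℝ, ∀ t : ℝ,
      (-x.1) * ((t * ε - x.2.1) ^ 2 - ‖x.2.2‖ ^ 2) - a (t * ε - x.2.1, -x.2.2) =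
        (-a (ε, 0)) * ((t - r₁) * (t - r₂) * (t - r₃)))
    (hN : ∀ y : EE d, ‖y‖ = 1 → a (1, y) ≠ 0) (y : EE d) (hy : ‖y‖ = 1) : 0 < a (1, y) := by
  obtain ⟨α, β, γ, δ, hline, hα⟩ := cubic_line ha y ε
  have hε3 : 0 < ε ^ 3 := by positivity
  have hε2 : 0 < ε ^ 2 := by positivity
  set M : ℝ := -a (ε, 0) with hM
  have hMpos : 0 < M := by linarith
  have hMα : M = -(ε ^ 3 * α) := by rw [hM, hα]
  have hMne : M ≠ 0 := hMpos.ne'
  have hε2ne : ε ^ 2 ≠ 0 := hε2.ne'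
  have hsc : ∀ t : ℝ, a (t * ε, ε • y) = ε ^ 3 * a (t, y) := by
    intro t
    rw [← ha.map_smul]
    congr 1
    simp [mul_comm]
  have hp := pencil_nonpos (b := ε ^ 3 * β / M) (c := -(ε ^ 3 * γ) / M) (d := ε ^ 3 * δ / M) (by
    intro σ
    obtain ⟨r₁, r₂, r₃, h⟩ := hr (σ * M / ε ^ 2, (0, -(ε • y)))
    refine ⟨r₁, r₂, r₃, fun t => ?_⟩
    have h1 := h t
    simp only [sub_zero, neg_neg, norm_neg, norm_smul, hy, mul_one, Real.norm_eq_abs,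
      sq_abs] at h1
    rw [hsc, hline] at h1
    have h2 : M * (t ^ 3 - (ε ^ 3 * β / M + σ) * t ^ 2 + -(ε ^ 3 * γ) / M * t -
        (ε ^ 3 * δ / M - σ)) = M * ((t - r₁) * (t - r₂) * (t - r₃)) := by
      rw [← h1]
      field_simp
      rw [hMα]
      ring
    exact mul_left_cancel₀ hMne h2)
  have h3 : M * (1 - ε ^ 3 * β / M + -(ε ^ 3 * γ) / M - ε ^ 3 * δ / M) ≤ 0 :=
    mul_nonpos_of_nonneg_of_nonpos hMpos.le hp
  have h4 : M * (1 - ε ^ 3 * β / M + -(ε ^ 3 * γ) / M - ε ^ 3 * δ / M) =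
      -(ε ^ 3 * a (1, y)) := by
    rw [hline]
    field_simp
    rw [hMα]
    ring
  rw [h4] at h3
  have h5 : 0 ≤ a (1, y) := by
    by_contra hc
    push Not at hc
    have := mul_neg_of_pos_of_neg hε3 hc
    linarith
  exact lt_of_le_of_ne h5 (hN y hy).symm

end Vale.Agent.P256L
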