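import Mathlib
import Vale.Agent.Lib.P256L.Fin
import Vale.Agent.Lib.P256L.Z1
import Vale.Agent.Lib.P256L.Z2
import Vale.Agent.Lib.P256L.Z2b
import Vale.Agent.Lib.P256L.Z3
import Vale.Agent.Lib.P256L.Z4
import Vale.Agent.Lib.P256L.Z5

/-!
P256L: the coordinate free theorem, assembly.
-/

namespace Vale.Agent.P256L

theorem main_core {V : Type} [AddCommGroup V] [Module ℝ V] [FiniteDimensional ℝ V] {d : ℕ}
    (hV : Module.finrank ℝ V = d + 2) {P : V → ℝ} (hP : IsCubic P) (e v : V) (hv : v ≠ 0)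
    (he : 0 < P e)
    (hr : ∀ x, ∃ r₁ r₂ r₃ : ℝ, ∀ t : ℝ, P (t • e - x) =
      P e * ((t - r₁) * (t - r₂) * (t - r₃)))
    (B : V →ₗ[ℝ] V →ₗ[ℝ] ℝ) (hB : ∀ x y, B x y = B y x) (hBv : ∀ x, B v x = 0)
    (hPv : ∀ (s : ℝ) (x : V), P (s • v + x) = s * B x x + P x)
    (hN : ∀ x, B x x = 0 → P x = 0 → ∃ c : ℝ, x = c • v)
    (h0 : 0 < B e e) (h1 : ∀ x, B e x = 0 → B x x ≤ 0)
    (h2 : ∀ x, B e x = 0 → B x x = 0 → ∃ c : ℝ, x = c • v) :
    Rep {x | ∀ t : ℝ, P (t • e - x) = 0 → 0 ≤ t} := by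
  obtain ⟨g, ε, hε, hgv, hge, hBg⟩ := normal_form hV e v hv B hB hBv h0 h1 h2
  set a : ℝ × EE d → ℝ := fun z => (-1) * P (g (0, z)) with ha
  have hac : IsCubic a :=
    (hP.comp (g.toLinearMap ∘ₗ LinearMap.inr ℝ ℝ (ℝ × EE d))).smul (-1)
  have hPg : ∀ z, P (g z) = z.1 * (z.2.1 ^ 2 - ‖z.2.2‖ ^ 2) - a z.2 := by
    intro z
    have h3 : g z = z.1 • v + g (0, z.2) := by
      rw [← hgv, ← map_smul, ← map_add]
      congr 1
      ext <;> simp
    rw [h3, hPv, hBg, ha]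
    ring
  have ha0 : a (ε, 0) < 0 := by
    rw [ha]
    simp only [hge]
    linarith
  have hsub : ∀ (t : ℝ) (x : ℝ × (ℝ × EE d)), P (t • e - g x) =
      (-x.1) * ((t * ε - x.2.1) ^ 2 - ‖x.2.2‖ ^ 2) - a (t * ε - x.2.1, -x.2.2) := by
    intro t x
    rw [← hge, ← map_smul, ← map_sub, hPg]
    have h4 : t • ((0 : ℝ), (ε, (0 : EE d))) - x = (-x.1, (t * ε - x.2.1, -x.2.2)) := by
      ext <;> simp
    rw [h4]
    simp only [norm_neg]
  have hPe : P e = -a (ε, 0) := by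
    rw [ha]
    simp only [hge]
    ring
  have hpos : ∀ y : EE d, ‖y‖ = 1 → 0 < a (1, y) := by
    refine fun y hy => cone_pos hac hε ha0 (fun x => ?_) (fun y hy h => ?_) y hy
    · obtain ⟨r₁, r₂, r₃, h⟩ := hr (g x)
      refine ⟨r₁, r₂, r₃, fun t => ?_⟩
      rw [← hsub, h, hPe]
    · have hb : B (g (0, (1, y))) (g (0, (1, y))) = 0 := by
        rw [hBg]
        simp [hy]
      have hp : P (g (0, (1, y))) = 0 := by
        rw [hPg]
        simp [h]
      obtain ⟨c, hc⟩ := hN _ hb hp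
      rw [← hgv, ← map_smul] at hc
      have := g.injective hc
      have h5 := congrArg (fun z : ℝ × (ℝ × EE d) => z.2.1) this
      simp at h5
  have hrep := (rep_K hac hpos).comap g.symm.toLinearMap
  convert hrep using 1
  ext x
  have hex := exists_roots hac hpos (0, (ε, 0)) (by simpa using hε) (by simpa using ha0) (g.symm x)
  obtain ⟨r₁, r₂, r₃, hr', hK⟩ := hex
  have hfac : ∀ t : ℝ, P (t • e - x) = P e * ((t - r₁) * (t - r₂) * (t - r₃)) := by
    intro t
    have h6 := hsub t (g.symm x)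
    rw [g.apply_symm_apply] at h6
    have h7 := hr' t
    have h8 : t • ((ε, (0 : EE d)) : ℝ × EE d) - (g.symm x).2 =
        (t * ε - (g.symm x).2.1, -(g.symm x).2.2) := by
      ext <;> simp
    simp only [mul_zero, zero_sub, smul_zero, norm_neg, zero_mul] at h7
    rw [h8] at h7
    rw [h6, hPe, h7]
  show (∀ t : ℝ, P (t • e - x) = 0 → 0 ≤ t) ↔ g.symm x ∈ K a
  rw [hK]
  constructor
  · intro h
    refine ⟨h r₁ ?_, h r₂ ?_, h r₃ ?_⟩ <;> rw [hfac] <;> simp
  · rintro ⟨h1, h2, h3⟩ t ht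
    rw [hfac] at ht
    rcases mul_eq_zero.1 ht with h | h
    · exact absurd h he.ne'
    · rcases mul_eq_zero.1 h with h | h
      · rcases mul_eq_zero.1 h with h | h
        · linarith
        · linarith
      · linarith

theorem main2 {n : ℕ} (hn : 3 ≤ n) (p : MvPolynomial (Fin n) ℝ) (hp : p.IsHomogeneous 3)
    (e : Fin n → ℝ) (he : Hyperbolic p e) (v : Fin n → ℝ) (hv : v ≠ 0)
    (hs : ∀ i, MvPolynomial.eval v (MvPolynomial.pderiv i p) = 0)
    (hl : ∀ x : Fin n → ℝ, (∀ s : ℝ, MvPolynomial.eval (v + s • x) p = 0) →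
      ∃ c : ℝ, x = c • v) : Rep (hypCone p e) := by
  set P : (Fin n → ℝ) → ℝ := fun x => MvPolynomial.eval x p with hPdef
  have hP : IsCubic P := isCubic_of_isHomogeneous p hp
  have hr : ∀ x, ∃ r₁ r₂ r₃ : ℝ, ∀ t : ℝ, P (t • e - x) =
      P e * ((t - r₁) * (t - r₂) * (t - r₃)) :=
    fun x => roots_of_hyperbolic p hp e he.1 he.2 x
  obtain ⟨B, hB, hBv, hPv⟩ := exists_polar hP v (fun x => hasDerivAt_of_pderiv p v hs x)
  have hN : ∀ x, B x x = 0 → P x = 0 → ∃ c : ℝ, x = c • v := by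
    intro x hx hx2
    refine hl x fun s => ?_
    have h3 := hPv 1 (s • x)
    rw [one_smul] at h3
    show P (v + s • x) = 0
    rw [h3, hP.map_smul, hx2]
    simp [hx]
  have hfr : Module.finrank ℝ (Fin n → ℝ) = (n - 2) + 2 := by
    rw [Module.finrank_fin_fun]
    omega
  obtain ⟨h0, h1, h2⟩ := lorentz (by rw [Module.finrank_fin_fun]; exact hn) hP e v he.1 hr B hB hBv
    hPv hN
  have hset : hypCone p e = {x | ∀ t : ℝ, P (t • e - x) = 0 → 0 ≤ t} := rfl
  rw [hset]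
  rcases lt_or_gt_of_ne h0 with h | h
  · refine main_core hfr hP e (-v) (neg_ne_zero.2 hv) he.1 hr (-B) ?_ ?_ ?_ ?_ ?_ ?_ ?_
    · intro x y
      simp [hB x y]
    · intro x
      simp [hBv x]
    · intro s x
      have h3 := hPv (-s) x
      rw [smul_neg, ← neg_smul, h3]
      simp
    · intro x hx hx2
      obtain ⟨c, hc⟩ := hN x (by simpa using hx) hx2
      exact ⟨-c, by rw [hc]; simp⟩
    · simpa using h
    · intro x hx
      have h4 := h1 x (by simpa using hx)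
      have h5 : 0 ≤ B x x := by
        by_contra h6
        push Not at h6
        nlinarith [mul_pos_of_neg_of_neg h h6]
      simpa using h5
    · intro x hx hx2
      obtain ⟨c, hc⟩ := h2 x (by simpa using hx) (by simpa using hx2)
      exact ⟨-c, by rw [hc]; simp⟩
  · refine main_core hfr hP e v hv he.1 hr B hB hBv hPv hN h ?_ h2
    intro x hx
    have h4 := h1 x hx
    by_contra h6
    push Not at h6
    nlinarith [mul_pos h h6]

end Vale.Agent.P256L
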