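import Mathlib
import Vale.Agent.Lib.P256L.Fin2

/-!
P256L: the normal forms satisfy the hypotheses of the coordinate free theorem.
-/

namespace Vale.Agent.P256L

open MvPolynomial

private theorem Fin3_gen {n : ℕ} (p : MvPolynomial (Fin n) ℝ) (v x : Fin n → ℝ) (s : ℝ) :
    HasDerivAt (fun s : ℝ => MvPolynomial.eval (v + s • x) p)
      (∑ i, x i * MvPolynomial.eval (v + s • x) (MvPolynomial.pderiv i p)) s := by
  induction p using MvPolynomial.induction_on with
  | C a =>
    simp only [MvPolynomial.eval_C, MvPolynomial.pderiv_C, map_zero, mul_zero,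
      Finset.sum_const_zero]
    exact hasDerivAt_const s a
  | add p q hp hq =>
    have h := hp.add hq
    refine (h.congr_deriv ?_).congr_of_eventuallyEq (Filter.Eventually.of_forall fun t => ?_)
    · rw [← Finset.sum_add_distrib]
      refine Finset.sum_congr rfl fun i _ => ?_
      rw [map_add, map_add]
      ring
    · exact map_add _ _ _
  | mul_X p j hp =>
    have h1 : HasDerivAt (fun s : ℝ => v j + s * x j) (x j) s := by
      have h2 := ((hasDerivAt_id s).mul_const (x j)).const_add (v j)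
      rw [one_mul] at h2
      exact h2
    have h := hp.mul h1
    refine (h.congr_deriv ?_).congr_of_eventuallyEq (Filter.Eventually.of_forall fun t => ?_)
    · have h3 : ∀ i, x i * MvPolynomial.eval (v + s • x) (MvPolynomial.pderiv i
          (p * MvPolynomial.X j)) = x i * MvPolynomial.eval (v + s • x)
          (MvPolynomial.pderiv i p) * (v j + s * x j) +
          (if j = i then x i * MvPolynomial.eval (v + s • x) p else 0) := by
        intro i
        rw [MvPolynomial.pderiv_mul, map_add, map_mul, map_mul, MvPolynomial.eval_X,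
          MvPolynomial.pderiv_X]
        have h4 : (v + s • x) j = v j + s * x j := rfl
        rw [h4]
        by_cases hij : j = i
        · subst hij
          rw [if_pos rfl, Pi.single_eq_same, map_one]
          ring
        · rw [if_neg hij, Pi.single_eq_of_ne hij, map_zero]
          ring
      rw [Finset.sum_congr rfl fun i _ => h3 i, Finset.sum_add_distrib, Finset.sum_mul,
        Finset.sum_ite_eq, if_pos (Finset.mem_univ _)]
      ring
    · change MvPolynomial.eval (v + t • x) (p * MvPolynomial.X j) = _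
      rw [map_mul, MvPolynomial.eval_X]
      rfl

theorem eval_nodal_line {d : ℕ} {a : MvPolynomial (Fin (d + 1)) ℝ} (ha : a.IsHomogeneous 3)
    (x : Fin (d + 2) → ℝ) (s : ℝ) :
    eval ((Pi.single 0 1 : Fin (d + 2) → ℝ) + s • x) (nodal a) =
      s ^ 2 * ((1 + s * (Phi d x).1) * ((Phi d x).2.1 ^ 2 - ‖(Phi d x).2.2‖ ^ 2) -
        s * fa a (Phi d x).2) := by
  have h1 : Phi d ((Pi.single 0 1 : Fin (d + 2) → ℝ)) = (1, (0, 0)) := by
    unfold Phi
    simp only [LinearMap.coe_mk, AddHom.coe_mk]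
    have h2 : (Pi.single 0 1 : Fin (d + 2) → ℝ) 1 = 0 :=
      Pi.single_eq_of_ne (by simp) _
    have h3 : ∀ i : Fin d, (Pi.single 0 1 : Fin (d + 2) → ℝ) i.succ.succ = 0 := fun i =>
      Pi.single_eq_of_ne (Fin.succ_ne_zero _) _
    simp only [Pi.single_eq_same, h2, h3]
    rfl
  have h4 : Phi d ((Pi.single 0 1 : Fin (d + 2) → ℝ) + s • x) =
      (1 + s * (Phi d x).1, s • (Phi d x).2) := by
    rw [map_add, map_smul, h1]
    ext <;> simp
  rw [eval_nodal, h4, (isCubic_fa ha).map_smul]
  simp only [Prod.smul_fst, Prod.smul_snd, smul_eq_mul, norm_smul, Real.norm_eq_abs, mul_pow,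
    sq_abs]
  ring

theorem pderiv_nodal {d : ℕ} {a : MvPolynomial (Fin (d + 1)) ℝ} (ha : a.IsHomogeneous 3)
    (i : Fin (d + 2)) :
    eval (Pi.single 0 1 : Fin (d + 2) → ℝ) (pderiv i (nodal a)) = 0 := by
  have h1 := Fin3_gen (nodal a) (Pi.single 0 1) (Pi.single i 1) 0
  have h2 : ∑ j, (Pi.single i 1 : Fin (d + 2) → ℝ) j *
      eval ((Pi.single 0 1 : Fin (d + 2) → ℝ) + (0 : ℝ) • (Pi.single i 1 : Fin (d + 2) → ℝ))
        (pderiv j (nodal a)) =
      eval (Pi.single 0 1 : Fin (d + 2) → ℝ) (pderiv i (nodal a)) := by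
    rw [Finset.sum_eq_single i]
    · simp
    · intro j _ hj
      rw [Pi.single_eq_of_ne hj, zero_mul]
    · intro h
      exact absurd (Finset.mem_univ i) h
  rw [h2] at h1
  have h3 : HasDerivAt (fun s : ℝ => eval ((Pi.single 0 1 : Fin (d + 2) → ℝ) +
      s • (Pi.single i 1 : Fin (d + 2) → ℝ)) (nodal a)) 0 0 := by
    simp_rw [eval_nodal_line ha]
    set X := (Phi d (Pi.single i 1 : Fin (d + 2) → ℝ)).1
    set q := (Phi d (Pi.single i 1 : Fin (d + 2) → ℝ)).2.1 ^ 2 -
      ‖(Phi d (Pi.single i 1 : Fin (d + 2) → ℝ)).2.2‖ ^ 2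
    set F := fa a (Phi d (Pi.single i 1 : Fin (d + 2) → ℝ)).2
    have h4 : HasDerivAt (fun s : ℝ => s ^ 2) 0 0 := by
      simpa using hasDerivAt_pow 2 (0 : ℝ)
    have h5 : DifferentiableAt ℝ (fun s : ℝ => (1 + s * X) * q - s * F) 0 := by
      fun_prop
    have h6 := h4.mul h5.hasDerivAt
    exact h6.congr_deriv (by simp)
  exact h1.unique h3

theorem noline_nodal {d : ℕ} {a : MvPolynomial (Fin (d + 1)) ℝ} (ha : a.IsHomogeneous 3)
    (hpos : ∀ z : Fin (d + 1) → ℝ, 0 < z 0 → z 0 ^ 2 = ∑ i : Fin d, z i.succ ^ 2 → 0 < eval z a)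
    (x : Fin (d + 2) → ℝ)
    (hx : ∀ s : ℝ, eval ((Pi.single 0 1 : Fin (d + 2) → ℝ) + s • x) (nodal a) = 0) :
    ∃ c : ℝ, x = c • (Pi.single 0 1 : Fin (d + 2) → ℝ) := by
  have h1 := hx 1
  have h2 := hx (-1)
  rw [eval_nodal_line ha] at h1 h2
  have hq : (Phi d x).2.1 ^ 2 - ‖(Phi d x).2.2‖ ^ 2 = 0 := by linarith
  have hF : fa a (Phi d x).2 = 0 := by
    rw [hq] at h1
    linarith
  have key : ∀ z : ℝ × EE d, 0 < z.1 → z.1 ^ 2 = ‖z.2‖ ^ 2 → 0 < fa a z := by
    intro z hz hz2
    unfold fa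
    refine hpos _ ?_ ?_
    · simpa using hz
    · rw [EuclideanSpace.norm_sq_eq] at hz2
      simpa using hz2
  have h3 : (Phi d x).2.1 = 0 := by
    rcases lt_trichotomy (Phi d x).2.1 0 with h | h | h
    · have h4 := key (-(Phi d x).2) (by simpa using h) (by
        simp only [Prod.fst_neg, Prod.snd_neg, norm_neg, neg_sq]
        linarith)
      rw [(isCubic_fa ha).map_neg, hF] at h4
      simp at h4
    · exact h
    · have h4 := key (Phi d x).2 h (by linarith)
      rw [hF] at h4
      exact absurd h4 (lt_irrefl _)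
  have h5 : (Phi d x).2.2 = 0 := by
    rw [h3] at hq
    have h6 : ‖(Phi d x).2.2‖ ^ 2 = 0 := by linarith
    simpa using h6
  refine ⟨x 0, ?_⟩
  funext i
  refine Fin.cases ?_ (fun i => ?_) i
  · simp
  · refine Fin.cases ?_ (fun i => ?_) i
    · have h7 : x 1 = 0 := h3
      show x 1 = x 0 * (Pi.single 0 1 : Fin (d + 2) → ℝ) 1
      rw [h7, Pi.single_eq_of_ne (by simp), mul_zero]
    · have h8 : x i.succ.succ = 0 := by
        have h9 := congrArg (fun y : EE d => y i) h5
        exact h9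
      show x i.succ.succ = x 0 * (Pi.single 0 1 : Fin (d + 2) → ℝ) i.succ.succ
      rw [h8, Pi.single_eq_of_ne (Fin.succ_ne_zero _), mul_zero]

end Vale.Agent.P256L
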